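import Vale.Agent.P277Z.Pos.MSpec
import Vale.Agent.P272.K.INT.Local
import Vale.Agent.P272.K.Inv.Chart

/-!
# P277Z, block P: Kähler metrics from local potentials
-/

open scoped Manifold ContDiff ComplexOrder Topology
open Filter Set

noncomputable section

namespace Vale.Agent.P277Z.Pos

open Vale.Agent.P272.K

/-- change of chart for the complex Hessian of a function of class `C²` at one point -/
theorem cHess_chart {d : ℕ} {Y : Type} [TopologicalSpace Y] [ChartedSpace (Cm d) Y]
    [IsManifold 𝓘(ℂ, Cm d) ω Y] {u : Y → ℝ} {e e' : Chart d Y} {x : Y} (h : At e x) (h' : At e' x)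
    (hu : ContDiffAt ℝ 2 (fun z => u (e'.symm z)) (e' x)) :
    cHess (fun y => u (e.symm y)) (e x) = (jacM e e' x).transpose *
      cHess (fun y => u (e'.symm y)) (e' x) * (jacM e e' x).map (starRingEnd ℂ) := by
  have h1 : (fun y => u (e.symm y)) =ᶠ[𝓝 (e x)] fun y => u (e'.symm (e' (e.symm y))) := by
    filter_upwards [h.nhds_at h'] with z hz
    rw [hz.2.2.left_inv]
  have h2 : e' (e.symm (e x)) = e' x := by rw [h.left_inv]
  rw [cHess_congr h1]
  have := cHess_comp (τ := fun z => e' (e.symm z)) (f := fun y => u (e'.symm y)) (z := e x)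
    (by rw [h2]; exact hu) (transition h h')
  rw [h2] at this
  exact this

theorem kah : KAH := by
  intro d Y _ _ _ ι U u hU hc hp hf
  choose k hk using hc
  have two : (2 : WithTop ℕ∞) ≤ ∞ := by norm_cast
  have key : ∀ i (e : Chart d Y) y, At e y → y ∈ U i →
      cHess (fun z => u (k (e.symm (e y))) (e.symm z)) (e y) =
        cHess (fun z => u i (e.symm z)) (e y) := fun i e y h hy => by
    rw [h.left_inv, ← sub_eq_zero, ← cHess_sub ((hp _ y (hk y) e h).1.of_le two)
      ((hp i y hy e h).1.of_le two)]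
    exact (hf _ i y (hk y) hy e h).2
  have ev : ∀ (e : Chart d Y) y, At e y → ∀ a b,
      (fun w => cHess (fun z => u (k (e.symm w)) (e.symm z)) w a b) =ᶠ[𝓝 (e y)]
        fun w => cHess (fun z => u (k y) (e.symm z)) w a b := fun e y h a b => by
    filter_upwards [h.nhds_target, (e.tendsto_symm h.2).eventually ((hU _).mem_nhds (hk y))]
      with w h1 h2
    have := key (k y) e _ (At.of_target h.1 h1) h2
    rw [e.right_inv h1] at this
    rw [this]
  refine ⟨fun e w => cHess (fun z => u (k (e.symm w)) (e.symm z)) w,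
    ⟨⟨fun e y h a b => ?_, fun e y h => ?_, fun e e' y h h' => ?_⟩, fun e y h a b c => ?_⟩, key⟩
  · exact (INT.smooth_cHess (hp _ y (hk y) e h).1 a b).congr_of_eventuallyEq (ev e y h a b)
  · rw [key _ e y h (hk y)]
    exact (hp _ y (hk y) e h).2
  · rw [key _ e y h (hk y), key _ e' y h' (hk y)]
    exact cHess_chart h h' ((hp _ y (hk y) e' h').1.of_le two)
  · rw [dz_congr (ev e y h a b), dz_congr (ev e y h c b)]
    exact INT.cHess_closed (hp _ y (hk y) e h).1 c a b

end Vale.Agent.P277Z.Pos
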