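import Vale.Agent.P277Z.Pos.MSpec
import Vale.Agent.P284Y.Lib.Dg
import Vale.Agent.P284Y.P.PshB

/-!
# P277Z, block P: touching functions
-/

set_option linter.unusedSectionVars false

open Filter Topology Set Function
open scoped ContDiff

noncomputable section

namespace Vale.Agent.P277Z.Pos

open Vale.Agent.P284Z (levi)
open Vale.Agent.P284Y.Lib (levi_congr levi_add levi_sum levi_const_mul levi_const levi_hol levi_re)

variable {ι κ : Type} [Fintype ι] [Fintype κ]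

theorem nsq_nonneg (z : ι → ℂ) : 0 ≤ nsq z := Finset.sum_nonneg fun _ _ => sq_nonneg _

theorem nsq_zero : nsq (0 : ι → ℂ) = 0 := by simp [nsq]

theorem sq_le_nsq (z : ι → ℂ) (l : ι) : ‖z l‖ ^ 2 ≤ nsq z :=
  Finset.single_le_sum (f := fun l => ‖z l‖ ^ 2) (fun _ _ => sq_nonneg _) (Finset.mem_univ l)

theorem norm_sq_le_nsq (z : ι → ℂ) : ‖z‖ ^ 2 ≤ nsq z := by
  have h : ‖z‖ ≤ √(nsq z) := (pi_norm_le_iff_of_nonneg (Real.sqrt_nonneg _)).2 fun l =>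
    Real.le_sqrt_of_sq_le (sq_le_nsq z l)
  calc ‖z‖ ^ 2 ≤ √(nsq z) ^ 2 := by gcongr
    _ = nsq z := Real.sq_sqrt (nsq_nonneg z)

theorem nsq_le (z : ι → ℂ) : nsq z ≤ Fintype.card ι * ‖z‖ ^ 2 := by
  have : nsq z ≤ ∑ _l : ι, ‖z‖ ^ 2 := Finset.sum_le_sum fun l _ => by
    gcongr
    exact norm_le_pi_norm z l
  simpa using this

theorem contDiff_nsq {n : WithTop ℕ∞} : ContDiff ℝ n (nsq : (ι → ℂ) → ℝ) :=
  ContDiff.sum fun l _ => (contDiff_norm_sq ℝ).comp (contDiff_apply ℝ ℂ l)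

theorem continuous_nsq : Continuous (nsq : (ι → ℂ) → ℝ) := (contDiff_nsq (n := 0)).continuous

theorem levi_nsq' (z ξ : ι → ℂ) : levi nsq z ξ = 4 * nsq ξ := by
  have a : ∀ l, AnalyticAt ℂ (fun y : ι → ℂ => y l) z := fun l =>
    (ContinuousLinearMap.proj (R := ℂ) (φ := fun _ : ι => ℂ) l).analyticAt z
  have := levi_sum (w := ξ) (z := z) Finset.univ (f := fun l (y : ι → ℂ) => ‖y l‖ ^ 2)
    fun l _ => ((contDiff_norm_sq ℝ).comp (contDiff_apply ℝ ℂ l)).contDiffAt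
  refine this.trans ?_
  rw [nsq, Finset.mul_sum]
  refine Finset.sum_congr rfl fun l _ => ?_
  rw [P284Y.Ps.levi_nsq (a l)]
  congr 3
  exact congrArg (fun L => L ξ)
    (ContinuousLinearMap.proj (R := ℂ) (φ := fun _ : ι => ℂ) l).fderiv

theorem c2_of_an {F : (ι → ℂ) → κ → ℂ} {v : ι → ℂ} (h : AnalyticAt ℂ F v) : ContDiffAt ℝ 2 F v :=
  (h.contDiffAt (n := 2)).restrict_scalars ℝ

theorem levi_nsq_comp {F : (ι → ℂ) → κ → ℂ} {v : ι → ℂ} (h : AnalyticAt ℂ F v) (ξ : ι → ℂ) :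
    levi (fun z => nsq (F z)) v ξ = 4 * nsq (fderiv ℂ F v ξ) := by
  rw [levi_hol h contDiff_nsq.contDiffAt, levi_nsq']

/-- `log |f|` is the real part of a holomorphic function near a point with `f ≠ 0` -/
theorem log_norm_eq {f : (ι → ℂ) → ℂ} {v : ι → ℂ} (h : AnalyticAt ℂ f v) (h0 : f v ≠ 0) :
    ∃ g : (ι → ℂ) → ℂ, AnalyticAt ℂ g v ∧ ∀ᶠ z in 𝓝 v, Real.log ‖f z‖ = (g z).re := by
  have a : AnalyticAt ℂ (fun z => f z / f v) v := h.div analyticAt_const h0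
  have b : f v / f v ∈ Complex.slitPlane := by rw [div_self h0]; exact Complex.one_mem_slitPlane
  refine ⟨fun z => Complex.log (f z / f v) + Real.log ‖f v‖, (a.clog b).add analyticAt_const, ?_⟩
  filter_upwards [h.continuousAt.eventually_ne h0] with z hz
  rw [Complex.add_re, Complex.log_re, Complex.ofReal_re, norm_div,
    Real.log_div (norm_ne_zero_iff.2 hz) (norm_ne_zero_iff.2 h0)]
  ring

theorem log_norm_c2 {f : (ι → ℂ) → ℂ} {v : ι → ℂ} (h : AnalyticAt ℂ f v) (h0 : f v ≠ 0) :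
    ContDiffAt ℝ 2 (fun z => Real.log ‖f z‖) v ∧ ∀ ξ, levi (fun z => Real.log ‖f z‖) v ξ = 0 := by
  obtain ⟨g, h1, h2⟩ := log_norm_eq h h0
  exact ⟨(Complex.reCLM.contDiff.contDiffAt.comp v
    ((h1.contDiffAt (n := 2)).restrict_scalars ℝ)).congr_of_eventuallyEq h2,
    fun ξ => (levi_congr h2).trans (levi_re h1)⟩

namespace Tch

variable {f g : (ι → ℂ) → ℝ} {S : Set (ι → ℂ)} {v : ι → ℂ} {H H' : (ι → ℂ) → ℝ}

theorem of_c2 (h : ContDiffAt ℝ 2 f v) (h' : ∀ ξ, H ξ ≤ levi f v ξ) : Tch f S v H :=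
  ⟨f, h, rfl, Eventually.of_forall fun _ => le_rfl, h'⟩

theorem mono (h : Tch f S v H) (h' : ∀ ξ, H' ξ ≤ H ξ) : Tch f S v H' :=
  h.imp fun _ ⟨a, b, c, d⟩ => ⟨a, b, c, fun ξ => (h' ξ).trans (d ξ)⟩

theorem of_le (h : Tch f S v H) (h1 : f v = g v) (h2 : ∀ᶠ u in 𝓝[S] v, f u ≤ g u) : Tch g S v H :=
  h.imp fun _ ⟨a, b, c, d⟩ => ⟨a, b.trans h1, (c.and h2).mono fun _ k => k.1.trans k.2, d⟩

theorem filter {S' : Set (ι → ℂ)} (h : Tch f S v H) (h' : 𝓝[S'] v ≤ 𝓝[S] v) : Tch f S' v H :=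
  h.imp fun _ ⟨a, b, c, d⟩ => ⟨a, b, c.filter_mono h', d⟩

theorem add (h : Tch f S v H) (h' : Tch g S v H') :
    Tch (fun z => f z + g z) S v fun ξ => H ξ + H' ξ := by
  obtain ⟨q, a, b, c, d⟩ := h
  obtain ⟨q', a', b', c', d'⟩ := h'
  refine ⟨fun z => q z + q' z, a.add a', by simp only [b, b'],
    (c.and c').mono fun _ k => add_le_add k.1 k.2, fun ξ => ?_⟩
  rw [levi_add a a']
  exact add_le_add (d ξ) (d' ξ)

theorem const_mul (h : Tch f S v H) {t : ℝ} (ht : 0 ≤ t) :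
    Tch (fun z => t * f z) S v fun ξ => t * H ξ := by
  obtain ⟨q, a, b, c, d⟩ := h
  refine ⟨fun z => t * q z, contDiffAt_const.mul a, by simp only [b],
    c.mono fun _ k => mul_le_mul_of_nonneg_left k ht, fun ξ => ?_⟩
  rw [levi_const_mul a]
  exact mul_le_mul_of_nonneg_left (d ξ) ht

theorem comp {S' : Set (κ → ℂ)} {v' : κ → ℂ} {Φ : (κ → ℂ) → ι → ℂ} (hΦ : AnalyticAt ℂ Φ v')
    (h : Tch f S (Φ v') H) (hS : ∀ᶠ u in 𝓝[S'] v', Φ u ∈ S) :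
    Tch (fun z => f (Φ z)) S' v' fun ξ => H (fderiv ℂ Φ v' ξ) := by
  obtain ⟨q, a, b, c, d⟩ := h
  have t : Tendsto Φ (𝓝[S'] v') (𝓝[S] (Φ v')) :=
    tendsto_nhdsWithin_iff.2 ⟨hΦ.continuousAt.tendsto.mono_left nhdsWithin_le_nhds, hS⟩
  refine ⟨fun z => q (Φ z), a.comp v' (c2_of_an hΦ), b, t.eventually c, fun ξ => ?_⟩
  rw [levi_hol hΦ a]
  exact d _

theorem nsq_comp {F : (ι → ℂ) → κ → ℂ} (h : AnalyticAt ℂ F v) (t : ℝ) :
    Tch (fun z => t * nsq (F z)) S v fun ξ => t * (4 * nsq (fderiv ℂ F v ξ)) := by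
  have a : ContDiffAt ℝ 2 (fun z => nsq (F z)) v := contDiff_nsq.contDiffAt.comp v (c2_of_an h)
  exact of_c2 (contDiffAt_const.mul a) fun ξ => by rw [levi_const_mul a, levi_nsq_comp h]

theorem log_norm {F : (ι → ℂ) → ℂ} (h : AnalyticAt ℂ F v) (h0 : F v ≠ 0) (t : ℝ) :
    Tch (fun z => t * Real.log ‖F z‖) S v fun _ => 0 := by
  obtain ⟨a, b⟩ := log_norm_c2 h h0
  exact of_c2 (contDiffAt_const.mul a) fun ξ => by rw [levi_const_mul a, b, mul_zero]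

end Tch

end Vale.Agent.P277Z.Pos
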