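import Vale.Agent.P277Z.Pos.DefsC
import Vale.Agent.P277Z.Pos.Tch
import Vale.Agent.P277Z.Hir.BArr
import Vale.Agent.P277Z.Hir.BRef

/-!
# P277Z, block P: refinement, restriction, initial atlas
-/

set_option linter.dupNamespace false
set_option linter.unusedSectionVars false

open Filter Topology Set Function

noncomputable section

namespace Vale.Agent.P277Z.Pos

open Vale.Agent.P277Z.Hir.Gl

variable {ι X : Type} [Fintype ι] [DecidableEq ι] [TopologicalSpace X]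

theorem lgs_eq (C : Ch ι X) (c : ℕ → ℚ) {J : Finset ℕ} (h0 : 0 ∉ J)
    (hJ : ∀ l, C.lab l ≠ 0 → C.lab l ∈ J) {z : ι → ℂ} (hz : z ∉ C.E) :
    lgs C c z = ∑ j ∈ J, (c j : ℝ) * Real.log ‖C.s j z‖ := by
  have h1 : lgs C c z = ∑ l ∈ Finset.univ.filter (fun l => C.lab l ≠ 0),
      (c (C.lab l) : ℝ) * Real.log ‖z l‖ := by
    rw [Finset.sum_filter]
    exact Finset.sum_congr rfl fun l _ => (ite_not _ _ _).symm
  rw [h1, ← Finset.sum_fiberwise_of_maps_to (g := C.lab) (t := J)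
    fun l hl => hJ l (Finset.mem_filter.1 hl).2]
  refine Finset.sum_congr rfl fun j hj => ?_
  have h2 : j ≠ 0 := fun e => h0 (e ▸ hj)
  have h3 : ∀ l ∈ Finset.univ.filter (fun l => C.lab l = j), ‖z l‖ ≠ 0 := fun l hl =>
    norm_ne_zero_iff.2 fun e => hz ⟨l, (Finset.mem_filter.1 hl).2 ▸ h2, e⟩
  rw [Ch.s, norm_prod, Real.log_prod h3, Finset.mul_sum, Finset.filter_filter]
  refine Finset.sum_congr (Finset.filter_congr fun l _ => ⟨fun h => h.2, fun h => ⟨h ▸ h2, h⟩⟩)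
    fun l hl => by rw [(Finset.mem_filter.1 hl).2]

variable {β : Base X} {C C' : Ch ι X} {u u' : ι → ℂ} {Φ Φ' : (ι → ℂ) → ι → ℂ}

theorem tendsto_gd (h : Arr C u C' u' Φ Φ') : Tendsto Φ (𝓝[gd β C] u) (𝓝[gd β C'] u') := by
  refine tendsto_nhdsWithin_iff.2 ⟨h.tendsto.mono_left nhdsWithin_le_nhds, ?_⟩
  filter_upwards [nhdsWithin_le_nhds h.mem, nhdsWithin_le_nhds h.pi, self_mem_nhdsWithin]
    with z h1 h2 h3
  exact ⟨h1.2 h3.1, h2 h3.1 ▸ h3.2⟩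

/-- the limit is transported along an arrow -/
theorem lim_of_arr (h : Arr C u C' u' Φ Φ') (hE : ∀ z ∈ C'.B, z ∈ C'.E → C'.π z ∈ β.Z)
    {c : ℕ → ℚ} {Ψ : X → ℝ} {y : ℝ}
    (hy : Tendsto (fun z => Ψ (C'.π z) - 2 * lgs C' c z) (𝓝[gd β C'] u') (𝓝 y)) :
    ∃ y', Tendsto (fun z => Ψ (C.π z) - 2 * lgs C c z) (𝓝[gd β C] u) (𝓝 y') := by
  obtain ⟨J, h0, hJ, hJ'⟩ := Arr.exists_labels C C'
  choose! e e1 e2 e3 using h.div
  have hj : ∀ j ∈ J, j ≠ 0 := fun j hj e => h0 (e ▸ hj)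
  have h1 : ContinuousAt (fun z => 2 * ∑ j ∈ J, (c j : ℝ) * Real.log ‖e j z‖) u :=
    continuousAt_const.mul (tendsto_finsetSum _ fun j k => continuousAt_const.mul
      ((e1 j (hj j k)).continuousAt.norm.log (norm_ne_zero_iff.2 (e2 j (hj j k)))))
  refine ⟨_, ((hy.comp (tendsto_gd h)).add (h1.tendsto.mono_left nhdsWithin_le_nhds)).congr' ?_⟩
  have h2 : ∀ᶠ z in 𝓝 u, ∀ j ∈ J, e j z ≠ 0 ∧ C'.s j (Φ z) = e j z * C.s j z :=
    (eventually_all_finset J).2 fun j k =>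
      ((e1 j (hj j k)).continuousAt.eventually_ne (e2 j (hj j k))).and (e3 j (hj j k))
  filter_upwards [nhdsWithin_le_nhds h.ev, nhdsWithin_le_nhds h2, self_mem_nhdsWithin]
    with z k1 k2 k3
  have k4 : Φ z ∉ C'.E := fun k => k3.2 (k1.pi_eq k3.1 ▸ hE _ (k1.mem_iff.2 k3.1) k)
  have k5 : z ∉ C.E := fun k => k4 (k1.E_iff.2 k)
  rw [comp_apply, k1.pi_eq k3.1, lgs_eq C' c h0 hJ' k4, lgs_eq C c h0 hJ k5,
    Finset.sum_congr rfl fun j k => by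
      rw [(k2 j k).2, norm_mul, Real.log_mul (norm_ne_zero_iff.2 (k2 j k).1)
        (norm_ne_zero_iff.2 fun k6 => k5 (C.mem_E.2 ⟨j, hj j k, k6⟩)), mul_add],
    Finset.sum_add_distrib]
  ring

/-- the union of two atlases -/
def un (A A' : At ι X) : At ι X where
  κ := A.κ ⊕ A'.κ
  C := Sum.elim A.C A'.C
  K := Sum.elim A.K A'.K

theorem ref_un {A A' : At ι X} (ok : A.Ok β) (r : Ref A A') : Ref A (un A A') where
  isOpen := Sum.rec (fun a => (ok.ch a).isOpen) r.isOpen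
  sub := Sum.rec (fun a => (ok.ch a).sub) r.sub
  lbl := Sum.rec (fun a => (ok.ch a).lbl) r.lbl
  anF := Sum.rec (fun a => (ok.ch a).anF) r.anF
  cpt := Sum.rec ok.cpt r.cpt
  subK := Sum.rec ok.sub r.subK
  arr := Sum.rec (fun a => ⟨a, id, fun z hz => ⟨hz, id, Arr.refl _ z⟩⟩) r.arr
  cov := fun a u hu => ⟨Sum.inl a, u, hu, id, id, Arr.refl _ u⟩

theorem prefC (h : ALL) : PREFC := by
  intro ι X _ _ _ β A A' c ok r ⟨Ψ, δ, L, h2, h3, h4, h5⟩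
  obtain ⟨δ', h6, h7⟩ := h ι X β (un A A') (Sum.elim L fun _ => ∅) (un A A').K Ψ δ
    (stRef ι X β A _ ok (ref_un ok r)) h2
    (Sum.rec h3 fun _ => ⟨isCompact_empty, empty_subset _⟩)
    (fun a => ⟨(ref_un ok r).cpt a, (ref_un ok r).subK a⟩) fun x hx => by
      obtain ⟨m, g, k1, k2⟩ := h5 x hx
      exact ⟨m, g, k1, k2.mono fun x' k3 k4 => (k3 k4).elim fun a k5 => ⟨Sum.inl a, k5⟩⟩
  refine ⟨Ψ, δ', A'.K, h6, fun a => ⟨r.cpt a, r.subK a⟩, fun a' u hu hO => ?_,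
    fun x hx => ?_⟩
  · obtain ⟨a, f, k1⟩ := r.arr a'
    obtain ⟨-, g, k2⟩ := k1 u (r.sub a' hu)
    obtain ⟨y, hy⟩ := h4 a _ (k2.mem_iff.2 hu) (k2.pi_eq hu ▸ hO)
    exact lim_of_arr k2 (ok.ch a).unt hy
  · obtain ⟨m, g, k1, k2⟩ := h7 x hx
    refine ⟨m, g, k1, ?_⟩
    filter_upwards [k2, β.isOpen.mem_nhds hx] with x' k3 k4 k5
    obtain ⟨a', v, k6, k7⟩ := (stRef ι X β A A' ok r).cov x' k4 k5
    exact ⟨a', v, k6, k7, k3 k5 (Sum.inr a') v k6 k7⟩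

theorem pref (h : ALL) : PREF := fun ι X _ _ _ β A A' ok r hP =>
  (pos_iff.1 hP).elim fun c k => pos_iff.2 ⟨c, k.1, prefC h ι X β A A' c ok r k.2⟩

section res

variable {ι' : Type} [Fintype ι'] [DecidableEq ι'] {e : ι' → ι}

/-- extension by zero as a linear map -/
def extL (e : ι' → ι) : (ι' → ℂ) →L[ℂ] ι → ℂ :=
  LinearMap.toContinuousLinearMap (ExtendByZero.linearMap ℂ e)

theorem extL_eq (e : ι' → ι) : ext0 e = extL e := rfl

theorem ext0_not {l : ι} (h : l ∉ range e) (z : ι' → ℂ) : ext0 e z l = 0 := extend_apply' _ _ _ h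

theorem ext0_mem (h : C.Flat e) {z : ι' → ℂ} (hz : z ∈ (C.res e).B) : ext0 e z ∈ C.B :=
  (h.mem _ hz).2 fun _ hl => ext0_not hl z

theorem ext0_comp (h : C.Flat e) (hv : u ∈ C.U) (hB : u ∈ C.B) : ext0 e (u ∘ e) = u := by
  funext l
  by_cases k : l ∈ range e
  · obtain ⟨i, rfl⟩ := k
    exact h.inj.extend_apply _ _ i
  · rw [ext0_not k, (h.mem u hv).1 hB l k]

theorem nsq_ext0 (h : Injective e) (z : ι' → ℂ) : nsq (ext0 e z) = nsq z :=
  (Fintype.sum_of_injective e h _ _ (fun l hl => by simp [ext0_not hl]) fun i => by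
    rw [ext0, h.extend_apply]).symm

theorem lgs_res (h : C.Flat e) (c : ℕ → ℚ) (z : ι' → ℂ) :
    lgs (C.res e) c z = lgs C c (ext0 e z) :=
  Fintype.sum_of_injective e h.inj _ _ (fun l hl => if_pos (by_contra fun k => hl (h.lab l k)))
    fun i => by
      rw [ext0, h.inj.extend_apply]
      rfl

end res

theorem presC : PRESC := by
  intro ι ι' X _ _ _ _ _ β A e c ok hF ⟨Ψ, δ, L, h2, h3, h4, h5⟩
  have h6 : ∀ a, ∀ v ∈ L a, ext0 (e a) (v ∘ e a) = v := fun a v hv =>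
    ext0_comp (hF a) ((ok.ch a).sub ((h3 a).2 hv)) ((h3 a).2 hv)
  refine ⟨Ψ, δ, fun a => (fun v => v ∘ e a) '' L a, h2, fun a => ⟨(h3 a).1.image
    (continuous_pi fun _ => continuous_apply _), ?_⟩, fun a u hu hO => ?_, fun x hx => ?_⟩
  · rintro _ ⟨v, hv, rfl⟩
    change ext0 (e a) (v ∘ e a) ∈ (A.C a).U
    rw [h6 a v hv]
    exact (ok.ch a).sub ((h3 a).2 hv)
  · obtain ⟨y, hy⟩ := h4 a _ (ext0_mem (hF a) hu) hO
    have k1 : Tendsto (ext0 (e a)) (𝓝[gd β ((A.C a).res (e a))] u)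
        (𝓝[gd β (A.C a)] (ext0 (e a) u)) :=
      (extL (e a)).continuous.continuousWithinAt.tendsto_nhdsWithin
        fun z hz => ⟨ext0_mem (hF a) hz.1, hz.2⟩
    exact ⟨y, (hy.comp k1).congr fun z =>
      congrArg (fun t => Ψ ((A.C a).π (ext0 (e a) z)) - 2 * t) (lgs_res (hF a) c z).symm⟩
  · obtain ⟨m, g, k1, k2⟩ := h5 x hx
    refine ⟨m, g, k1, k2.mono fun x' k3 k4 => ?_⟩
    obtain ⟨a, v, hv, k5, k6⟩ := k3 k4
    rw [← h6 a v hv] at k5 k6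
    refine ⟨a, _, ⟨v, hv, rfl⟩, k5, (Tch.comp (Φ := ext0 (e a)) ((extL (e a)).analyticAt _) k6
      (eventually_mem_nhdsWithin.mono fun z hz => ext0_mem (hF a) hz)).mono fun ξ => ?_⟩
    rw [extL_eq, (extL (e a)).fderiv, ← extL_eq, nsq_ext0 (hF a).inj]

theorem pres : PRES := fun ι ι' X _ _ _ _ _ β A e ok hF hP =>
  (pos_iff.1 hP).elim fun c k => pos_iff.2 ⟨c, k.1, presC ι ι' X β A e c ok hF k.2⟩

theorem pinitC : PINITC := by
  intro ι X _ _ _ β A L c h1 h2 h3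
  have h4 : ∀ a z, lgs (A.C a) c z = 0 := fun a z => Finset.sum_eq_zero fun l _ => by
    split_ifs with k
    · rfl
    · rw [h1 a l k, Rat.cast_zero, zero_mul]
  refine ⟨fun _ => 0, 4, L, four_pos, h2,
    fun a u _ _ => ⟨0, by simp [h4, tendsto_const_nhds]⟩, fun x hx => ?_⟩
  obtain ⟨a, g, k1, k2⟩ := h3 x hx
  refine ⟨_, fun k => g ((Fintype.equivFin ι).symm k), fun k => k1 _, k2.mono ?_⟩
  rintro x' ⟨v, hv, k3, k4⟩ -
  have k5 : ∀ᶠ z in 𝓝[(A.C a).B] v, nsq z =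
      pot (fun _ => 0) (fun k => g ((Fintype.equivFin ι).symm k)) ((A.C a).π z) :=
    k4.mono fun z hz => by
      simp only [pot, hz, zero_add]
      exact (Equiv.sum_comp (Fintype.equivFin ι).symm fun l => ‖z l‖ ^ 2).symm
  exact ⟨a, v, hv, k3, (Tch.of_c2 contDiff_nsq.contDiffAt fun ξ => (levi_nsq' v ξ).ge).of_le
    (k5.self_of_nhdsWithin ((h2 a).2 hv)) (k5.mono fun _ => le_of_eq)⟩

theorem pinit : PINIT := fun ι X _ _ _ β A L h1 h2 h3 =>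
  pos_iff.2 ⟨fun _ => 1, fun _ => one_pos,
    (pinitC ι X β A L (fun _ => 0) (fun _ _ _ => rfl) h2 h3).congr fun a l k => absurd (h1 a l) k⟩

end Vale.Agent.P277Z.Pos
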