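import Vale.Agent.P277Z.Pos.MSpec

/-!
# P277Z, block P: jets on a sublevel set (JO)
-/

open scoped Manifold ContDiff ComplexOrder Topology ENNReal
open MeasureTheory Filter Set Metric

noncomputable section

namespace Vale.Agent.P277Z.Pos

open Vale.Agent.P272.K Vale.Agent.P301.H599 Vale.Agent.P285Z
open Vale.Agent.P301.H862 (powL)
open Vale.Agent.P301.H98 (rform_curvature)
open Vale.Agent.P277Z.Van (SmOn PSDOn PDOn SecOn IsVol HormOn HormStmt VolStmt KahOn Exh WK)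

namespace JoAux

variable {d : ℕ} {Y : Type} [TopologicalSpace Y] [ChartedSpace (Cm d) Y]

theorem ev_on {e : Chart d Y} {x : Y} (hx : At e x) {Ω : Set Y} (hΩ : IsOpen Ω) (h : x ∈ Ω) :
    ∀ᶠ z in 𝓝 (e x), z ∈ e.target ∧ e.symm z ∈ Ω := by
  have hc : ContinuousAt e.symm (e x) := e.continuousAt_symm hx.mem_target
  have h1 : ∀ᶠ z in 𝓝 (e x), e.symm z ∈ Ω := by
    refine hc.eventually (p := fun y => y ∈ Ω) ?_
    rw [hx.left_inv]
    exact hΩ.mem_nhds h
  filter_upwards [hx.nhds_target, h1] with z h1 h2 using ⟨h1, h2⟩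

theorem at_chart (x : Y) : At (chartAt (Cm d) x) x := ⟨chart_mem_atlas _ x, mem_chart_source _ x⟩

theorem continuousAt_of_chart {u : Y → ℝ} {e : Chart d Y} {x : Y} (hx : At e x)
    (h : ContinuousAt (fun z => u (e.symm z)) (e x)) : ContinuousAt u x := by
  have h1 : ContinuousAt (fun y => u (e.symm (e y))) x :=
    ContinuousAt.comp (f := e) (g := fun z => u (e.symm z)) h (e.continuousAt hx.2)
  refine h1.congr ?_
  filter_upwards [e.open_source.mem_nhds hx.2] with y hy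
  rw [e.left_inv hy]

/-- a convex increasing function of a plurisubharmonic function -/
theorem psd_comp {u : Cm d → ℝ} {z : Cm d} {φ φ₁ : ℝ → ℝ} {φ₂ : ℝ}
    (h : ∀ᶠ s in 𝓝 (u z), HasDerivAt φ (φ₁ s) s) (h₁ : HasDerivAt φ₁ φ₂ (u z))
    (hu : ContDiffAt ℝ 2 u z) (p : (cHess u z).PosSemidef) (p₁ : 0 ≤ φ₁ (u z)) (p₂ : 0 ≤ φ₂) :
    (cHess (fun y => φ (u y)) z).PosSemidef := by
  have e1 : cHess (fun y => φ (u y)) z = (φ₁ (u z) : ℂ) • cHess u z + (φ₂ : ℂ) •
      Matrix.vecMulVec (fun i => dz i (fun y => ((u y : ℝ) : ℂ)) z)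
        (star fun i => dz i (fun y => ((u y : ℝ) : ℂ)) z) := by
    ext j k
    rw [C2.cHess_comp h h₁ hu j k, C2.dzb_real k (hu.differentiableAt (by norm_num))]
    simp only [Matrix.add_apply, Matrix.smul_apply, smul_eq_mul, Matrix.vecMulVec_apply,
      Pi.star_apply, RCLike.star_def]
  rw [e1]
  exact (psd_smul p p₁).add (psd_smul (Matrix.posSemidef_vecMulVec_self_star _) p₂)

theorem isOpen_sub {Ω : Set Y} {t : Y → ℝ} (hΩ : IsOpen Ω) (ht : ∀ y ∈ Ω, PsdAt d t y) (c : ℝ) :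
    IsOpen {y ∈ Ω | t y < c} := by
  refine isOpen_iff_mem_nhds.2 fun y hy => ?_
  have h1 : ContinuousAt t y :=
    continuousAt_of_chart (at_chart y) (ht y hy.1 _ (at_chart y)).1.continuousAt
  filter_upwards [hΩ.mem_nhds hy.1, h1.eventually (Iio_mem_nhds hy.2)] with x h2 h3
  exact ⟨h2, h3⟩

/-- a sublevel set with a compact closure has an exhaustion function -/
theorem exh_sub [T2Space Y] {Ω : Set Y} {t : Y → ℝ} {c : ℝ} (hΩ : IsOpen Ω)
    (ht : ∀ y ∈ Ω, PsdAt d t y) (hK : IsCompact {y ∈ Ω | t y ≤ c}) :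
    Exh d {y ∈ Ω | t y < c} fun y => (c - t y)⁻¹ where
  isOpen := isOpen_sub hΩ ht c
  sm e x hx h := by
    refine (contDiffAt_const.sub (ht x h.1 e hx).1).inv ?_
    rw [hx.left_inv]
    exact (sub_pos.2 h.2).ne'
  psh e x hx h := by
    have h0 : 0 < c - t (e.symm (e x)) := by rw [hx.left_inv]; exact sub_pos.2 h.2
    have hd : ∀ s : ℝ, HasDerivAt (fun s => c - s) (-1) s := fun s => by
      simpa using (hasDerivAt_id s).const_sub c
    refine psd_comp (u := fun z => t (e.symm z)) (φ := fun s => (c - s)⁻¹)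
      (φ₁ := fun s => ((c - s) ^ 2)⁻¹) (φ₂ := 2 * ((c - t (e.symm (e x))) ^ 3)⁻¹) ?_ ?_
      ((ht x h.1 e hx).1.of_le (by norm_cast)) (ht x h.1 e hx).2 (by positivity) (by positivity)
    · filter_upwards [Iio_mem_nhds (sub_pos.1 h0)] with s hs
      exact ((hd s).fun_inv (sub_pos.2 hs).ne').congr_deriv (by ring)
    · refine (((hd (t (e.symm (e x)))).fun_pow 2).fun_inv (pow_ne_zero 2 h0.ne')).congr_deriv ?_
      field_simp
      ring
  cpt a := by
    have h1 : ContinuousOn (fun y => a * (c - t y)) {y ∈ Ω | t y ≤ c} := fun y hy =>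
      (continuousAt_const.mul (continuousAt_const.sub (continuousAt_of_chart (at_chart y)
        (ht y hy.1 _ (at_chart y)).1.continuousAt))).continuousWithinAt
    have h2 := h1.preimage_isClosed_of_isClosed hK.isClosed (isClosed_Ici (a := (1 : ℝ)))
    refine (hK.of_isClosed_subset h2 inter_subset_left).of_isClosed_subset ?_ ?_
    all_goals
      have h3 : {x | x ∈ {y ∈ Ω | t y < c} ∧ (c - t x)⁻¹ ≤ a} =
          {y ∈ Ω | t y ≤ c} ∩ (fun y => a * (c - t y)) ⁻¹' Ici 1 := by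
        ext x
        constructor
        · rintro ⟨⟨h4, h5⟩, h6⟩
          have h7 : 0 < c - t x := sub_pos.2 h5
          exact ⟨⟨h4, h5.le⟩, (inv_le_iff_one_le_mul₀ h7).1 h6⟩
        · rintro ⟨⟨h4, h5⟩, h6⟩
          have h6' : 1 ≤ a * (c - t x) := h6
          have h7 : 0 < c - t x := by
            refine lt_of_le_of_ne (sub_nonneg.2 h5) fun h8 => ?_
            rw [← h8, mul_zero] at h6'
            exact absurd h6' (by norm_num)
          exact ⟨⟨h4, sub_pos.1 h7⟩, (inv_le_iff_one_le_mul₀ h7).2 h6'⟩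
      rw [h3]
    exact h2

variable [IsManifold 𝓘(ℂ, Cm d) ω Y]

theorem ddc_change {u : Y → ℝ} {e e' : Chart d Y} {x : Y} (h : At e x) (h' : At e' x)
    (hu : ContDiffAt ℝ 2 (fun z => u (e'.symm z)) (e' x)) :
    ddc u e (e x) =
      (jacM e e' x).transpose * ddc u e' (e' x) * (jacM e e' x).map (starRingEnd ℂ) := by
  have h1 : (fun y => u (e.symm y)) =ᶠ[𝓝 (e x)] fun y => u (e'.symm (e' (e.symm y))) := by
    filter_upwards [h.nhds_at h'] with z hz
    rw [hz.2.2.left_inv]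
  have h2 : e' (e.symm (e x)) = e' x := by rw [h.left_inv]
  show cHess (fun y => u (e.symm y)) (e x) = _
  rw [cHess_congr h1]
  have := cHess_comp (τ := fun z => e' (e.symm z)) (f := fun y => u (e'.symm y)) (z := e x)
    (by rw [h2]; exact hu) (transition h h')
  rw [h2] at this
  exact this

omit [IsManifold 𝓘(ℂ, Cm d) ω Y] in
/-- comparison of a Hermitian form with a metric on a compact set -/
theorem cmp_on {Ω K : Set Y} {w b : Fm d Y} (hΩ : IsOpen Ω) (hK : IsCompact K) (hKΩ : K ⊆ Ω)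
    (hw : KahOn Ω w) (hs : ∀ e x, At e x → ∀ i j, ContinuousAt (fun z => b e z i j) (e x))
    (hH : ∀ e x, At e x → (b e (e x)).IsHermitian) (hf : IsForm b) :
    ∃ C : ℝ, 0 < C ∧ PSDOn K fun e z => (C : ℂ) • w e z - b e z := by
  have hC : ∀ {C C' : ℝ} {M N : Matrix (Fin d) (Fin d) ℂ}, M.PosDef → C ≤ C' →
      ((C : ℂ) • M - N).PosSemidef → ((C' : ℂ) • M - N).PosSemidef := by
    intro C C' M N hM hCC h
    have h3 : (C' : ℂ) • M - N = ((C : ℂ) • M - N) + ((C' - C : ℝ) : ℂ) • M := by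
      push_cast
      rw [sub_smul]; abel
    rw [h3]
    exact h.add (psd_smul hM.posSemidef (sub_nonneg.2 hCC))
  have key : ∃ C : ℝ, 0 < C ∧ ∀ x ∈ K, x ∈ Ω → ∀ e, At e x →
      ((C : ℂ) • w e (e x) - b e (e x)).PosSemidef := by
    refine hK.induction_on (p := fun s => ∃ C : ℝ, 0 < C ∧ ∀ x ∈ s, x ∈ Ω → ∀ e, At e x →
      ((C : ℂ) • w e (e x) - b e (e x)).PosSemidef) ?_ ?_ ?_ ?_
    · exact ⟨1, one_pos, fun x hx => hx.elim⟩
    · rintro s t hst ⟨C, hC0, hCt⟩
      exact ⟨C, hC0, fun x hx => hCt x (hst hx)⟩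
    · rintro s t ⟨C, hC0, hCs⟩ ⟨C', hC0', hCt⟩
      refine ⟨max C C', lt_max_of_lt_left hC0, ?_⟩
      rintro x (hx | hx) hxΩ e hex
      · exact hC (hw.posDef e x hex hxΩ) (le_max_left _ _) (hCs x hx hxΩ e hex)
      · exact hC (hw.posDef e x hex hxΩ) (le_max_right _ _) (hCt x hx hxΩ e hex)
    · intro x hxK
      set c := chartAt (Cm d) x with hc
      have hAt : At c x := at_chart x
      obtain ⟨r, hr, hball⟩ := Metric.nhds_basis_closedBall.mem_iff.1 (ev_on hAt hΩ (hKΩ hxK))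
      obtain ⟨C, hC0, hCK⟩ := exists_quad_lower (isCompact_closedBall (c x) r)
        (fun z => w c z) (fun z => b c z)
        (fun i j z hz => by
          have h1 := hw.smooth c (c.symm z) (At.of_target hAt.1 (hball hz).1) (hball hz).2 i j
          rw [c.right_inv (hball hz).1] at h1
          exact h1.continuousAt.continuousWithinAt)
        (fun i j z hz => by
          have h1 := hs c (c.symm z) (At.of_target hAt.1 (hball hz).1) i j
          rw [c.right_inv (hball hz).1] at h1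
          exact h1.continuousWithinAt)
        (fun z hz => by
          have h1 := hw.posDef c (c.symm z) (At.of_target hAt.1 (hball hz).1) (hball hz).2
          rwa [c.right_inv (hball hz).1] at h1)
      refine ⟨c.source ∩ c ⁻¹' Metric.closedBall (c x) r, ?_, C, hC0, ?_⟩
      · refine mem_nhdsWithin_of_mem_nhds (inter_mem (c.open_source.mem_nhds hAt.2) ?_)
        exact (c.continuousAt hAt.2).preimage_mem_nhds (Metric.closedBall_mem_nhds _ hr)
      · rintro y ⟨hy1, hy2⟩ hyΩ e hey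
        have hcy : At c y := ⟨hAt.1, hy1⟩
        have h1 : ((C : ℂ) • w c (c y) - b c (c y)).PosSemidef := by
          refine posSemidef_of_quad ((psd_smul (hw.posDef c y hcy hyΩ).posSemidef
            hC0.le).isHermitian.sub (hH c y hcy)) fun ξ => ?_
          have h2 := hCK (c y) hy2 ξ
          have h3 : quad ((C : ℂ) • w c (c y) - b c (c y)) ξ =
              (C : ℂ) * quad (w c (c y)) ξ - quad (b c (c y)) ξ := by
            unfold quad
            rw [Finset.mul_sum, ← Finset.sum_sub_distrib]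
            refine Finset.sum_congr rfl fun i _ => ?_
            rw [Finset.mul_sum, ← Finset.sum_sub_distrib]
            refine Finset.sum_congr rfl fun j _ => ?_
            simp only [Matrix.sub_apply, Matrix.smul_apply, smul_eq_mul]
            ring
          rw [h3, Complex.sub_re, Complex.re_ofReal_mul]
          linarith
        have h2 : ((C : ℂ) • w e (e y) - b e (e y)) =
            (jacM e c y).transpose * ((C : ℂ) • w c (c y) - b c (c y)) *
              (jacM e c y).map (starRingEnd ℂ) := by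
          rw [hw.change e c y hey hcy hyΩ, hf e c y hey hcy]
          rw [Matrix.mul_sub, Matrix.sub_mul, Matrix.mul_smul, Matrix.smul_mul]
        rw [h2]
        exact posSemidef_form h1 _
  obtain ⟨C, hC0, h⟩ := key
  exact ⟨C, hC0, fun e x hx hxK => h x hxK (hKΩ hxK) e hx⟩

/-- `kc h ≤ C w` on a compact set -/
theorem kc_le_on {Ω K : Set Y} {w h : Fm d Y} (hΩ : IsOpen Ω) (hK : IsCompact K) (hKΩ : K ⊆ Ω)
    (hw : KahOn Ω w) (hh : IsHermitian h) :
    ∃ C : ℝ, 0 < C ∧ PSDOn K fun e z => (C : ℂ) • w e z - kc h e z := by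
  have hm := isMetric_canB hh
  obtain ⟨C, hC, h1⟩ := cmp_on hΩ hK hKΩ hw
    (fun e x hx i j => ((rform_curvature hm).closed.smooth e x hx i j).continuousAt)
    (rform_curvature hm).herm (isForm_curvature hm)
  refine ⟨C, hC, fun e x hx hxK => ?_⟩
  have h2 : ((C : ℂ) • w e (e x) - curvature (canB d Y) (kM h) e (e x)).PosSemidef := h1 e x hx hxK
  rwa [curvature_canB hh e x hx] at h2

variable {ι : Type} {L : LineBundle d Y ι} {Ω : Set Y} {ψ ρ : ι → Y → ℝ}

/-- the difference of two metrics -/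
def dif (L : LineBundle d Y ι) (ψ ρ : ι → Y → ℝ) (y : Y) : ℝ :=
  ψ (L.cover y).choose y - ρ (L.cover y).choose y

omit [IsManifold 𝓘(ℂ, Cm d) ω Y] in
theorem dif_eq (hψ : PosOn L Ω ψ) (hρ : IsMetric L ρ) {i : ι} {y : Y} (hy : y ∈ Ω)
    (hi : y ∈ L.U i) : dif L ψ ρ y = ψ i y - ρ i y := by
  unfold dif
  rw [hψ.change i _ y hy hi (L.cover y).choose_spec, hρ.change i _ y hi (L.cover y).choose_spec]
  ring

omit [IsManifold 𝓘(ℂ, Cm d) ω Y] in
theorem dif_ev (hΩ : IsOpen Ω) (hψ : PosOn L Ω ψ) (hρ : IsMetric L ρ) {i : ι} {e : Chart d Y}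
    {x : Y} (hx : At e x) (hy : x ∈ Ω) (hi : x ∈ L.U i) :
    (fun z => dif L ψ ρ (e.symm z)) =ᶠ[𝓝 (e x)] fun z => ψ i (e.symm z) - ρ i (e.symm z) := by
  filter_upwards [ev_on hx (hΩ.inter (L.isOpen i)) ⟨hy, hi⟩] with z hz
  exact dif_eq hψ hρ hz.2.1 hz.2.2

omit [IsManifold 𝓘(ℂ, Cm d) ω Y] in
theorem smOn_dif (hΩ : IsOpen Ω) (hψ : PosOn L Ω ψ) (hρ : IsMetric L ρ) :
    SmOn (d := d) Ω (dif L ψ ρ) := by
  intro e x hx hy
  obtain ⟨i, hi⟩ := L.cover x
  exact (((hψ.pos i x hy hi e hx).1).sub (hρ.smooth i e x hx hi)).congr_of_eventuallyEq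
    (dif_ev hΩ hψ hρ hx hy hi)

theorem curv_dif (hΩ : IsOpen Ω) (hψ : PosOn L Ω ψ) (hρ : IsMetric L ρ) {i : ι} {e : Chart d Y}
    {x : Y} (hx : At e x) (hy : x ∈ Ω) (hi : x ∈ L.U i) :
    curvature L ρ e (e x) + ddc (dif L ψ ρ) e (e x) = ddc (ψ i) e (e x) := by
  rw [curvature_eq hρ hx hi]
  show _ + cHess (fun z => dif L ψ ρ (e.symm z)) (e x) = _
  rw [C2.cHess_congr (dif_ev hΩ hψ hρ hx hy hi),
    C2.cHess_sub ((hψ.pos i x hy hi e hx).1.of_le (by norm_cast))
      ((hρ.smooth i e x hx hi).of_le (by norm_cast))]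
  show cHess (fun z => ρ i (e.symm z)) (e x) + _ = cHess (fun z => ψ i (e.symm z)) (e x)
  abel

theorem curv_dif_ev (hΩ : IsOpen Ω) (hψ : PosOn L Ω ψ) (hρ : IsMetric L ρ) {i : ι} {e : Chart d Y}
    {x : Y} (hx : At e x) (hy : x ∈ Ω) (hi : x ∈ L.U i) (p q : Fin d) :
    (fun z => (curvature L ρ e z + ddc (dif L ψ ρ) e z) p q) =ᶠ[𝓝 (e x)]
      fun z => cHess (fun y => ψ i (e.symm y)) z p q := by
  filter_upwards [ev_on hx (hΩ.inter (L.isOpen i)) ⟨hy, hi⟩] with z hz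
  have h1 := curv_dif hΩ hψ hρ (At.of_target hx.1 hz.1) hz.2.1 hz.2.2
  rw [e.right_inv hz.1] at h1
  rw [h1]
  rfl

/-- the curvature form of a positive metric over `Ω` is a Kähler metric on `Ω` -/
theorem kahOn_dif (hΩ : IsOpen Ω) (hψ : PosOn L Ω ψ) (hρ : IsMetric L ρ) :
    KahOn Ω fun e z => curvature L ρ e z + ddc (dif L ψ ρ) e z where
  smooth e x hx hy p q := by
    obtain ⟨i, hi⟩ := L.cover x
    exact (INT.smooth_cHess (hψ.pos i x hy hi e hx).1 p q).congr_of_eventuallyEq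
      (curv_dif_ev hΩ hψ hρ hx hy hi p q)
  posDef e x hx hy := by
    obtain ⟨i, hi⟩ := L.cover x
    show (curvature L ρ e (e x) + ddc (dif L ψ ρ) e (e x)).PosDef
    rw [curv_dif hΩ hψ hρ hx hy hi]
    exact (hψ.pos i x hy hi e hx).2
  change e e' x hx hx' hy := by
    obtain ⟨i, hi⟩ := L.cover x
    rw [curv_dif hΩ hψ hρ hx hy hi, curv_dif hΩ hψ hρ hx' hy hi]
    exact ddc_change hx hx' ((hψ.pos i x hy hi e' hx').1.of_le (by norm_cast))
  closed e x hx hy p q r := by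
    obtain ⟨i, hi⟩ := L.cover x
    rw [C2.dz_congr r (curv_dif_ev hΩ hψ hρ hx hy hi p q),
      C2.dz_congr p (curv_dif_ev hΩ hψ hρ hx hy hi r q)]
    exact INT.cHess_closed (hψ.pos i x hy hi e hx).1 r p q

omit [IsManifold 𝓘(ℂ, Cm d) ω Y] in
theorem kahOn_mono {Ω Ω' : Set Y} {w : Fm d Y} (h : KahOn Ω w) (hs : Ω' ⊆ Ω) : KahOn Ω' w :=
  ⟨fun e x hx hy => h.smooth e x hx (hs hy), fun e x hx hy => h.posDef e x hx (hs hy),
    fun e e' x hx hx' hy => h.change e e' x hx hx' (hs hy),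
    fun e x hx hy => h.closed e x hx (hs hy)⟩

end JoAux

open JoAux in
theorem jo (hH : HormStmt) (hV : VolStmt) (hP : PK) : JO := by
  intro d Y _ _ _ _ _ ι L Ω ψ t c hΩ hψ ht hK
  let : MeasurableSpace Y := borel Y
  have : BorelSpace Y := ⟨rfl⟩
  obtain ⟨⟨h, hh⟩, hμ, hρ⟩ := hV d Y
  obtain ⟨μ, hμ⟩ := hμ h hh
  obtain ⟨ρ, hρ⟩ := hρ ι L
  have hw := kahOn_dif hΩ hψ hρ
  have hs : {y ∈ Ω | t y < c} ⊆ Ω := fun y hy => hy.1
  obtain ⟨C, -, hC⟩ := kc_le_on hΩ hK (fun y hy => hy.1) hw hh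
  exact hP d Y h μ _ ι L ρ (dif L ψ ρ) C hh hμ (isOpen_sub hΩ ht c) hρ
    (fun e x hx hy => smOn_dif hΩ hψ hρ e x hx hy.1) (kahOn_mono hw hs).posDef
    (fun e x hx hy => hC e x hx ⟨hy.1, hy.2.le⟩)
    (fun k => hH d Y h μ hh hμ _ ⟨⟨_, exh_sub hΩ ht hK⟩, _, kahOn_mono hw hs⟩ ι (powL L k)
      (powM ρ k) (isMetric_pow hρ k))

end Vale.Agent.P277Z.Pos
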