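import Vale.Agent.P277Z.Pos.PkA

/-!
# P277Z, block P: peak sections
-/

open scoped Manifold ContDiff ComplexOrder ComplexConjugate Topology ENNReal Matrix
open MeasureTheory Filter Set Metric

set_option linter.unusedSectionVars false

noncomputable section

namespace Vale.Agent.P277Z.Pos

open Vale.Agent.P272.K Vale.Agent.P301.H599 Vale.Agent.P285Z
open Vale.Agent.P277Z.Van (SmOn PSDOn PDOn IsVol SecOn ScOn HormOn)
open Vale.Agent.P301.H98 (nrm rform_curvature)
open Vale.Agent.P301.H862 (powL)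
open Vale.Agent.P253Z.HJ (two_le)

namespace Pk

theorem eq_top {m : ℕ} {F : Type} [NormedAddCommGroup F] [NormedSpace ℂ F] [FiniteDimensional ℂ F]
    (J : Submodule ℂ (Fin m → F))
    (H : ∀ a v, ∀ η : ℝ, 0 < η → ∃ u ∈ J, ‖u - Pi.single a v‖ ≤ η) (w : Fin m → F) : w ∈ J := by
  rw [← Finset.univ_sum_single w]
  refine J.sum_mem fun a _ => J.closed_of_finiteDimensional.closure_subset
    (Metric.mem_closure_iff.2 fun η hη => ?_)
  obtain ⟨u, hu, h⟩ := H a (w a) (η / 2) (by positivity)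
  exact ⟨u, hu, by rw [dist_comm, dist_eq_norm]; linarith⟩

variable {d : ℕ} {Y : Type} [TopologicalSpace Y] [ChartedSpace (Cm d) Y] {e : Chart d Y} {c : Cm d}
  {R r : ℝ} {x : Y} {Ω : Set Y} {W h : Fm d Y} {κ : Type} {M : LineBundle d Y κ} {σ : κ → Y → ℝ}
  {i : κ} {Φ : Y → ℝ}

theorem exp_change (hσ : IsMetric M σ) {j : κ} (hi : x ∈ M.U i) (hj : x ∈ M.U j) :
    ‖M.g j i x‖ ^ 2 * Real.exp (-σ j x) = Real.exp (-σ i x) := by
  have hg := M.ne_zero j i x hj hi
  rw [hσ.change j i x hj hi, neg_add, Real.exp_add, Real.exp_neg (Real.log _),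
    Real.exp_log (by positivity)]
  field_simp

theorem nrm_eq (hσ : IsMetric M σ) {s : κ → Y → ℂ}
    (hs : ∀ i j, x ∈ M.U i → x ∈ M.U j → s i x = M.g i j x * s j x) (hi : x ∈ M.U i) :
    nrm M σ s x = ‖s i x‖ ^ 2 * Real.exp (-σ i x) := by
  have hj : x ∈ M.U (M.cover x).choose := (M.cover x).choose_spec
  rw [nrm, hs _ i hj hi, ← exp_change hσ hi hj, norm_mul]
  ring

theorem det_cont (hh : IsHermitian h) (he : e ∈ atlas (Cm d) Y) :
    ContinuousOn (fun z => (h e z).det.re) e.target :=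
  Complex.continuous_re.comp_continuousOn fun _ hz =>
    (contDiffAt_det fun i j => hh.smooth_target he hz i j).continuousAt.continuousWithinAt

theorem cont_on (he : e ∈ atlas (Cm d) Y) (ht : closedBall c R ⊆ e.target) {u : Y → ℝ}
    (hu : ∀ x ∈ pc e c R, At e x → ContDiffAt ℝ ∞ (fun z => u (e.symm z)) (e x)) :
    ContinuousOn (fun z => Real.exp (-u (e.symm z))) (closedBall c R) := fun z hz => by
  have := hu _ (symm_mem ht hz) (At.of_target he (ht hz))
  rw [e.right_inv (ht hz)] at this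
  exact this.continuousAt.neg.rexp.continuousWithinAt

variable [MeasurableSpace Y] [BorelSpace Y] {μ : Measure Y}

theorem est (hh : IsHermitian h) (hμ : IsVol h μ) (he : e ∈ atlas (Cm d) Y)
    (ht : closedBall c R ⊆ e.target) (hΩ : pc e c R ⊆ Ω) (hσ : IsMetric M σ)
    (hi : pc e c R ⊆ M.U i) (hΦ : SmOn (d := d) Ω Φ) :
    ∃ m : ℝ, 0 < m ∧ ∀ (t : κ → Y → ℂ) (T : Y → ℝ) (s b A : ℝ) (V : Cm d → ℂ), s ≤ R → 0 ≤ b →
      (∀ i j x, x ∈ M.U i → x ∈ M.U j → x ∈ Ω → t i x = M.g i j x * t j x) →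
      (∀ x ∈ e.source, ‖e x - c‖ ≤ s → Real.exp (T x) ≤ b) → ContinuousOn V (ball c s) →
      (∀ z ∈ ball c s, t i (e.symm z) = V z) →
      ∫⁻ x in Ω, ENNReal.ofReal (nrm M σ t x * Real.exp (-(Φ x + T x))) ∂μ ≤ ENNReal.ofReal A →
      ∫⁻ z in ball c s, ENNReal.ofReal (‖V z‖ ^ 2) ≤ ENNReal.ofReal (A / m * b) := by
  have hE := (cont_on he ht fun x hx h => hσ.smooth i e x h (hi hx)).fun_mul
    (cont_on he ht fun x hx h => hΦ e x h (hΩ hx))
  obtain ⟨m, hm, hb⟩ := (isCompact_closedBall c R).exists_forall_le'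
    (hE.fun_mul ((det_cont hh he).mono ht)) (a := 0) fun z hz => mul_pos (by positivity)
      (Complex.pos_iff.1 (hh.posDef_target he (ht hz)).det_pos).1
  refine ⟨m, hm, fun t T s b A V hs hb0 h1 h2 h3 h4 h5 => ?_⟩
  have sub : ball c s ⊆ closedBall c R :=
    ball_subset_closedBall.trans (closedBall_subset_closedBall hs)
  have hO := (e.isOpen_inter_preimage (isOpen_ball (x := c) (ε := s))).measurableSet
  calc _ ≤ ∫⁻ z in ball c s, ENNReal.ofReal (‖V z‖ ^ 2 *
        (Real.exp (-σ i (e.symm z)) * Real.exp (-Φ (e.symm z))) / m) *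
          ENNReal.ofReal (h e z).det.re := by
        refine setLIntegral_mono' measurableSet_ball fun z hz => ?_
        rw [← ENNReal.ofReal_mul (by positivity), div_mul_eq_mul_div, mul_assoc]
        exact ENNReal.ofReal_le_ofReal ((le_div_iff₀ hm).2
          (mul_le_mul_of_nonneg_left (hb z (sub hz)) (sq_nonneg _)))
    _ = _ := (lint hμ he measurableSet_ball (sub.trans ht) hO
        (ENNReal.continuous_ofReal.comp_continuousOn'
          (((h3.norm.fun_pow 2).fun_mul (hE.mono sub)).div_const m))).symm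
    _ ≤ ∫⁻ x in e.source ∩ e ⁻¹' ball c s, ENNReal.ofReal (b / m) *
          ENNReal.ofReal (nrm M σ t x * Real.exp (-(Φ x + T x))) ∂μ := by
        refine setLIntegral_mono' hO fun x hx => ?_
        have hx' : x ∈ pc e c R := ⟨hx.1, sub hx.2⟩
        rw [← ENNReal.ofReal_mul (by positivity), ← h4 _ hx.2, e.left_inv hx.1,
          nrm_eq hσ (fun i j a b => h1 i j x a b (hΩ hx')) (hi hx'), div_mul_eq_mul_div]
        refine ENNReal.ofReal_le_ofReal (div_le_div_of_nonneg_right ?_ hm.le)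
        have h6 : Real.exp (-Φ x) ≤ b * Real.exp (-(Φ x + T x)) := by
          rw [show -Φ x = T x + -(Φ x + T x) by ring, Real.exp_add]
          exact mul_le_mul_of_nonneg_right (h2 x hx.1 (mem_ball_iff_norm.1 hx.2).le)
            (Real.exp_pos _).le
        calc _ = ‖t i x‖ ^ 2 * Real.exp (-σ i x) * Real.exp (-Φ x) := by ring
          _ ≤ ‖t i x‖ ^ 2 * Real.exp (-σ i x) * (b * Real.exp (-(Φ x + T x))) := by gcongr
          _ = _ := by ring
    _ ≤ ENNReal.ofReal (b / m) * ENNReal.ofReal A := by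
        rw [lintegral_const_mul' _ _ ENNReal.ofReal_ne_top]
        exact mul_le_mul_right ((lintegral_mono_set fun x hx => hΩ ⟨hx.1, sub hx.2⟩).trans h5) _
    _ = _ := by
        rw [← ENNReal.ofReal_mul (by positivity)]
        congr 1
        ring

variable [T2Space Y]

theorem fin (hh : IsHermitian h) (hμ : IsVol h μ) (he : e ∈ atlas (Cm d) Y)
    (ht : closedBall c R ⊆ e.target) (hΩ : pc e c R ⊆ Ω) (hΦ : SmOn (d := d) Ω Φ) {χ : Y → ℝ}
    (h1 : ∀ x, χ x ≤ 1) (h0 : ∀ x ∉ pc e c R, χ x = 0) {B : ℝ} (hB : 0 ≤ B) :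
    ∫⁻ x in Ω, ENNReal.ofReal (B * χ x * Real.exp (-Φ x)) ∂μ ≠ ⊤ := by
  have hE := (continuousOn_const (c := B)).fun_mul (cont_on he ht fun x hx h => hΦ e x h (hΩ hx))
  have hO := (pc_compact ht).isClosed.measurableSet
  have h2 := ((hE.fun_mul ((det_cont hh he).mono ht)).integrableOn_compact (μ := volume)
    (isCompact_closedBall c R)).lintegral_lt_top
  refine ne_top_of_le_ne_top h2.ne ((setLIntegral_le_lintegral _ _).trans ?_)
  calc _ ≤ ∫⁻ x, (pc e c R).indicator
        (fun x => ENNReal.ofReal (B * Real.exp (-Φ (e.symm (e x))))) x ∂μ := by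
        refine lintegral_mono fun x => ?_
        by_cases hx : x ∈ pc e c R
        · rw [indicator_of_mem hx, e.left_inv hx.1]
          refine ENNReal.ofReal_le_ofReal ?_
          gcongr
          exact mul_le_of_le_one_right hB (h1 x)
        · simp [h0 x hx]
    _ = _ := by
        rw [lintegral_indicator hO]
        refine (lint hμ he measurableSet_closedBall ht hO
          (ENNReal.continuous_ofReal.comp_continuousOn' hE)).trans (lintegral_congr fun z => ?_)
        exact (ENNReal.ofReal_mul (by positivity)).symm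

variable [IsManifold 𝓘(ℂ, Cm d) ω Y]

theorem core (hh : IsHermitian h) (hμ : IsVol h μ) (hW : Gd Ω W) (he : e ∈ atlas (Cm d) Y)
    (hr : 0 < r) (ht : closedBall c (2 * r) ⊆ e.target) (hΩ : pc e c (2 * r) ⊆ Ω)
    (hσ : IsMetric M σ) (hi : pc e c (2 * r) ⊆ M.U i) (hΦ : SmOn (d := d) Ω Φ) {Θ : Fm d Y}
    (hH : HormOn Ω μ M σ Θ) {P : Cm d → ℂ} (hP : ∀ z, AnalyticAt ℂ P z) :
    ∃ (A : ℝ) (s : κ → Y → ℂ), 0 ≤ A ∧
      (∀ j l x, x ∈ M.U j → x ∈ M.U l → s j x = M.g j l x * s l x) ∧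
      (∀ x ∈ pc e c (r / 2), s i x = P (e x)) ∧ (∀ j, ∀ x ∉ pc e c (2 * r), s j x = 0) ∧
      ∀ T : Y → ℝ, Smooth (d := d) T →
        (∀ x ∈ pc e c (2 * r), r / 2 ≤ ‖e x - c‖ → (1 / 4 : ℝ) ^ (d + 2) ≤ Real.exp (T x)) →
        (PSDOn Ω fun e z => Θ e z + ddc (fun x => Φ x + T x) e z - W e z) →
        ∃ G, SecOn M Ω G ∧ ∫⁻ x in Ω, ENNReal.ofReal (nrm M σ (fun j y => G j y - s j y) x *
          Real.exp (-(Φ x + T x))) ∂μ ≤ ENNReal.ofReal A := by
  obtain ⟨χ, χ₁, D, hD, c1, c2, c3, c4, c5, c6, c7, c8, c9⟩ := cut hW he hr ht hΩ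
  obtain ⟨B, hB⟩ := (isCompact_closedBall c (2 * r)).exists_bound_of_continuousOn
    (f := fun z => ‖P z‖ ^ 2 * Real.exp (-σ i (e.symm z)))
    (ContinuousOn.mul (fun z _ => ((hP z).continuousAt.norm.pow 2).continuousWithinAt)
      (cont_on he ht fun x hx h => hσ.smooth i e x h (hi hx)))
  have hB0 : 0 ≤ |B| * D * 4 ^ (d + 2) := by positivity
  have sub : pc e c r ⊆ pc e c (2 * r) := pc_mono (by linarith)
  have ht' : closedBall c r ⊆ e.target := (closedBall_subset_closedBall (by linarith)).trans ht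
  have hF : ∀ j (e' : Chart d Y) x, At e' x → x ∈ M.U j → x ∈ pc e c r →
      AnalyticAt ℂ (fun z => P (e (e'.symm z)) * M.g j i (e'.symm z)) (e' x) :=
    fun j e' x hx hj h1 => ((hP _).comp (transition hx ⟨he, h1.1⟩).analyticAt).mul
      (M.holo j i e' x hx hj (hi (sub h1)))
  have hZ : ∀ j (e' : Chart d Y) x, At e' x → x ∉ pc e c r → (fun z => (χ (e'.symm z) : ℂ) *
      (P (e (e'.symm z)) * M.g j i (e'.symm z))) =ᶠ[𝓝 (e' x)] fun _ => 0 := fun j e' x hx h1 =>
    ev_symm (p := fun y => (χ y : ℂ) * (P (e y) * M.g j i y) = 0) hx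
      ((ev_out ht' h1).mono fun y hy => by simp [c7 y hy])
  have hc : ∀ j l x, x ∈ M.U j → x ∈ M.U l → (χ x : ℂ) * (P (e x) * M.g j i x) =
      M.g j l x * (χ x * (P (e x) * M.g l i x)) := fun j l x hj hl => by
    by_cases h1 : x ∈ pc e c r
    · rw [← M.cocycle j l i x hj hl (hi (sub h1))]
      ring
    · simp [c7 x h1]
  refine ⟨(∫⁻ x in Ω, ENNReal.ofReal (|B| * D * 4 ^ (d + 2) * χ₁ x * Real.exp (-Φ x)) ∂μ).toReal,
    fun j x => χ x * (P (e x) * M.g j i x), ENNReal.toReal_nonneg, hc, fun x hx => ?_,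
    fun j x hx => by simp [c7 x fun h => hx (sub h)], fun T hT h1 h2 => ?_⟩
  · have h1 := hi (pc_mono (by linarith) hx)
    have h2 := M.cocycle i i i x h1 h1 h1
    rw [mul_left_eq_self₀, or_iff_left (M.ne_zero i i x h1 h1)] at h2
    simp [c8 x hx, h2]
  have h3 : PSDOn Ω fun e z => Θ e z + ddc (fun x => Φ x + T x) e z := fun e' x hx hxΩ => by
    simpa using (h2 e' x hx hxΩ).add (hW.pd e' x hx hxΩ).posSemidef
  obtain ⟨G, hG, h4⟩ := hH (fun x => Φ x + T x) (fun e' x hx hxΩ => (hΦ e' x hx hxΩ).add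
    (hT e' x hx)) h3 (fun j x => χ x * (P (e x) * M.g j i x))
    ⟨fun j e' x hx hj _ => by
      by_cases h5 : x ∈ pc e c r
      · exact (C2.contDiffAt_ofReal (c1 e' x hx)).mul
          ((hF j e' x hx hj h5).contDiffAt.restrict_scalars ℝ)
      · exact contDiffAt_const.congr_of_eventuallyEq (hZ j e' x hx h5),
    fun j l x hj hl _ => hc j l x hj hl⟩
    (fun x => |B| * D * 4 ^ (d + 2) * χ₁ x * Real.exp (T x))
    ((continuous_const.mul c2).mul (smooth_continuous hT).rexp).continuousOn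
    (fun x _ => mul_nonneg (mul_nonneg hB0 (c3 x)) (Real.exp_pos _).le) fun j e' x hx hj hxΩ v => by
      have h0 := mul_nonneg (mul_nonneg (mul_nonneg hB0 (c3 x)) (Real.exp_pos (T x)).le)
        (Qf_nonneg (h3 e' x hx hxΩ) v)
      by_cases h5 : x ∈ pc e c r
      · have h6 := Ch.dzb_chain_mulX (h := id) (F := fun y => P (e y) * M.g j i y)
          (hasDerivAt_id _) c1 hx (hF j e' x hx hj h5) v
        simp only [id] at h6
        rw [h6]
        rcases lt_or_ge ‖e x - c‖ (r / 2) with h7 | h7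
        · simpa [(c9 e' x hx h5 v).2 h7] using h0
        have h8 := (le_abs_self _).trans ((hB _ (sub h5).2).trans (le_abs_self B))
        rw [e.left_inv h5.1] at h8
        have h9 : (1 : ℝ) ≤ 4 ^ (d + 2) * Real.exp (T x) := by
          calc (1 : ℝ) = 4 ^ (d + 2) * (1 / 4) ^ (d + 2) := by rw [← mul_pow]; norm_num
            _ ≤ _ := by gcongr; exact h1 x (sub h5) h7
        have h10 := Qf_nonneg (hW.pd e' x hx hxΩ).posSemidef v
        calc _ = ‖P (e x)‖ ^ 2 * (‖M.g j i x‖ ^ 2 * Real.exp (-σ j x)) *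
              ‖Ch.DvX χ e' x v‖ ^ 2 := by simp only [Complex.ofReal_one, one_mul, norm_mul]; ring
          _ ≤ |B| * (D * Qf (W e' (e' x)) v) * 1 := by
              rw [exp_change hσ (hi (sub h5)) hj, mul_one]
              exact mul_le_mul h8 (c9 e' x hx h5 v).1 (sq_nonneg _) (abs_nonneg _)
          _ ≤ |B| * (D * Qf (Θ e' (e' x) + ddc (fun x => Φ x + T x) e' (e' x)) v) *
              (4 ^ (d + 2) * Real.exp (T x)) := by
              have := Qf_mono (h2 e' x hx hxΩ) v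
              gcongr
              exact mul_nonneg (abs_nonneg _) (mul_nonneg hD (h10.trans this))
          _ = _ := by simp only [c6 x h5]; ring
      · simpa [dzb_congr (hZ j e' x hx h5), dzb_const] using h0
  refine ⟨G, hG, h4.trans (le_of_eq ?_)⟩
  rw [ENNReal.ofReal_toReal (fin hh hμ he ht hΩ hΦ c4 c5 hB0)]
  refine lintegral_congr fun x => congrArg _ ?_
  rw [mul_assoc, ← Real.exp_add]
  congr 2
  ring

end Pk

open Pk in
/-- **PK** -/
theorem pk : PK := by
  intro d Y _ _ _ _ _ _ h μ Ω ι L ρ f C hh hμ hO hρ hf hpd hC hH m y i e hy hyΩ hyU hye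
  have hW : Gd Ω fun e z => curvature L ρ e z + ddc f e z :=
    ⟨hpd, fun e e' x h1 h2 hx => by
      rw [isForm_curvature hρ e e' x h1 h2, ddc_change h1 h2 ((hf e' x h2 hx).of_le two_le),
        Matrix.mul_add, Matrix.add_mul], fun e x h1 hx j l =>
      ((rform_curvature hρ).closed.smooth e x h1 j l).continuousAt.add
        (contDiffAt_cHess (m := 0) (hf e x h1 hx)
          (by rw [zero_add, one_add_one_eq_two]; exact two_le) j l).continuousAt⟩
  obtain ⟨N, hN, hd⟩ := (finite_range y).t2_separation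
  obtain ⟨R, hR, hR0⟩ := (((eventually_all.2 fun a => eventually_closedBall_subset
    ((hye a).nhds_target.and (ev_symm (hye a) (p := fun x => x ∈ Ω ∩ L.U (i a) ∩ N (y a))
      (((hO.inter (L.isOpen _)).inter (hN _).2).mem_nhds ⟨⟨hyΩ a, hyU a⟩, (hN _).1⟩)))).filter_mono
        (nhdsWithin_le_nhds (s := Ioi 0))).and self_mem_nhdsWithin).exists
  obtain ⟨r, rfl⟩ : ∃ r, R = 2 * r := ⟨R / 2, by ring⟩
  have hr : 0 < r := by linarith [show 0 < 2 * r from hR0]
  have ht : ∀ a, closedBall (e a (y a)) (2 * r) ⊆ (e a).target := fun a z hz => (hR a hz).1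
  have hp : ∀ a, ∀ x ∈ pc (e a) (e a (y a)) (2 * r), x ∈ Ω ∩ L.U (i a) ∩ N (y a) := fun a x hx => by
    simpa only [(e a).left_inv hx.1] using (hR a hx.2).2
  have hΩ : ∀ a, pc (e a) (e a (y a)) (2 * r) ⊆ Ω := fun a x hx => (hp a x hx).1.1
  have hdj : ∀ a b, a ≠ b → ∀ x ∈ pc (e a) (e a (y a)) (2 * r), x ∉ pc (e b) (e b (y b)) (2 * r) :=
    fun a b hab x h1 h2 => disjoint_left.1
      (hd (mem_range_self a) (mem_range_self b) (hy.ne hab)) (hp a x h1).2 (hp b x h2).2
  choose Cp hCp hT using fun a => pole hW (hye a).1 hr (ht a) (hΩ a)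
  refine ⟨⌈C + ∑ a, Cp a + 1⌉₊, fun k hk c l => ?_⟩
  have hk' : 0 ≤ k - C - ∑ a, Cp a - 1 := by linarith [Nat.ceil_le.1 hk]
  let jt (s : ι → Y → ℂ) (a : Fin m) : ℂ × (Cm d →L[ℂ] ℂ) :=
    (s (i a) (y a), fderiv ℂ (fun z => s (i a) ((e a).symm z)) (e a (y a)))
  have hol : ∀ {s}, SecOn (powL L k) Ω s → ∀ a,
      DifferentiableAt ℂ (fun z => s (i a) ((e a).symm z)) (e a (y a)) := fun hs a =>
    (hs.holo _ _ _ (hye a) (hyU a) (hyΩ a)).differentiableAt
  let J : Submodule ℂ (Fin m → ℂ × (Cm d →L[ℂ] ℂ)) :=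
    { carrier := {w | ∃ s, SecOn (powL L k) Ω s ∧ jt s = w}
      zero_mem' := ⟨fun _ _ => 0, ⟨fun _ _ _ _ _ _ => analyticAt_const, fun _ _ _ _ _ _ =>
        (mul_zero _).symm⟩, funext fun a => Prod.ext rfl (fderiv_const_apply _)⟩
      add_mem' := by
        rintro _ _ ⟨s, hs, rfl⟩ ⟨t, ht, rfl⟩
        exact ⟨fun j x => s j x + t j x, ⟨fun j e x a b c => (hs.holo j e x a b c).add
          (ht.holo j e x a b c), fun j l x a b c => by
            rw [hs.change j l x a b c, ht.change j l x a b c, mul_add]⟩,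
          funext fun a => Prod.ext rfl (fderiv_fun_add (hol hs a) (hol ht a))⟩
      smul_mem' := by
        rintro t _ ⟨s, hs, rfl⟩
        exact ⟨fun j x => t * s j x, ⟨fun j e x a b c => analyticAt_const.mul (hs.holo j e x a b c),
          fun j l x a b c => by rw [hs.change j l x a b c, mul_left_comm]⟩,
          funext fun a => Prod.ext rfl (fderiv_const_mul (hol hs a) t)⟩ }
  suffices H : ∀ a v, ∀ η : ℝ, 0 < η → ∃ u ∈ J, ‖u - Pi.single a v‖ ≤ η by
    obtain ⟨s, hs, h1⟩ := eq_top J H fun a => (c a, l a)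
    exact ⟨s, hs, fun a => Prod.ext_iff.1 (congrFun h1 a)⟩
  intro a₀ v η hη
  set w : Fin m → ℂ × (Cm d →L[ℂ] ℂ) := Pi.single a₀ v with hw
  let P (a : Fin m) (z : Cm d) : ℂ := (w a).1 + (w a).2 (z - e a (y a))
  have hP : ∀ a z, HasFDerivAt (P a) (w a).2 z := fun a z =>
    ((w a).2.hasFDerivAt.comp z ((hasFDerivAt_id z).sub_const _)).const_add (w a).1
  have hΦ : SmOn (d := d) Ω fun x => k * f x := fun e x h1 h2 => contDiffAt_const.mul (hf e x h1 h2)
  obtain ⟨A, s, hA, s1, s2, s3, s4⟩ := core hh hμ hW (hye a₀).1 hr (ht a₀) (hΩ a₀)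
    (isMetric_pow hρ k) (i := i a₀) (fun x hx => (hp a₀ x hx).1.2) hΦ (hH k) (P := P a₀) fun z =>
      analyticAt_const.add (((w a₀).2.analyticAt _).comp (analyticAt_id.sub analyticAt_const))
  choose mm hm hest using fun a => est hh hμ (hye a).1 (ht a) (hΩ a) (isMetric_pow hρ k)
    (i := i a) (fun x hx => (hp a x hx).1.2) hΦ
  have hd0 : (0 : ℝ) ≤ d := Nat.cast_nonneg d
  obtain ⟨ε, ⟨e1, e2⟩, e0⟩ := (((eventually_all.2 fun a => jet d (div_nonneg hA (hm a).le) hη hr).and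
    (mem_nhdsWithin_of_mem_nhds (Iic_mem_nhds (show (0 : ℝ) < 1 / (4 * d + 4) by positivity)))).and
      self_mem_nhdsWithin).exists
  replace e0 : 0 < ε := e0
  replace e2 : ε * (4 * d + 4) ≤ 1 := (le_div_iff₀ (by positivity)).1 e2
  have e3 : 2 * ε * r ≤ r / 2 := by nlinarith [mul_nonneg e0.le hd0]
  choose T t1 t2 t3 t4 t5 t6 using fun a => hT a ε e0 (by nlinarith [mul_nonneg e0.le hd0])
  obtain ⟨G, hG, h1⟩ := s4 (fun x => ∑ a, T a x)
    (fun e x hx => ContDiffAt.sum fun a _ => t1 a e x hx) (fun x hx h1 => by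
      rw [Finset.sum_eq_single a₀ (fun b _ hb => t3 b x (hdj a₀ b hb.symm x hx)) (by simp)]
      exact t5 a₀ x hx.1 h1) fun e x hx hxΩ => by
    have h2 : ddc (fun x => k * f x + ∑ a, T a x) e (e x) =
        ((k : ℝ) : ℂ) • ddc f e (e x) + ∑ a, ddc (T a) e (e x) := by
      have h3 := (hf e x hx hxΩ).of_le two_le
      rw [ddc, cHess_add (contDiffAt_const.mul h3)
        (ContDiffAt.sum fun a _ => Ch.sm_two (t1 a) hx), cHess_const_mul _ h3,
        cHess_sum _ fun a _ => Ch.sm_two (t1 a) hx]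
      rfl
    convert ((hC e x hx hxΩ).add (Matrix.posSemidef_sum Finset.univ fun a _ => t4 a e x hx hxΩ)).add
      (psd_smul (hpd e x hx hxΩ).posSemidef hk') using 1
    beta_reduce
    rw [h2, curvature_pow hρ k e x hx, Finset.sum_add_distrib, ← Finset.sum_smul]
    push_cast
    module
  refine ⟨jt G, ⟨G, hG, rfl⟩, (pi_norm_le_iff_of_nonneg hη.le).2 fun a => ?_⟩
  have sub : ball (e a (y a)) (2 * ε * r) ⊆ closedBall (e a (y a)) (r / 2) :=
    ball_subset_closedBall.trans (closedBall_subset_closedBall e3)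
  have sub' : closedBall (e a (y a)) (r / 2) ⊆ closedBall (e a (y a)) (2 * r) :=
    closedBall_subset_closedBall (by linarith)
  have hV : DifferentiableOn ℂ (fun z => G (i a) ((e a).symm z) - P a z)
      (ball (e a (y a)) (2 * ε * r)) := fun z hz => by
    have h2 := symm_mem (ht a) (sub' (sub hz))
    have h3 := hG.holo (i a) _ _ (At.of_target (hye a).1 (ht a (sub' (sub hz)))) (hp a _ h2).1.2
      (hΩ a h2)
    rw [(e a).right_inv (ht a (sub' (sub hz)))] at h3
    exact (h3.differentiableAt.sub (hP a z).differentiableAt).differentiableWithinAt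
  obtain ⟨h2, h3⟩ := e1 a _ _ hV (hest a _ _ _ _ A _ (by linarith) (by positivity)
    (fun j l x a b c => by rw [hG.change j l x a b c, s1 j l x a b, mul_sub])
    (fun x hx h2 => (Real.exp_le_exp.2 (by
      rw [← Finset.add_sum_erase _ _ (Finset.mem_univ a)]
      exact add_le_of_nonpos_right (Finset.sum_nonpos fun b _ => t2 b x))).trans (t6 a x hx h2))
    hV.continuousOn (fun z hz => by
      congr 1
      by_cases ha : a = a₀
      · subst ha
        rw [s2 _ (symm_mem (sub'.trans (ht a)) (sub hz)), (e a).right_inv (ht a (sub' (sub hz)))]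
      · rw [s3 _ _ (hdj a a₀ ha _ (symm_mem (ht a) (sub' (sub hz))))]
        simp [P, hw, Pi.single_eq_of_ne ha]) h1)
  rw [fderiv_fun_sub (hol hG a) (hP a _).differentiableAt, (hP a _).fderiv] at h3
  refine norm_prod_le_iff.2 ⟨?_, h3⟩
  simpa [P, jt, (hye a).left_inv] using h2

end Vale.Agent.P277Z.Pos
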