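import Vale.Agent.P277Z.Pos.MSpec

/-! P277Z, block P: finitely many sections of one power embed a compact set. -/

open scoped Manifold ContDiff Topology
open Filter Set

set_option linter.unusedSectionVars false

noncomputable section

namespace Vale.Agent.P277Z.Pos

open Vale.Agent.P272.K Vale.Agent.P301.H599
open Vale.Agent.P301.H862 (powL)
open Vale.Agent.P301.H98 (ev_mem)
open Vale.Agent.P277Z.Van (SecOn)

namespace SoftH

section abs
variable {E : Type} [NormedAddCommGroup E] [NormedSpace ℂ E] [FiniteDimensional ℂ E] {α : Type}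

/-- the functions `f a`, `a ∈ F`, define an immersion into the projective space at `z` -/
def Jt (F : Set α) (f : α → E → ℂ) (z : E) : Prop :=
  ∀ (v : E) (c : ℂ), (∀ a ∈ F, fderiv ℂ (f a) z v = c * f a z) → v = 0 ∧ c = 0

theorem Jt.nz {F : Set α} {f : α → E → ℂ} {z : E} (h : Jt F f z) : ∃ a ∈ F, f a z ≠ 0 := by
  by_contra h0
  push Not at h0
  exact one_ne_zero (h 0 1 fun a ha => by rw [map_zero, h0 a ha, mul_zero]).2

theorem near {F : Set α} (hF : F.Finite) {f : α → E → ℂ} {z : E}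
    (hf : ∀ a ∈ F, AnalyticAt ℂ (f a) z) (hj : Jt F f z) :
    (∀ᶠ w in 𝓝 z, Jt F f w) ∧ ∀ᶠ p in 𝓝 (z, z),
      (∀ a ∈ F, ∀ b ∈ F, f a p.1 * f b p.2 = f b p.1 * f a p.2) → p.1 = p.2 := by
  have := hF.fintype
  have : CompleteSpace E := FiniteDimensional.complete ℂ E
  set Ψ : ℂ × E → F → ℂ := fun p a => p.1 * f a p.2 with hΨ
  have hd : ∀ w, (∀ a ∈ F, AnalyticAt ℂ (f a) w) → ∀ (c : ℂ) (v : E) (a : F),
      fderiv ℂ Ψ (1, w) (c, v) a = fderiv ℂ (f a) w v + c * f a w := by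
    intro w hw c v a
    have h1 : HasFDerivAt Ψ (ContinuousLinearMap.pi fun a : F =>
        (1 : ℂ) • (fderiv ℂ (f a) w).comp (ContinuousLinearMap.snd ℂ ℂ E) +
          f a w • ContinuousLinearMap.fst ℂ ℂ E) (1, w) :=
      hasFDerivAt_pi.2 fun a => by
        have h2 : HasFDerivAt (fun p : ℂ × E => f a p.2)
            ((fderiv ℂ (f a) w).comp (ContinuousLinearMap.snd ℂ ℂ E)) (1, w) :=
          HasFDerivAt.comp ((1 : ℂ), w) (g := f a) (f := Prod.snd)
            (hw a a.2).differentiableAt.hasFDerivAt hasFDerivAt_snd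
        exact (hasFDerivAt_fst (𝕜 := ℂ) (p := ((1 : ℂ), w))).mul h2
    rw [h1.fderiv]
    simp [mul_comm]
  have ha : AnalyticAt ℂ Ψ (1, z) := AnalyticAt.pi fun a =>
    analyticAt_fst.mul ((hf a a.2).comp (f := Prod.snd) (x := ((1 : ℂ), z)) analyticAt_snd)
  have hi : Function.Injective (fderiv ℂ Ψ (1, z)) := by
    refine (injective_iff_map_eq_zero _).2 fun p hp => ?_
    obtain ⟨h1, h2⟩ := hj p.2 (-p.1) fun a ha => by
      have := congrFun hp ⟨a, ha⟩
      rw [hd z hf p.1 p.2, Pi.zero_apply] at this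
      linear_combination this
    exact Prod.ext (neg_eq_zero.1 h2) h1
  have ht : Tendsto (fun w : E => ((1 : ℂ), w)) (𝓝 z) (𝓝 (1, z)) :=
    (continuous_const.prodMk continuous_id).tendsto z
  constructor
  · have h1 := ht.eventually (ha.fderiv.continuousAt.eventually
      (ContinuousLinearMap.isOpen_injective.mem_nhds hi))
    have h2 : ∀ᶠ w in 𝓝 z, ∀ a ∈ F, AnalyticAt ℂ (f a) w :=
      (eventually_all_finite hF).2 fun a ha => (hf a ha).eventually_analyticAt
    filter_upwards [h1, h2] with w h3 h4 v c h5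
    have h6 : ((-c, v) : ℂ × E) = 0 := (injective_iff_map_eq_zero _).1 h3 _ (funext fun a => by
      rw [hd w h4, h5 a a.2]
      simp)
    exact ⟨congrArg Prod.snd h6, neg_eq_zero.1 (congrArg Prod.fst h6)⟩
  · obtain ⟨B, hB⟩ := LinearMap.exists_leftInverse_of_injective
      (fderiv ℂ Ψ (1, z) : ℂ × E →ₗ[ℂ] F → ℂ) (LinearMap.ker_eq_bot.2 hi)
    have h1 : HasStrictFDerivAt (fun p => B.toContinuousLinearMap (Ψ p))
        (ContinuousLinearEquiv.refl ℂ (ℂ × E) : ℂ × E →L[ℂ] ℂ × E) (1, z) := by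
      have h2 := B.toContinuousLinearMap.hasStrictFDerivAt.comp _ ha.hasStrictFDerivAt
      have h3 : B.toContinuousLinearMap.comp (fderiv ℂ Ψ (1, z)) =
          (ContinuousLinearEquiv.refl ℂ (ℂ × E) : ℂ × E →L[ℂ] ℂ × E) :=
        ContinuousLinearMap.ext fun p => LinearMap.congr_fun hB p
      rw [h3] at h2
      exact h2
    obtain ⟨a, haF, ha0⟩ := hj.nz
    have c1 : ContinuousAt (fun p : E × E => f a p.1) (z, z) :=
      (hf a haF).continuousAt.comp (f := Prod.fst) (x := (z, z)) continuousAt_fst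
    have c2 : ContinuousAt (fun p : E × E => f a p.2) (z, z) :=
      (hf a haF).continuousAt.comp (f := Prod.snd) (x := (z, z)) continuousAt_snd
    have t1 : Tendsto (fun p : E × E => (f a p.2 / f a p.1, p.1)) (𝓝 (z, z)) (𝓝 (1, z)) := by
      have := ((c2.div c1 ha0).prodMk continuousAt_fst).tendsto
      simpa only [Pi.div_apply, div_self ha0] using this
    filter_upwards [t1.eventually h1.eventually_left_inverse,
      (ht.comp (continuous_snd.tendsto (z, z))).eventually h1.eventually_left_inverse,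
      c1.eventually_ne ha0] with p h4 h5 h6 h7
    have h8 : Ψ (f a p.2 / f a p.1, p.1) = Ψ (1, p.2) := funext fun b => by
      simp only [hΨ]
      rw [div_mul_eq_mul_div, div_eq_iff h6]
      linear_combination -h7 a haF b b.2
    rw [h8] at h4
    exact congrArg Prod.snd (h4.symm.trans h5)

end abs

variable {d : ℕ} {Y : Type} [TopologicalSpace Y] [ChartedSpace (Cm d) Y]
  [IsManifold 𝓘(ℂ, Cm d) ω Y] {ι : Type} {M L : LineBundle d Y ι} {Ω : Set Y}
  {F G : Set (ι → Y → ℂ)} {i j : ι} {e e' : Chart d Y} {y y' : Y}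

theorem ev_ch (hx : At e y) {P : Y → Prop} (h : ∀ᶠ x in 𝓝 y, P x) :
    ∀ᶠ z in 𝓝 (e y), P (e.symm z) :=
  (e.continuousAt_symm hx.mem_target).eventually (by rwa [hx.left_inv])

theorem cont (hx : At e y) {f : Y → ℂ} (h : AnalyticAt ℂ (fun z => f (e.symm z)) (e y)) :
    ContinuousAt f y := by
  refine (h.continuousAt.comp (f := e) (e.continuousAt hx.2)).congr ?_
  filter_upwards [e.open_source.mem_nhds hx.2] with x hx
  simp only [Function.comp, e.left_inv hx]

/-- the jet condition in a frame and a chart -/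
def J1 (F : Set (ι → Y → ℂ)) (i : ι) (e : Chart d Y) (y : Y) : Prop :=
  Jt F (fun s z => s i (e.symm z)) (e y)

theorem J1.change (hΩ : IsOpen Ω) (hF : ∀ s ∈ F, SecOn M Ω s) (hy : y ∈ Ω) (hi : y ∈ M.U i)
    (hj : y ∈ M.U j) (he : At e y) (he' : At e' y) (h : J1 F i e y) : J1 F j e' y := by
  intro v c hv
  have hT := (transition_differentiableAt he' he).hasFDerivAt
  have hT' := (transition_differentiableAt he he').hasFDerivAt
  set T := fderiv ℂ (fun z => e (e'.symm z)) (e' y)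
  have hg := (M.holo j i e' y he' hj hi).differentiableAt.hasFDerivAt
  set D := fderiv ℂ (fun z => M.g j i (e'.symm z)) (e' y)
  have hg0 := M.ne_zero j i y hj hi
  have h1 : e (e'.symm (e' y)) = e y := by rw [he'.left_inv]
  obtain ⟨h2, h3⟩ := h (T v) (c - D v / M.g j i y) fun s hs => by
    have h4 := ((hF s hs).holo i e y he hi hy).differentiableAt.hasFDerivAt
    rw [← h1] at h4
    have h5 := (hg.mul (h4.comp (e' y) hT)).congr_of_eventuallyEq
      (f₁ := fun z => s j (e'.symm z)) (by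
        filter_upwards [he'.nhds_at he, ev_mem he' hi, ev_mem he' hj,
          ev_ch he' (hΩ.eventually_mem hy)] with z a1 a2 a3 a4
        simp only [Pi.mul_apply, Function.comp, a1.2.2.left_inv]
        exact (hF s hs).change j i _ a3.2 a2.2 a4)
    have h6 := hv s hs
    rw [h5.fderiv] at h6
    simp only [add_apply, smul_apply, Function.comp,
      ContinuousLinearMap.comp_apply, smul_eq_mul, he'.left_inv, he.left_inv,
      (hF s hs).change j i y hj hi hy] at h6 ⊢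
    field_simp
    linear_combination h6
  have h7 : v = 0 := by
    rw [← h1] at hT'
    have h8 := (hT'.comp (e' y) hT).congr_of_eventuallyEq (f₁ := id) (by
      filter_upwards [he'.nhds_at he] with z a1
      simp only [Function.comp, a1.2.2.left_inv, e'.right_inv a1.1, id])
    have h9 := congrArg (fun A => A v) (h8.unique (hasFDerivAt_id _))
    simp only [ContinuousLinearMap.comp_apply, h2, map_zero, ContinuousLinearMap.id_apply] at h9
    exact h9.symm
  rw [h7, map_zero, zero_div, sub_zero] at h3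
  exact ⟨h7, h3⟩

variable (L) in
/-- the jet condition -/
def J (F : Set (ι → Y → ℂ)) (y : Y) : Prop := ∀ i (e : Chart d Y), y ∈ L.U i → At e y → J1 F i e y

variable (L) in
/-- separation of two points -/
def Sp (F : Set (ι → Y → ℂ)) (y y' : Y) : Prop :=
  ∀ i j, y ∈ L.U i → y' ∈ L.U j → ∃ s ∈ F, ∃ t ∈ F, s i y * t j y' ≠ t i y * s j y'

theorem at_self (x : Y) : At (chartAt (Cm d) x) x := ⟨chart_mem_atlas _ x, mem_chart_source _ x⟩

theorem J.nz (h : J L F y) (hi : y ∈ L.U i) : ∃ s ∈ F, s i y ≠ 0 := by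
  have := (h i _ hi (at_self y)).nz
  rwa [(at_self y).left_inv] at this

theorem J.mono (h : J L F y) (hFG : F ⊆ G) : J L G y :=
  fun i e hi he v c hv => h i e hi he v c fun s hs => hv s (hFG hs)

theorem Sp.mono (h : Sp L F y y') (hFG : F ⊆ G) : Sp L G y y' := fun i j hi hj =>
  let ⟨s, hs, t, ht, h1⟩ := h i j hi hj
  ⟨s, hFG hs, t, hFG ht, h1⟩

theorem sp_of (hF : ∀ s ∈ F, SecOn M Ω s) (hy : y ∈ Ω) (hy' : y' ∈ Ω) (hi : y ∈ M.U i)
    (hj : y' ∈ M.U j) (h : ∃ s ∈ F, ∃ t ∈ F, s i y * t j y' ≠ t i y * s j y') : Sp M F y y' := by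
  obtain ⟨s, hs, t, ht, h⟩ := h
  refine fun k l hk hl => ⟨s, hs, t, ht, fun h1 => h ?_⟩
  rw [(hF s hs).change i k y hi hk hy, (hF t ht).change i k y hi hk hy,
    (hF s hs).change j l y' hj hl hy', (hF t ht).change j l y' hj hl hy']
  linear_combination M.g i k y * M.g j l y' * h1

/-- the sections `s ^ m t` -/
def pw (F : Set (ι → Y → ℂ)) (m : ℕ) : Set (ι → Y → ℂ) :=
  image2 (fun s t i y => s i y ^ m * t i y) F F

theorem pw_sec {k : ℕ} (hF : ∀ s ∈ F, SecOn (powL L k) Ω s) (m : ℕ) :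
    ∀ s ∈ pw F m, SecOn (powL L (k * (m + 1))) Ω s := by
  rintro _ ⟨s, hs, t, ht, rfl⟩
  refine ⟨fun i e x he hi hx =>
    (((hF s hs).holo i e x he hi hx).pow m).mul ((hF t ht).holo i e x he hi hx),
    fun i j x hi hj hx => ?_⟩
  show s i x ^ m * t i x = L.g i j x ^ (k * (m + 1)) * (s j x ^ m * t j x)
  rw [(hF s hs).change i j x hi hj hx, (hF t ht).change i j x hi hj hx]
  show (L.g i j x ^ k * s j x) ^ m * (L.g i j x ^ k * t j x) = _
  ring

theorem J.pw {k : ℕ} (hF : ∀ s ∈ F, SecOn (powL L k) Ω s) (hy : y ∈ Ω) (h : J L F y) (m : ℕ) :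
    J L (pw F m) y := by
  intro i e hi he v c hv
  obtain ⟨s, hs, h0⟩ := h.nz hi
  have h1 := (((hF s hs).holo i e y he hi hy).pow m).differentiableAt.hasFDerivAt
  set D := fderiv ℂ ((fun z => s i (e.symm z)) ^ m) (e y)
  have h0' := pow_ne_zero m h0
  obtain ⟨h2, h3⟩ := h i e hi he v (c - D v / s i y ^ m) fun t ht => by
    have h4 := h1.mul ((hF t ht).holo i e y he hi hy).differentiableAt.hasFDerivAt
    have h5 := hv _ (mem_image2_of_mem hs ht)
    have h6 : fderiv ℂ (fun z => s i (e.symm z) ^ m * t i (e.symm z)) (e y) = _ := h4.fderiv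
    simp only [h6, add_apply, smul_apply, Pi.pow_apply,
      smul_eq_mul, he.left_inv] at h5 ⊢
    field_simp
    linear_combination h5
  rw [h2, map_zero, zero_div, sub_zero] at h3
  exact ⟨h2, h3⟩

theorem Sp.pw (h : Sp L F y y') (h1 : J L F y) (h2 : J L F y') (m : ℕ) : Sp L (pw F m) y y' := by
  intro i j hi hj
  by_contra h3
  push Not at h3
  obtain ⟨s, hs, t, ht, hst⟩ := h i j hi hj
  obtain ⟨a, ha, ha0⟩ := h1.nz hi
  obtain ⟨b, hb, hb0⟩ := h2.nz hj
  have h4 : a j y' ≠ 0 := fun h5 => by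
    have h6 := h3 _ (mem_image2_of_mem ha ha) _ (mem_image2_of_mem hb hb)
    simp only [h5, mul_zero] at h6
    exact mul_ne_zero (mul_ne_zero (pow_ne_zero m ha0) ha0)
      (mul_ne_zero (pow_ne_zero m hb0) hb0) h6
  have h7 : ∀ u ∈ F, u i y * a j y' = a i y * u j y' := fun u hu => by
    have h6 := h3 _ (mem_image2_of_mem ha hu) _ (mem_image2_of_mem ha ha)
    refine mul_left_cancel₀ (mul_ne_zero (pow_ne_zero m ha0) (pow_ne_zero m h4)) ?_
    linear_combination h6
  refine hst (mul_left_cancel₀ ha0 ?_)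
  linear_combination s i y * -h7 t ht + t i y * h7 s hs

variable (L Ω) in
/-- the property proved by induction on compact sets of pairs -/
def Good (S : Set (Y × Y)) : Prop :=
  ∃ (k : ℕ) (F : Set (ι → Y → ℂ)), F.Finite ∧ (∀ s ∈ F, SecOn (powL L (k + 1)) Ω s) ∧
    ∀ p ∈ S, p.1 ∈ Ω ∧ p.2 ∈ Ω ∧ J L F p.1 ∧ J L F p.2 ∧ (p.2 ≠ p.1 → Sp L F p.1 p.2)

theorem Good.union {S T : Set (Y × Y)} (hS : Good L Ω S) (hT : Good L Ω T) :
    Good L Ω (S ∪ T) := by
  obtain ⟨k, F, hF, h1, h2⟩ := hS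
  obtain ⟨m, G, hG, h3, h4⟩ := hT
  refine ⟨k * m + k + m, pw F m ∪ pw G k, (hF.image2 _ hF).union (hG.image2 _ hG), ?_, ?_⟩
  · rintro s (hs | hs)
    · rw [show k * m + k + m + 1 = (k + 1) * (m + 1) by ring]
      exact pw_sec h1 m s hs
    · rw [show k * m + k + m + 1 = (m + 1) * (k + 1) by ring]
      exact pw_sec h3 k s hs
  · rintro p (hp | hp)
    · obtain ⟨a, b, c, d, f⟩ := h2 p hp
      exact ⟨a, b, (c.pw h1 a m).mono subset_union_left, (d.pw h1 b m).mono subset_union_left,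
        fun h => ((f h).pw c d m).mono subset_union_left⟩
    · obtain ⟨a, b, c, d, f⟩ := h4 p hp
      exact ⟨a, b, (c.pw h3 a k).mono subset_union_right, (d.pw h3 b k).mono subset_union_right,
        fun h => ((f h).pw c d k).mono subset_union_right⟩

theorem j_near {k : ℕ} (hΩ : IsOpen Ω) (hF : F.Finite) (h1 : ∀ s ∈ F, SecOn (powL L k) Ω s)
    (hy : y ∈ Ω) (hi : y ∈ L.U i) (he : At e y) (h : J1 F i e y) :
    (∀ᶠ x in 𝓝 y, x ∈ Ω ∧ x ∈ L.U i ∧ J L F x) ∧
      ∀ᶠ p in 𝓝 (y, y), p.2 ≠ p.1 → Sp L F p.1 p.2 := by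
  obtain ⟨h2, h3⟩ := near hF (fun s hs => (h1 s hs).holo i e y he hi hy) h
  have h4 : ∀ᶠ x in 𝓝 y, x ∈ Ω ∧ x ∈ L.U i ∧ At e x := (hΩ.eventually_mem hy).and
    (((L.isOpen i).eventually_mem hi).and
      ((e.open_source.eventually_mem he.2).mono fun x hx => ⟨he.1, hx⟩))
  have hc := e.continuousAt he.2
  constructor
  · filter_upwards [h4, hc.eventually h2] with x a1 a2
    exact ⟨a1.1, a1.2.1, fun j e' hj he' => J1.change hΩ h1 a1.1 a1.2.1 hj a1.2.2 he' a2⟩
  · have hc2 : Tendsto (fun p : Y × Y => (e p.1, e p.2)) (𝓝 (y, y)) (𝓝 (e y, e y)) :=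
      (hc.tendsto.comp (continuous_fst.tendsto (y, y))).prodMk_nhds
        (hc.tendsto.comp (continuous_snd.tendsto (y, y)))
    filter_upwards [(continuous_fst.tendsto (y, y)).eventually h4,
      (continuous_snd.tendsto (y, y)).eventually h4, hc2.eventually h3] with p a1 a2 a3 hne
    refine sp_of (M := powL L k) h1 a1.1 a2.1 a1.2.1 a2.2.1 ?_
    by_contra h5
    push Not at h5
    refine hne (e.injOn a2.2.2.2 a1.2.2.2 (a3 fun s hs t ht => ?_).symm)
    simp only [a1.2.2.left_inv, a2.2.2.left_inv]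
    exact h5 s hs t ht

theorem fam (hJ : Jets L Ω) {m : ℕ} {y : Fin m → Y} (hy : Function.Injective y)
    (hΩ : ∀ a, y a ∈ Ω) {i : Fin m → ι} (hi : ∀ a, y a ∈ L.U (i a)) :
    ∃ (k : ℕ) (F : Set (ι → Y → ℂ)), F.Finite ∧ (∀ s ∈ F, SecOn (powL L (k + 1)) Ω s) ∧
      (∀ a, J1 F (i a) (chartAt (Cm d) (y a)) (y a)) ∧
      ∀ a, ∃ s ∈ F, s (i a) (y a) = 1 ∧ ∀ b, b ≠ a → s (i b) (y b) = 0 := by
  obtain ⟨k, hk⟩ := hJ m y i (fun a => chartAt (Cm d) (y a)) hy hΩ hi fun a => at_self _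
  choose σ h1 h2 using hk (k + 1) (Nat.le_succ k)
  refine ⟨k, (range fun a => σ (Pi.single a 1) 0) ∪
    range fun q : Fin d => σ 0 fun _ => ContinuousLinearMap.proj q,
    (finite_range _).union (finite_range _), ?_, fun a v c hv => ?_, fun a =>
    ⟨_, Or.inl (mem_range_self a), ?_, fun b hb => ?_⟩⟩
  · rintro _ (⟨a, rfl⟩ | ⟨q, rfl⟩) <;> exact h1 _ _
  · constructor
    · funext q
      have := hv _ (Or.inr (mem_range_self q))
      simpa only [(h2 _ _ a).2, (at_self (y a)).left_inv, (h2 _ _ a).1, Pi.zero_apply, mul_zero,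
        ContinuousLinearMap.proj_apply] using this
    · have := hv _ (Or.inl (mem_range_self a))
      simpa only [(h2 _ _ a).2, (at_self (y a)).left_inv, (h2 _ _ a).1, Pi.zero_apply, mul_one,
        zero_apply, Pi.single_eq_same, eq_comm] using this
  · rw [(h2 _ _ a).1, Pi.single_eq_same]
  · rw [(h2 _ _ b).1, Pi.single_eq_of_ne hb]

theorem good_near (hΩ : IsOpen Ω) (hJ : Jets L Ω) (hy : y ∈ Ω) (hy' : y' ∈ Ω) :
    ∃ S ∈ 𝓝 (y, y'), Good L Ω S := by
  obtain ⟨i, hi⟩ := L.cover y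
  obtain ⟨j, hj⟩ := L.cover y'
  by_cases h : y = y'
  · subst h
    obtain ⟨k, F, hF, h1, h2, -⟩ := fam hJ (m := 1) (y := fun _ => y) (i := fun _ => i)
      (Function.injective_of_subsingleton _) (fun _ => hy) fun _ => hi
    obtain ⟨h3, h4⟩ := j_near hΩ hF h1 hy hi (at_self y) (h2 0)
    refine ⟨_, (((continuous_fst.tendsto (y, y)).eventually h3).and
      ((continuous_snd.tendsto (y, y)).eventually h3)).and h4, k, F, hF, h1, fun p hp => ?_⟩
    exact ⟨hp.1.1.1, hp.1.2.1, hp.1.1.2.2, hp.1.2.2.2, hp.2⟩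
  · obtain ⟨k, F, hF, h1, h2, h5⟩ := fam hJ (m := 2) (y := ![y, y']) (i := ![i, j])
      (by
        intro a b hab
        fin_cases a <;> fin_cases b <;> first | rfl | exact absurd hab h | exact absurd hab.symm h)
      (Fin.forall_fin_two.2 ⟨hy, hy'⟩) (Fin.forall_fin_two.2 ⟨hi, hj⟩)
    obtain ⟨h3, -⟩ := j_near hΩ hF h1 hy hi (at_self y) (h2 0)
    obtain ⟨h4, -⟩ := j_near hΩ hF h1 hy' hj (at_self y') (h2 1)
    obtain ⟨s, hs, s1, -⟩ := h5 0
    obtain ⟨t, ht, t1, t0⟩ := h5 1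
    have c1 : ∀ u ∈ F, ContinuousAt (fun p : Y × Y => u i p.1) (y, y') := fun u hu =>
      (cont (at_self y) ((h1 u hu).holo i _ y (at_self y) hi hy)).comp (f := Prod.fst)
        (x := (y, y')) continuousAt_fst
    have c2 : ∀ u ∈ F, ContinuousAt (fun p : Y × Y => u j p.2) (y, y') := fun u hu =>
      (cont (at_self y') ((h1 u hu).holo j _ y' (at_self y') hj hy')).comp (f := Prod.snd)
        (x := (y, y')) continuousAt_snd
    have h6 := (((c1 s hs).mul (c2 t ht)).sub ((c1 t ht).mul (c2 s hs))).eventually_ne (y := 0) (by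
      have a1 : s i y = 1 := s1
      have a2 : t j y' = 1 := t1
      have a3 : t i y = 0 := t0 0 (by decide)
      simp [a1, a2, a3])
    refine ⟨_, (((continuous_fst.tendsto (y, y')).eventually h3).and
      ((continuous_snd.tendsto (y, y')).eventually h4)).and h6, k, F, hF, h1, fun p hp => ?_⟩
    exact ⟨hp.1.1.1, hp.1.2.1, hp.1.1.2.2, hp.1.2.2.2, fun _ => sp_of (M := powL L (k + 1)) h1
      hp.1.1.1 hp.1.2.1 hp.1.1.2.1 hp.1.2.2.1 ⟨s, hs, t, ht, sub_ne_zero.1 hp.2⟩⟩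

end SoftH

open SoftH in
theorem soft : SOFT := by
  intro d Y _ _ _ _ ι L Ω hΩ hJ K hK hKΩ
  obtain ⟨k, F, hF, h1, h2⟩ : Good L Ω (K ×ˢ K) := by
    refine (hK.prod hK).induction_on ⟨0, ∅, finite_empty, fun _ h => h.elim, fun _ h => h.elim⟩
      (fun S T hST ⟨k, F, hF, h1, h2⟩ => ⟨k, F, hF, h1, fun p hp => h2 p (hST hp)⟩)
      (fun S T => Good.union) fun p hp => ?_
    obtain ⟨S, hS, h⟩ := good_near hΩ hJ (hKΩ hp.1) (hKΩ hp.2)
    exact ⟨S, mem_nhdsWithin_of_mem_nhds hS, h⟩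
  obtain ⟨n, s, -, hs⟩ := (hF.insert 0).fin_param
  obtain ⟨l₀, -⟩ : (0 : ι → Y → ℂ) ∈ range s := hs ▸ mem_insert _ _
  obtain ⟨N, rfl⟩ : ∃ N, n = N + 1 := ⟨n - 1, by have := l₀.2; omega⟩
  have hFs : F ⊆ range s := hs ▸ subset_insert _ _
  have hsec : ∀ l, SecOn (powL L (k + 1)) Ω (s l) := fun l => by
    rcases (hs ▸ mem_range_self l : s l ∈ insert 0 F) with h | h
    · rw [h]
      exact ⟨fun _ _ _ _ _ _ => analyticAt_const, fun _ _ _ _ _ _ => (mul_zero _).symm⟩
    · exact h1 _ h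
  have hj : ∀ y ∈ K, J L (range s) y := fun y hy => (h2 (y, y) ⟨hy, hy⟩).2.2.1.mono hFs
  refine ⟨k + 1, N, s, Nat.le_add_left 1 k, hsec, fun y hy i hi => ?_,
    fun y hy y' hy' hne i j hi hj => ?_, fun y hy i l hi hl e he v hv => ?_⟩
  · obtain ⟨_, ⟨l, rfl⟩, h⟩ := (hj y hy).nz hi
    exact ⟨l, h⟩
  · obtain ⟨_, ⟨l, rfl⟩, _, ⟨m, rfl⟩, h⟩ :=
      ((h2 (y, y') ⟨hy, hy'⟩).2.2.2.2 hne).mono hFs i j hi hj
    exact ⟨l, m, h⟩
  · have ha := fun m => (hsec m).holo i e y he hi (hKΩ hy)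
    have hl' : s l i (e.symm (e y)) ≠ 0 := by rwa [he.left_inv]
    refine (hj y hy i e hi he v (fderiv ℂ (fun z => s l i (e.symm z)) (e y) v / s l i y) ?_).1
    rintro _ ⟨m, rfl⟩
    have h3 := (((ha m).div (ha l) hl').differentiableAt.hasFDerivAt.mul
      (ha l).differentiableAt.hasFDerivAt).congr_of_eventuallyEq
      (f₁ := fun z => s m i (e.symm z)) (by
        filter_upwards [(ha l).continuousAt.eventually_ne hl'] with z hz
        exact (div_mul_cancel₀ _ hz).symm)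
    have h4 : fderiv ℂ ((fun z => s m i (e.symm z)) / fun z => s l i (e.symm z)) (e y) v = 0 := hv m
    rw [h3.fderiv]
    simp only [add_apply, smul_apply, Pi.div_apply,
      smul_eq_mul, he.left_inv, h4]
    field_simp
    ring

end Vale.Agent.P277Z.Pos
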