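import Vale.Agent.P277Z.Pos.Kod
import Vale.Agent.P277Z.Pos.Jo
import Vale.Agent.P277Z.Pos.Soft
import Vale.Agent.P277Z.Pos.Pk
import Vale.Agent.P277Z.Van.Horm
import Vale.Agent.P277Z.Van.Vol

/-!
# P277Z, block P: the relative embedding theorem without hypotheses
-/

namespace Vale.Agent.P277Z.Pos

theorem joA : JO := jo Van.horm Van.vol pk

theorem kodA : KOD := kod joA soft

end Vale.Agent.P277Z.Pos
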