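import Vale.Agent.P277Z.Pos.MSpec
import Vale.Agent.P284Y.Lib.Rich
import Vale.Agent.P284Y.P.PshB
import Vale.Agent.P272.K.Inv.Chart

/-!
# P277Z, block P: the regularisation theorem of Richberg for local potentials
-/

open scoped Manifold ContDiff ComplexOrder Topology
open Filter Set Metric Real

noncomputable section

namespace Vale.Agent.P277Z.Pos

open Vale.Agent.P272.K
open Vale.Agent.P284Z (Psh levi cHess_quad cHess_psd_iff)
open Vale.Agent.P284Y.Lib

namespace RbAux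

variable {d : ℕ}

theorem nsq_sm : ContDiff ℝ ∞ (nsq : Cm d → ℝ) :=
  ContDiff.sum fun l _ => (contDiff_norm_sq ℝ (E := ℂ)).comp (contDiff_apply ℝ ℂ l)

theorem levi_nsq' (z w : Cm d) : levi (nsq : Cm d → ℝ) z w = 4 * nsq w := by
  have h : ∀ l : Fin d, AnalyticAt ℂ (fun z : Cm d => z l) z := fun l =>
    (ContinuousLinearMap.proj (R := ℂ) (φ := fun _ : Fin d => ℂ) l).analyticAt z
  have h2 : ∀ l : Fin d, fderiv ℂ (fun z : Cm d => z l) z w = w l := fun l => by
    rw [show fderiv ℂ (fun z : Cm d => z l) z =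
      ContinuousLinearMap.proj (R := ℂ) (φ := fun _ : Fin d => ℂ) l from
        (ContinuousLinearMap.proj (R := ℂ) (φ := fun _ : Fin d => ℂ) l).fderiv]
    rfl
  unfold nsq
  rw [levi_sum (f := fun l (z : Cm d) => ‖z l‖ ^ 2) _ fun l _ =>
    (((contDiff_norm_sq ℝ (E := ℂ)).comp (contDiff_apply ℝ ℂ l)).contDiffAt), Finset.mul_sum]
  exact Finset.sum_congr rfl fun l _ => by
    rw [Vale.Agent.P284Y.Ps.levi_nsq (h l), h2]

theorem nsq_pos {w : Cm d} (hw : w ≠ 0) : 0 < nsq w := by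
  obtain ⟨l, hl⟩ := Function.ne_iff.1 hw
  exact Finset.sum_pos' (fun _ _ => sq_nonneg _)
    ⟨l, Finset.mem_univ _, pow_pos (norm_pos_iff.2 hl) 2⟩

theorem posDef_of_levi {u : Cm d → ℝ} {z : Cm d} (hu : ContDiffAt ℝ 2 u z)
    (h : ∀ w, w ≠ 0 → 0 < levi u z w) : (cHess u z).PosDef := by
  have h0 : (cHess u z).PosSemidef := (cHess_psd_iff hu).2 fun w => by
    by_cases hw : w = 0
    · simp [hw, levi]
    · exact (h w hw).le
  refine Matrix.PosDef.of_dotProduct_mulVec_pos h0.isHermitian fun x hx => ?_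
  rw [cHess_quad hu, Complex.zero_lt_real]
  linarith [h (star x) (star_ne_zero.2 hx)]

theorem levi_of_flat {u : Cm d → ℝ} {z : Cm d} (hu : ContDiffAt ℝ 2 u z) (h : cHess u z = 0)
    (w : Cm d) : levi u z w = 0 := by
  have := cHess_quad hu (star w)
  rw [h, star_star] at this
  simp only [Matrix.zero_mulVec, dotProduct_zero] at this
  have h2 : (levi u z w / 4 : ℝ) = 0 := by exact_mod_cast this.symm
  linarith

variable {Y : Type} [TopologicalSpace Y] [ChartedSpace (Cm d) Y] {e e' : Chart d Y} {y : Y}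

theorem ev_ch (h : At e y) {p : Y → Prop} (hp : ∀ᶠ x in 𝓝 y, p x) :
    ∀ᶠ z in 𝓝 (e y), p (e.symm z) :=
  (e.continuousAt_symm h.mem_target).eventually (by rw [h.left_inv]; exact hp)

theorem ev_tr (h : At e y) (h' : At e' y) {α : Type} (F : Y → α) :
    (fun z => F (e.symm z)) =ᶠ[𝓝 (e y)] fun z => F (e'.symm (e' (e.symm z))) :=
  (h.nhds_at h').mono fun z hz => by
    beta_reduce
    rw [hz.2.2.left_inv]

section mfd
variable [IsManifold 𝓘(ℂ, Cm d) ω Y]

theorem tr_an (h : At e y) (h' : At e' y) : AnalyticAt ℂ (fun z => e' (e.symm z)) (e y) :=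
  (transition h h').analyticAt

/-- the derivative of the change of coordinates -/
def D (e e' : Chart d Y) (y : Y) (w : Cm d) : Cm d := fderiv ℂ (fun z => e' (e.symm z)) (e y) w

theorem D_ne (h : At e y) (h' : At e' y) {w : Cm d} (hw : w ≠ 0) : D e e' y w ≠ 0 := by
  intro h0
  have h1 := (tr_an h h').differentiableAt
  have h2 : DifferentiableAt ℂ (fun z => e (e'.symm z)) (e' (e.symm (e y))) := by
    rw [h.left_inv]
    exact (tr_an h' h).differentiableAt
  have h3 := (h2.hasFDerivAt.comp (e y) h1.hasFDerivAt).fderiv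
  have h4 : ((fun z => e (e'.symm z)) ∘ fun z => e' (e.symm z)) =ᶠ[𝓝 (e y)] id :=
    (h.nhds_at h').mono fun z hz => by
      simp only [Function.comp, id]
      rw [hz.2.2.left_inv, e.right_inv hz.1]
  rw [h4.fderiv_eq, fderiv_id] at h3
  have h5 := congrArg (fun L => L w) h3
  simp only [ContinuousLinearMap.id_apply, ContinuousLinearMap.comp_apply] at h5
  rw [show fderiv ℂ (fun z => e' (e.symm z)) (e y) w = 0 from h0, map_zero] at h5
  exact hw h5

theorem sm_pull (h : At e y) (h' : At e' y) {v : Cm d → ℝ} (hv : ContDiffAt ℝ ∞ v (e' y)) :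
    ContDiffAt ℝ ∞ (fun z => v (e' (e.symm z))) (e y) := by
  refine ContDiffAt.comp (g := v) (f := fun z => e' (e.symm z)) (e y) ?_
    (((tr_an h h').contDiffAt (n := ∞)).restrict_scalars ℝ)
  rwa [h.left_inv]

theorem levi_pull (h : At e y) (h' : At e' y) {v : Cm d → ℝ} (hv : ContDiffAt ℝ 2 v (e' y))
    (w : Cm d) : levi (fun z => v (e' (e.symm z))) (e y) w = levi v (e' y) (D e e' y w) := by
  have := levi_hol (u := v) (w := w) (tr_an h h') (by rwa [h.left_inv])
  rwa [h.left_inv] at this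

theorem gsq_pull (h : At e y) (h' : At e' y) {v : Cm d → ℝ} (hv : ContDiffAt ℝ 2 v (e' y))
    (w : Cm d) : gsq (fun z => v (e' (e.symm z))) (e y) w = gsq v (e' y) (D e e' y w) := by
  have := gsq_hol (u := v) (w := w) (tr_an h h').differentiableAt
    (by rw [h.left_inv]; exact hv.differentiableAt two_ne_zero)
  rwa [h.left_inv] at this

end mfd

variable {ι : Type}

variable (d) in
/-- a coordinate ball on which one of the potentials is strictly plurisubharmonic -/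
structure Pc (U : ι → Set Y) (u : ι → Y → ℝ) where
  i : ι
  e : Chart d Y
  c : Cm d
  r : ℝ
  δ : ℝ
  he : e ∈ atlas (Cm d) Y
  hr : 0 < r
  hδ : 0 < δ
  sub : ball c (3 * r) ⊆ e.target
  subU : ∀ z ∈ ball c (3 * r), e.symm z ∈ U i
  cont : ContinuousOn (fun z => u i (e.symm z)) (ball c (3 * r))
  psh : Psh (fun z => u i (e.symm z) - δ * nsq z) (ball c (3 * r))

variable {U : ι → Set Y} {u : ι → Y → ℝ}

namespace Pc
variable (P : Pc d U u)

/-- the ball of radius `t r` -/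
def B (t : ℝ) : Set Y := P.e.source ∩ P.e ⁻¹' ball P.c (t * P.r)

theorem isOpen_B (t : ℝ) : IsOpen (P.B t) := P.e.isOpen_inter_preimage isOpen_ball

theorem cb_sub {s t : ℝ} (h : s < t) : closedBall P.c (s * P.r) ⊆ ball P.c (t * P.r) :=
  closedBall_subset_ball (mul_lt_mul_of_pos_right h P.hr)

theorem at_of {t : ℝ} (h : y ∈ P.B t) : At P.e y := ⟨P.he, h.1⟩

theorem memU (h : y ∈ P.B 2) : y ∈ U P.i := by
  have := P.subU _ (P.cb_sub (s := 2) (by norm_num) (ball_subset_closedBall h.2))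
  rwa [P.e.left_inv h.1] at this

/-- the bump function in the chart -/
def β : ContDiffBump P.c := ⟨1 * P.r, 3 / 2 * P.r, by linarith [P.hr], by linarith [P.hr]⟩

/-- the bump function -/
def Θ (y : Y) : ℝ := P.e.source.indicator (fun y => P.β (P.e y)) y

theorem Θ_one (h : y ∈ P.B 1) : P.Θ y = 1 := by
  rw [Θ, indicator_of_mem h.1]
  exact P.β.one_of_mem_closedBall (ball_subset_closedBall h.2)

theorem abs_Θ_le (y : Y) : |P.Θ y| ≤ 1 := by
  by_cases h : y ∈ P.e.source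
  · rw [Θ, indicator_of_mem h, abs_of_nonneg P.β.nonneg]
    exact P.β.le_one
  · rw [Θ, indicator_of_notMem h, abs_zero]
    exact zero_le_one

theorem Θ_zero [T2Space Y] (h : y ∉ P.B 2) : P.Θ =ᶠ[𝓝 y] 0 := by
  have h1 : closedBall P.c (3 / 2 * P.r) ⊆ P.e.target :=
    (P.cb_sub (by norm_num)).trans P.sub
  have hC : IsCompact (P.e.symm '' closedBall P.c (3 / 2 * P.r)) :=
    (isCompact_closedBall _ _).image_of_continuousOn (P.e.continuousOn_symm.mono h1)
  have hy : y ∉ P.e.symm '' closedBall P.c (3 / 2 * P.r) := by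
    rintro ⟨z, hz, rfl⟩
    refine h ⟨P.e.map_target (h1 hz), ?_⟩
    rw [mem_preimage, P.e.right_inv (h1 hz)]
    exact P.cb_sub (by norm_num) hz
  filter_upwards [hC.isClosed.isOpen_compl.mem_nhds hy] with x hx
  by_cases hs : x ∈ P.e.source
  · rw [Θ, indicator_of_mem hs]
    exact P.β.zero_of_le_dist (not_lt.1 fun h2 => hx ⟨P.e x, le_of_lt h2, P.e.left_inv hs⟩)
  · rw [Θ, indicator_of_notMem hs]
    rfl

theorem Θ_sm [T2Space Y] [IsManifold 𝓘(ℂ, Cm d) ω Y] (h : At e y) :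
    ContDiffAt ℝ ∞ (fun z => P.Θ (e.symm z)) (e y) := by
  by_cases hy : y ∈ P.B 2
  · refine (sm_pull h (P.at_of hy) P.β.contDiffAt).congr_of_eventuallyEq ?_
    refine (h.nhds_at (P.at_of hy)).mono fun z hz => ?_
    beta_reduce
    rw [Θ, indicator_of_mem hz.2.2.2]
  · exact (contDiffAt_const (c := 0)).congr_of_eventuallyEq (ev_ch h (P.Θ_zero hy))

theorem exists_bd [T2Space Y] [IsManifold 𝓘(ℂ, Cm d) ω Y] (Q : Pc d U u) :
    ∃ M ≥ (0 : ℝ), ∀ (e : Chart d Y) y, At e y → y ∈ Q.B 2 → ∀ w,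
      gsq (fun z => P.Θ (e.symm z)) (e y) w + |P.Θ y * levi (fun z => P.Θ (e.symm z)) (e y) w| ≤
        M * (Q.δ * (4 * nsq (D e Q.e y w))) := by
  have hsm : ∀ z ∈ closedBall Q.c (2 * Q.r), ContDiffAt ℝ 2 (fun z => P.Θ (Q.e.symm z)) z :=
    fun z hz => by
      have h1 := Q.sub (Q.cb_sub (by norm_num) hz)
      have := (P.Θ_sm (At.of_target Q.he h1)).of_le two_le_inf
      rwa [Q.e.right_inv h1] at this
  have hl : ∀ z w : Cm d, levi (fun z => Q.δ * nsq z) z w = Q.δ * (4 * nsq w) := fun z w => by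
    rw [levi_const_mul (nsq_sm.contDiffAt.of_le two_le_inf), levi_nsq']
  obtain ⟨M, hM0, hM⟩ := exists_levi_bound (ρ := fun z => Q.δ * nsq z)
    (isCompact_closedBall Q.c (2 * Q.r)) (fun z _ => ⟨contDiffAt_const.mul
      (nsq_sm.contDiffAt.of_le two_le_inf), fun w hw => by
        rw [hl]
        exact mul_pos Q.hδ (mul_pos four_pos (nsq_pos hw))⟩) hsm
  refine ⟨M, hM0, fun e y h hy w => ?_⟩
  have h1 := hsm _ (ball_subset_closedBall hy.2)
  rw [gsq_congr (ev_tr h (Q.at_of hy) P.Θ), levi_congr (ev_tr h (Q.at_of hy) P.Θ),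
    gsq_pull h (Q.at_of hy) (v := fun z => P.Θ (Q.e.symm z)) h1,
    levi_pull h (Q.at_of hy) (v := fun z => P.Θ (Q.e.symm z)) h1, ← hl (Q.e y), abs_mul]
  refine le_trans (add_le_add le_rfl ?_) (hM _ (ball_subset_closedBall hy.2) _)
  exact mul_le_of_le_one_left (abs_nonneg _) (P.abs_Θ_le y)

theorem exists_v {ε : ℝ} (hε : 0 < ε) : ∃ v : Cm d → ℝ, ContDiff ℝ ∞ v ∧ ∀ y ∈ P.B 2,
    u P.i y ≤ v (P.e y) ∧ v (P.e y) ≤ u P.i y + ε ∧
      ∀ w, P.δ * (4 * nsq w) ≤ levi v (P.e y) w := by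
  obtain ⟨v, v1, v2, v3⟩ := exists_smo (u := fun z => u P.i (P.e.symm z) - P.δ * nsq z)
    isOpen_ball (isCompact_closedBall P.c (2 * P.r))
    (P.cb_sub (by norm_num)) (P.cont.sub (nsq_sm.continuous.continuousOn.const_mul P.δ)) P.psh hε
  refine ⟨fun z => v z + P.δ * nsq z, v1.add (contDiff_const.mul nsq_sm), fun y hy => ?_⟩
  have h1 := v3 _ (ball_subset_closedBall hy.2)
  simp only [P.e.left_inv hy.1] at h1
  refine ⟨by linarith [h1.1], by linarith [h1.2], fun w => ?_⟩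
  rw [levi_add (v1.contDiffAt.of_le two_le_inf)
    (contDiffAt_const.mul (nsq_sm.contDiffAt.of_le two_le_inf)),
    levi_const_mul (nsq_sm.contDiffAt.of_le two_le_inf), levi_nsq']
  linarith [v2.levi_nonneg (mem_of_superset (isOpen_ball.mem_nhds hy.2) ball_subset_closedBall)
    (v1.contDiffAt.of_le two_le_inf) w]

end Pc

theorem exists_pc {i : ι} (hU : IsOpen (U i)) (hy : y ∈ U i) (h : SPshAt d (u i) y) :
    ∃ P : Pc d U u, y ∈ P.B 1 := by
  obtain ⟨e, he, δ, hδ, N, hN, h1, h2⟩ := h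
  obtain ⟨r, hr, hb⟩ := Metric.eventually_nhds_iff_ball.1
    ((he.nhds_target.and (ev_ch he (hU.mem_nhds hy))).and hN)
  have e3 : 3 * (r / 3) = r := by ring
  refine ⟨⟨i, e, e y, r / 3, δ, he.1, by positivity, hδ, ?_, ?_, ?_, ?_⟩, he.2,
    mem_ball_self (by positivity)⟩ <;> rw [e3]
  · exact fun z hz => (hb z hz).1.1
  · exact fun z hz => (hb z hz).1.2
  · exact h1.mono fun z hz => (hb z hz).2
  · exact h2.mono fun z hz => (hb z hz).2

theorem glue [T2Space Y] [IsManifold 𝓘(ℂ, Cm d) ω Y] {κ : Type} [Fintype κ] (P : κ → Pc d U u)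
    (hF : ∀ i j, ∀ y ∈ U i, y ∈ U j → FlatAt d (fun x => u i x - u j x) y) :
    ∃ g : Y → ℝ, ∀ i y k, y ∈ (P k).B 1 → y ∈ U i → PosAt d (fun x => u i x + g x) y := by
  classical
  choose M hM0 hM using fun k l => (P k).exists_bd (P l)
  set M₀ : ℝ := ∑ k, ∑ l, M k l with hM₀
  have hM1 : ∀ k l, M k l ≤ M₀ := fun k l =>
    (Finset.single_le_sum (fun l _ => hM0 k l) (Finset.mem_univ l)).trans
      (Finset.single_le_sum (f := fun k => ∑ l, M k l)
        (fun k _ => Finset.sum_nonneg fun l _ => hM0 k l) (Finset.mem_univ k))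
  have hM2 : 0 ≤ M₀ := Finset.sum_nonneg fun k _ => Finset.sum_nonneg fun l _ => hM0 k l
  set A : ℝ := 2 * exp 1 * (Fintype.card κ * M₀) with hA
  have hA0 : 0 ≤ A := by positivity
  set g₀ : ℝ := (A + 1)⁻¹ with hg₀
  have hg : 0 < g₀ := by positivity
  have hAg : A * g₀ < 1 := by
    rw [hg₀, mul_inv_lt_iff₀ (by positivity)]
    linarith
  choose v v1 v2 using fun k => (P k).exists_v hg
  refine ⟨fun x => g₀ * log (∑ k, (P k).Θ x ^ 2 * exp ((v k ((P k).e x) - u (P k).i x) / g₀)),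
    fun i y k₀ hk₀ hi e he => ?_⟩
  have hk₂ : y ∈ (P k₀).B 2 := ⟨hk₀.1, ball_subset_ball (by linarith [(P k₀).hr]) hk₀.2⟩
  have hone : ∀ x ∈ (P k₀).B 1, 1 ≤ ∑ k, (P k).Θ x ^ 2 := fun x hx => by
    have := Finset.single_le_sum (f := fun k => (P k).Θ x ^ 2) (fun _ _ => sq_nonneg _)
      (Finset.mem_univ k₀)
    rwa [(P k₀).Θ_one hx, one_pow] at this
  set f : κ → Cm d → ℝ := fun k z =>
    v k ((P k).e (e.symm z)) + (u i (e.symm z) - u (P k).i (e.symm z)) with hf
  have hev : (fun z => u i (e.symm z) + g₀ * log (∑ k, (P k).Θ (e.symm z) ^ 2 *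
      exp ((v k ((P k).e (e.symm z)) - u (P k).i (e.symm z)) / g₀))) =ᶠ[𝓝 (e y)]
      fun z => g₀ * log (∑ k, (P k).Θ (e.symm z) ^ 2 * exp (f k z / g₀)) := by
    refine (ev_ch he (((P k₀).isOpen_B 1).mem_nhds hk₀)).mono fun z hz => ?_
    have h1 : ∑ k, (P k).Θ (e.symm z) ^ 2 * exp (f k z / g₀) = exp (u i (e.symm z) / g₀) *
        ∑ k, (P k).Θ (e.symm z) ^ 2 *
          exp ((v k ((P k).e (e.symm z)) - u (P k).i (e.symm z)) / g₀) := by
      rw [Finset.mul_sum]
      refine Finset.sum_congr rfl fun k _ => ?_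
      rw [mul_left_comm, ← exp_add]
      congr 2
      simp only [hf]
      ring
    beta_reduce
    rw [h1, log_mul (exp_pos _).ne' (glue_pos _ one_pos (hone _ hz)).ne', log_exp, mul_add,
      mul_div_cancel₀ _ hg.ne']
  have hfs : ∀ k, y ∈ (P k).B 2 → ContDiffAt ℝ ∞ (f k) (e y) := fun k hk =>
    (sm_pull he ((P k).at_of hk) (v1 k).contDiffAt).add (hF i _ y hi ((P k).memU hk) e he).1
  obtain ⟨G1, G2⟩ := glue_alt (z := e y) (θ := fun k z => (P k).Θ (e.symm z)) (f := f)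
    (fun k => y ∈ (P k).B 2) hg (fun k => (P k).Θ_sm he)
    (fun k hk => ev_ch he ((P k).Θ_zero hk)) hfs
    (fun k l hk hl => by
      simp only [hf, he.left_inv]
      linarith [(v2 k y hk).2.1, (v2 l y hl).1])
    (by simpa only [he.left_inv] using hone y hk₀)
  have G3 := G1.congr_of_eventuallyEq hev
  refine ⟨G3, posDef_of_levi (G3.of_le two_le_inf) fun w hw => ?_⟩
  rw [levi_congr hev]
  obtain ⟨l, hl, hmin⟩ := Finset.exists_min_image (Finset.univ.filter fun k => y ∈ (P k).B 2)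
    (fun k => (P k).δ * (4 * nsq (D e (P k).e y w))) ⟨k₀, by simpa using hk₂⟩
  have hl' : y ∈ (P l).B 2 := by simpa using hl
  set m := (P l).δ * (4 * nsq (D e (P l).e y w)) with hm
  have hm0 : 0 < m := mul_pos (P l).hδ (mul_pos four_pos (nsq_pos (D_ne he ((P l).at_of hl') hw)))
  have G4 := G2 w (-m) (M₀ * m) (fun k hk => by
      have hfl := hF i _ y hi ((P k).memU hk) e he
      simp only [hf]
      rw [levi_add ((sm_pull he ((P k).at_of hk) (v1 k).contDiffAt).of_le two_le_inf)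
        (hfl.1.of_le two_le_inf), levi_of_flat (hfl.1.of_le two_le_inf) hfl.2,
        levi_pull he ((P k).at_of hk) ((v1 k).contDiffAt.of_le two_le_inf)]
      linarith [hmin k (by simpa using hk), (v2 k y hk).2.2 (D e (P k).e y w)])
    fun k => by
      simp only [he.left_inv]
      exact (hM k l e y he hl' w).trans (mul_le_mul_of_nonneg_right (hM1 k l) hm0.le)
  have : 2 * exp 1 * (Fintype.card κ * (M₀ * m)) * g₀ = A * g₀ * m := by rw [hA]; ring
  rw [this] at G4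
  nlinarith

end RbAux

open RbAux in
theorem rb : RB := by
  intro d Y _ _ _ _ ι U u K hK hU hKU hS hF
  have h1 : ∀ y ∈ K, ∃ P : Pc d U u, y ∈ P.B 1 := fun y hy => by
    obtain ⟨i, hi⟩ := mem_iUnion.1 (hKU hy)
    exact exists_pc (hU i) hi (hS i y hi)
  obtain ⟨T, hT⟩ := hK.elim_finite_subcover (fun P : Pc d U u => P.B 1) (fun P => P.isOpen_B 1)
    fun y hy => mem_iUnion.2 (h1 y hy)
  obtain ⟨g, hg⟩ := glue (fun k : T => k.1) hF
  refine ⟨g, ⋃ k : T, k.1.B 1, isOpen_iUnion fun k => k.1.isOpen_B 1, fun y hy => ?_,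
    fun i y hy hi => ?_⟩
  · obtain ⟨P, hP, h⟩ := mem_iUnion₂.1 (hT hy)
    exact mem_iUnion.2 ⟨⟨P, hP⟩, h⟩
  · obtain ⟨k, hk⟩ := mem_iUnion.1 hy
    exact hg i y k hk hi

end Vale.Agent.P277Z.Pos
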