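import Vale.Agent.P277.Defs
import Vale.Agent.P277Z.Van.Defs
import Vale.Agent.P284Z.F0.Levi

/-!
# P277Z, block P: positivity on manifolds, statements

Removable singularities, Richberg, the relative Kodaira embedding theorem, Kähler metrics.
-/

open scoped Manifold ContDiff ComplexOrder Topology ENNReal
open MeasureTheory Filter Set Metric

noncomputable section

namespace Vale.Agent.P277Z.Pos

open Vale.Agent.P272.K Vale.Agent.P301.H599 Vale.Agent.P285Z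
open Vale.Agent.P301.H862 (powL)
open Vale.Agent.P285.H281.FD (Bd)
open Vale.Agent.P277 (CSp RelAmple)
open Vale.Agent.P284Z (Psh levi)
open Vale.Agent.P277Z.Van (SmOn PSDOn PDOn SecOn IsVol HormOn HormStmt VolStmt)

/-- `Σ |z l|²` -/
def nsq {ι : Type} [Fintype ι] (z : ι → ℂ) : ℝ := ∑ l, ‖z l‖ ^ 2

/-- `f` is touched from below at `v`, along `S`, by a function of class `C²` whose Levi form at `v`
is at least `H`. -/
def Tch {ι : Type} [Fintype ι] (f : (ι → ℂ) → ℝ) (S : Set (ι → ℂ)) (v : ι → ℂ)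
    (H : (ι → ℂ) → ℝ) : Prop :=
  ∃ q : (ι → ℂ) → ℝ, ContDiffAt ℝ 2 q v ∧ q v = f v ∧ (∀ᶠ u in 𝓝[S] v, q u ≤ f u) ∧
    ∀ ξ, H ξ ≤ levi q v ξ

section mfd
variable (d : ℕ) {Y : Type} [TopologicalSpace Y] [ChartedSpace (Cm d) Y]

/-- holomorphic at `y` -/
def HolM (f : Y → ℂ) (y : Y) : Prop :=
  ∀ e : Chart d Y, At e y → AnalyticAt ℂ (fun z => f (e.symm z)) (e y)

/-- smooth, with a positive definite complex Hessian at `y` -/
def PosAt (u : Y → ℝ) (y : Y) : Prop :=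
  ∀ e : Chart d Y, At e y → ContDiffAt ℝ ∞ (fun z => u (e.symm z)) (e y) ∧
    (cHess (fun z => u (e.symm z)) (e y)).PosDef

/-- smooth, with a semipositive complex Hessian at `y` -/
def PsdAt (u : Y → ℝ) (y : Y) : Prop :=
  ∀ e : Chart d Y, At e y → ContDiffAt ℝ ∞ (fun z => u (e.symm z)) (e y) ∧
    (cHess (fun z => u (e.symm z)) (e y)).PosSemidef

/-- smooth, with complex Hessian zero at `y` -/
def FlatAt (u : Y → ℝ) (y : Y) : Prop :=
  ∀ e : Chart d Y, At e y → ContDiffAt ℝ ∞ (fun z => u (e.symm z)) (e y) ∧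
    cHess (fun z => u (e.symm z)) (e y) = 0

/-- continuous and strictly plurisubharmonic near `y` -/
def SPshAt (u : Y → ℝ) (y : Y) : Prop :=
  ∃ e : Chart d Y, At e y ∧ ∃ δ > (0 : ℝ), ∃ N ∈ 𝓝 (e y),
    ContinuousOn (fun z => u (e.symm z)) N ∧ Psh (fun z => u (e.symm z) - δ * nsq z) N

/-- The sections with the coefficients `s l i` over `U i` have no common zero on `V`, separate the
points of `V`, and define an immersion at the points of `V`. -/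
structure Emb {ι : Type} (U : ι → Set Y) (V : Set Y) {N : ℕ} (s : Fin (N + 1) → ι → Y → ℂ) :
    Prop where
  nz : ∀ y ∈ V, ∀ i, y ∈ U i → ∃ l, s l i y ≠ 0
  sep : ∀ y ∈ V, ∀ y' ∈ V, y' ≠ y → ∀ i j, y ∈ U i → y' ∈ U j →
    ∃ l m, s l i y * s m j y' ≠ s m i y * s l j y'
  imm : ∀ y ∈ V, ∀ i l, y ∈ U i → s l i y ≠ 0 → ∀ e : Chart d Y, At e y → ∀ v : Cm d,
    (∀ m, fderiv ℂ (fun z => s m i (e.symm z) / s l i (e.symm z)) (e y) v = 0) → v = 0

variable {d} in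
/-- `ψ` is a smooth metric with positive curvature on `L` over `Ω` -/
structure PosOn {ι : Type} (L : LineBundle d Y ι) (Ω : Set Y) (ψ : ι → Y → ℝ) : Prop where
  pos : ∀ i, ∀ y ∈ Ω, y ∈ L.U i → PosAt d (ψ i) y
  change : ∀ i j, ∀ y ∈ Ω, y ∈ L.U i → y ∈ L.U j → ψ i y = ψ j y + Real.log (‖L.g i j y‖ ^ 2)

variable {d} in
/-- high powers of `L` have sections over `Ω` with given first jets at finitely many points -/
def Jets {ι : Type} (L : LineBundle d Y ι) (Ω : Set Y) : Prop :=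
  ∀ (m : ℕ) (y : Fin m → Y) (i : Fin m → ι) (e : Fin m → Chart d Y), Function.Injective y →
    (∀ a, y a ∈ Ω) → (∀ a, y a ∈ L.U (i a)) → (∀ a, At (e a) (y a)) → ∃ k₀ : ℕ, ∀ k, k₀ ≤ k →
      ∀ (c : Fin m → ℂ) (l : Fin m → Cm d →L[ℂ] ℂ), ∃ s, SecOn (powL L k) Ω s ∧ ∀ a,
        s (i a) (y a) = c a ∧ fderiv ℂ (fun z => s (i a) ((e a).symm z)) (e a (y a)) = l a

/-- `v` identifies the manifold `Y` with the complex space `W` -/
structure IsMod (W : CSp) (v : Y → W.pt) : Prop where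
  cont : Continuous v
  bij : Function.Bijective v
  isOpenMap : IsOpenMap v
  hol : ∀ y g, W.Hol g (v y) ↔ HolM d (fun y => g (v y)) y

end mfd

/-- **REM**: from touching functions off a hypersurface to strict plurisubharmonicity -/
def REM : Prop :=
  ∀ (d : ℕ) (U : Set (Cm d)) (u : Cm d → ℝ) (F : Cm d → ℂ) (δ : ℝ), IsOpen U → ContinuousOn u U →
    AnalyticOnNhd ℂ F U → U ⊆ closure {z ∈ U | F z ≠ 0} →
    (∀ z ∈ U, F z ≠ 0 → Tch u univ z fun ξ => δ * nsq ξ) →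
    Psh (fun z => u z - δ / 4 * nsq z) U

/-- **RB**: Richberg -/
def RB : Prop :=
  ∀ (d : ℕ) (Y : Type) [TopologicalSpace Y] [T2Space Y] [ChartedSpace (Cm d) Y]
    [IsManifold 𝓘(ℂ, Cm d) ω Y] (ι : Type) (U : ι → Set Y) (u : ι → Y → ℝ) (K : Set Y),
    IsCompact K → (∀ i, IsOpen (U i)) → K ⊆ ⋃ i, U i → (∀ i, ∀ y ∈ U i, SPshAt d (u i) y) →
    (∀ i j, ∀ y ∈ U i, y ∈ U j → FlatAt d (fun x => u i x - u j x) y) →
    ∃ (g : Y → ℝ) (O : Set Y), IsOpen O ∧ K ⊆ O ∧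
      ∀ i, ∀ y ∈ O, y ∈ U i → PosAt d (fun x => u i x + g x) y

/-- **PK**: peak sections from the `L²` estimate -/
def PK : Prop :=
  ∀ (d : ℕ) (Y : Type) [TopologicalSpace Y] [T2Space Y] [ChartedSpace (Cm d) Y]
    [IsManifold 𝓘(ℂ, Cm d) ω Y] [MeasurableSpace Y] [BorelSpace Y] (h : Fm d Y) (μ : Measure Y)
    (Ω : Set Y) (ι : Type) (L : LineBundle d Y ι) (ρ : ι → Y → ℝ) (f : Y → ℝ) (C : ℝ),
    IsHermitian h → IsVol h μ → IsOpen Ω → IsMetric L ρ → SmOn (d := d) Ω f →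
    (PDOn Ω fun e z => curvature L ρ e z + ddc f e z) →
    (PSDOn Ω fun e z => (C : ℂ) • (curvature L ρ e z + ddc f e z) - kc h e z) →
    (∀ k, HormOn Ω μ (powL L k) (powM ρ k)
      fun e z => curvature (powL L k) (powM ρ k) e z - kc h e z) → Jets L Ω

/-- **SOFT**: finitely many sections of one power -/
def SOFT : Prop :=
  ∀ (d : ℕ) (Y : Type) [TopologicalSpace Y] [T2Space Y] [ChartedSpace (Cm d) Y]
    [IsManifold 𝓘(ℂ, Cm d) ω Y] (ι : Type) (L : LineBundle d Y ι) (Ω : Set Y), IsOpen Ω →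
    Jets L Ω → ∀ K : Set Y, IsCompact K → K ⊆ Ω →
    ∃ (k N : ℕ) (s : Fin (N + 1) → ι → Y → ℂ), 1 ≤ k ∧
      (∀ l, SecOn (powL L k) Ω (s l)) ∧ Emb d L.U K s

/-- **JO**: jets on a sublevel set -/
def JO : Prop :=
  ∀ (d : ℕ) (Y : Type) [TopologicalSpace Y] [T2Space Y] [SigmaCompactSpace Y]
    [ChartedSpace (Cm d) Y] [IsManifold 𝓘(ℂ, Cm d) ω Y] (ι : Type) (L : LineBundle d Y ι)
    (Ω : Set Y) (ψ : ι → Y → ℝ) (t : Y → ℝ) (c : ℝ), IsOpen Ω → PosOn L Ω ψ →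
    (∀ y ∈ Ω, PsdAt d t y) → IsCompact {y ∈ Ω | t y ≤ c} → Jets L {y ∈ Ω | t y < c}

/-- **KOD**: a line bundle which is positive locally over the base is relatively ample -/
def KOD : Prop :=
  ∀ (d : ℕ) (Y : Type) [TopologicalSpace Y] [T2Space Y] [ChartedSpace (Cm d) Y]
    [IsManifold 𝓘(ℂ, Cm d) ω Y] (W X : CSp) (v : Y → W.pt) (p : W.pt → X.pt) (P : Bd W.pt)
    (L : LineBundle d Y P.ι), IsMod d W v → Continuous p →
    (∀ x g, X.Hol g (p x) → W.Hol (g ∘ p) x) → (∀ i, L.U i = v ⁻¹' P.U i) →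
    (∀ i j y, L.g i j y = P.g i j (v y)) →
    (∀ x, ∃ (O : Set X.pt) (ψ : P.ι → Y → ℝ), IsOpen O ∧ x ∈ O ∧
      PosOn L ((fun y => p (v y)) ⁻¹' O) ψ) → RelAmple W X p P

/-- **KAH**: Kähler metrics from local potentials -/
def KAH : Prop :=
  ∀ (d : ℕ) (Y : Type) [TopologicalSpace Y] [ChartedSpace (Cm d) Y] [IsManifold 𝓘(ℂ, Cm d) ω Y]
    (ι : Type) (U : ι → Set Y) (u : ι → Y → ℝ), (∀ i, IsOpen (U i)) → (∀ y, ∃ i, y ∈ U i) →
    (∀ i, ∀ y ∈ U i, PosAt d (u i) y) →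
    (∀ i j, ∀ y ∈ U i, y ∈ U j → FlatAt d (fun x => u i x - u j x) y) →
    ∃ χ : Fm d Y, IsKahler χ ∧ ∀ i (e : Chart d Y) y, At e y → y ∈ U i →
      χ e (e y) = cHess (fun z => u i (e.symm z)) (e y)

end Vale.Agent.P277Z.Pos
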