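import Vale.Agent.P277Z.Pos.MSpec
import Vale.Agent.P284Y.P.PshB

/-!
# P277Z, block P: a line bundle which is positive locally over the base is relatively ample
-/

open scoped Manifold ContDiff ComplexOrder Topology
open Filter Set Metric

noncomputable section

namespace Vale.Agent.P277Z.Pos

open Vale.Agent.P272.K Vale.Agent.P301.H599 Vale.Agent.P285Z
open Vale.Agent.P301.H862 (powL)
open Vale.Agent.P285.H281.FD (Bd)
open Vale.Agent.P277 (CSp RelAmple IsModel)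
open Vale.Agent.P284Z (levi cHess_psd_iff)
open Vale.Agent.P277Z.Van (SecOn)

namespace Kod

/-- an analytic immersion has an analytic left inverse -/
theorem left_inv {d N : ℕ} {R : Cm d → Cm N} {a : Cm d} (hR : AnalyticAt ℂ R a)
    (hi : ∀ v, fderiv ℂ R a v = 0 → v = 0) :
    ∃ G : Cm N → Cm d, AnalyticAt ℂ G (R a) ∧ ∀ᶠ z in 𝓝 a, G (R z) = z := by
  obtain ⟨A, hA⟩ := (fderiv ℂ R a : Cm d →ₗ[ℂ] Cm N).exists_leftInverse_of_injective
    (LinearMap.ker_eq_bot'.2 hi)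
  let B : Cm N →L[ℂ] Cm d := LinearMap.toContinuousLinearMap A
  have h1 : ContDiffAt ℂ ω (B ∘ R) a := ((B.analyticAt _).comp hR).contDiffAt
  have h2 : HasFDerivAt (B ∘ R) (ContinuousLinearEquiv.refl ℂ (Cm d) : Cm d →L[ℂ] Cm d) a := by
    exact (B.hasFDerivAt.comp a hR.differentiableAt.hasFDerivAt).congr_fderiv
      (ContinuousLinearMap.ext fun v => LinearMap.congr_fun hA v)
  refine ⟨h1.localInverse h2 (by simp) ∘ B, ?_,
    (h1.hasStrictFDerivAt' h2 (by simp)).eventually_left_inverse⟩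
  exact AnalyticAt.comp (h1.to_localInverse h2 (by simp)).analyticAt
    (B.analyticAt _)

theorem psd_nsq {d N : ℕ} {F : Cm d → Cm N} {a : Cm d} (hF : ∀ l, AnalyticAt ℂ (fun z => F z l) a) :
    ContDiffAt ℝ ∞ (fun z => nsq (F z)) a ∧ (cHess (fun z => nsq (F z)) a).PosSemidef := by
  have h1 : ∀ (n : WithTop ℕ∞) l, ContDiffAt ℝ n (fun z => ‖F z l‖ ^ 2) a := fun n l =>
    ((hF l).restrictScalars (𝕜 := ℝ)).contDiffAt.norm_sq ℝ
  refine ⟨ContDiffAt.sum fun l _ => h1 _ l,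
    (cHess_psd_iff (ContDiffAt.sum fun l _ => h1 _ l)).2 fun w => ?_⟩
  rw [P284Y.Lib.levi_sum _ fun l _ => h1 _ l]
  refine Finset.sum_nonneg fun l _ => ?_
  rw [P284Y.Ps.levi_nsq (hF l)]
  positivity

theorem norm_lt {N : ℕ} {z : Cm N} {r : ℝ} (hr : 0 < r) (h : nsq z < r ^ 2) : ‖z‖ < r :=
  (pi_norm_lt_iff hr).2 fun l => lt_of_pow_lt_pow_left₀ 2 hr.le
    ((Finset.single_le_sum (f := fun l => ‖z l‖ ^ 2) (fun _ _ => by positivity)
      (Finset.mem_univ l)).trans_lt h)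

theorem continuous_nsq {N : ℕ} : Continuous (nsq : Cm N → ℝ) := by
  unfold nsq
  fun_prop

/-- small sublevel sets of the distance function in a local model are compact -/
theorem small {X : CSp} {V O : Set X.pt} {N k : ℕ} {Ω : Set (Cm N)} {h : Fin k → Cm N → ℂ}
    {φ : X.pt → Cm N} (hm : IsModel X.Hol V Ω h φ) {x : X.pt} (hx : x ∈ V) (hO : O ∈ 𝓝 x) :
    ContinuousOn (fun x' => nsq (φ x' - φ x)) V ∧
      ∃ c > (0 : ℝ), ∀ c' ≤ c, IsClosed {x' ∈ O ∩ V | nsq (φ x' - φ x) ≤ c'} := by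
  have hc : ContinuousOn (fun x' => nsq (φ x' - φ x)) V :=
    continuous_nsq.comp_continuousOn
      ((continuousOn_iff_continuous_domRestrict.2 hm.emb.continuous).sub continuousOn_const)
  obtain ⟨K, k1, k2, k3⟩ := local_compact_nhds (inter_mem hO (hm.isOpen.mem_nhds hx))
  have h1 : (Subtype.val ⁻¹' K : Set V) ∈ 𝓝 ⟨x, hx⟩ :=
    continuous_subtype_val.continuousAt.preimage_mem_nhds k1
  rw [hm.emb.isInducing.nhds_eq_comap, mem_comap] at h1
  obtain ⟨T, t1, t2⟩ := h1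
  obtain ⟨r, r0, hr⟩ := Metric.mem_nhds_iff.1 t1
  refine ⟨hc, r ^ 2 / 2, by positivity, fun c' hc' => ?_⟩
  have e : {x' ∈ O ∩ V | nsq (φ x' - φ x) ≤ c'} = K ∩ (fun x' => nsq (φ x' - φ x)) ⁻¹' Iic c' := by
    refine Subset.antisymm (fun x' h' => ⟨t2 (a := ⟨x', h'.1.2⟩) (hr ?_), h'.2⟩)
      fun x' h' => ⟨k2 h'.1, h'.2⟩
    exact mem_ball_iff_norm.2 (norm_lt r0 ((h'.2.trans hc').trans_lt (half_lt_self (by positivity))))
  rw [e]
  exact (hc.mono fun _ h' => (k2 h').2).preimage_isClosed_of_isClosed k3.isClosed isClosed_Iic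

end Kod

open Kod in
theorem kod (hJ : JO) (hS : SOFT) : KOD := by
  intro d Y _ _ _ _ W X v p P L hv hp hh hU hg hpos x
  obtain ⟨O, ψ, o1, o2, hψ⟩ := hpos x
  obtain ⟨N₀, k₀, V, Ω₀, h₀, φ, hx, hm⟩ := X.model x
  obtain ⟨hc, c, c0, hcl⟩ := small hm hx (o1.mem_nhds o2)
  let H : Y ≃ₜ W.pt := (Equiv.ofBijective v hv.bij).toHomeomorphOfContinuousOpen hv.cont hv.isOpenMap
  have hH : ∀ y, H.symm (v y) = y := H.symm_apply_apply
  have : CompactSpace Y := H.symm.compactSpace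
  have hq : Continuous fun y => p (v y) := hp.comp hv.cont
  have hop : ∀ c', IsOpen {x' ∈ O ∩ V | nsq (φ x' - φ x) < c'} := fun c' =>
    (hc.mono inter_subset_right).isOpen_inter_preimage (o1.inter hm.isOpen) isOpen_Iio
  have hj := hJ d Y P.ι L ((fun y => p (v y)) ⁻¹' (O ∩ V)) ψ (fun y => nsq (φ (p (v y)) - φ x)) c
    ((o1.inter hm.isOpen).preimage hq)
    ⟨fun i y hy => hψ.pos i y hy.1, fun i j y hy => hψ.change i j y hy.1⟩
    (fun y hy e he => psd_nsq fun l => by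
      have h1 : X.Hol (fun x' => φ x' l) (p (v y)) :=
        (hm.hol _ hy.2 _).2 ⟨fun z => z l, (ContinuousLinearMap.proj l : Cm N₀ →L[ℂ] ℂ).analyticAt _,
          .rfl⟩
      exact ((hv.hol y _).1 (hh _ _ h1) e he).sub analyticAt_const)
    ((hcl c le_rfl).preimage hq).isCompact
  obtain ⟨k, N, s, k1, hs, hE⟩ := hS d Y P.ι L _ ((hop c).preimage hq) hj
    ((fun y => p (v y)) ⁻¹' {x' ∈ O ∩ V | nsq (φ x' - φ x) ≤ c / 2})
    ((hcl _ (half_le_self c0.le)).preimage hq).isCompact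
    fun y hy => ⟨hy.1, hy.2.trans_lt (half_lt_self c0)⟩
  have m1 : ∀ {y}, p (v y) ∈ {x' ∈ O ∩ V | nsq (φ x' - φ x) < c / 2} →
      y ∈ (fun y => p (v y)) ⁻¹' {x' ∈ O ∩ V | nsq (φ x' - φ x) ≤ c / 2} :=
    fun h => ⟨h.1, h.2.le⟩
  have m2 : ∀ {y}, p (v y) ∈ {x' ∈ O ∩ V | nsq (φ x' - φ x) < c / 2} →
      y ∈ (fun y => p (v y)) ⁻¹' {x' ∈ O ∩ V | nsq (φ x' - φ x) < c} :=
    fun h => ⟨h.1, h.2.trans (half_lt_self c0)⟩
  have m3 : ∀ {y i}, v y ∈ P.U i → y ∈ L.U i := fun h => by rwa [hU]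
  refine ⟨_, k, N, fun l i w => s l i (H.symm w), hop (c / 2),
    ⟨⟨o2, hx⟩, by simpa [nsq] using c0⟩, k1, fun l => ⟨fun i w hw hi => ?_, fun i j w hw hi hj => ?_⟩,
    fun w i hw hi => ?_, fun w w' i j hw e hne hi hj => ?_, fun w i l hw hi h0 f hf => ?_⟩
  all_goals obtain ⟨y, rfl⟩ := hv.bij.2 w
  · refine (hv.hol y _).2 fun e he => ?_
    simp only [hH]
    exact (hs l).holo i e y he (m3 hi) (m2 hw)
  · simp only [hH]
    rw [(hs l).change i j y (m3 hi) (m3 hj) (m2 hw)]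
    exact congrArg (fun a => a ^ k * s l j y) (hg i j y)
  · simp only [hH]
    exact hE.nz y (m1 hw) i (m3 hi)
  · obtain ⟨y', rfl⟩ := hv.bij.2 w'
    simp only [hH]
    exact hE.sep y (m1 hw) y' (m1 (e ▸ hw)) (fun e' => hne (congrArg v e')) i j (m3 hi) (m3 hj)
  · simp only [hH] at h0 ⊢
    have he : At (chartAt (Cm d) y) y := ⟨chart_mem_atlas _ y, mem_chart_source _ y⟩
    set e := chartAt (Cm d) y
    have ha : ∀ m, AnalyticAt ℂ (fun z => s m i (e.symm z) / s l i (e.symm z)) (e y) := fun m =>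
      ((hs m).holo i e y he (m3 hi) (m2 hw)).div ((hs l).holo i e y he (m3 hi) (m2 hw))
        (by rwa [e.left_inv he.2])
    obtain ⟨G, g1, g2⟩ := left_inv (R := fun z m => s m i (e.symm z) / s l i (e.symm z))
      (analyticAt_pi_iff.2 ha) fun u hu => hE.imm y (m1 hw) i l (m3 hi) h0 e he u fun m => by
        rw [fderiv_pi fun m => (ha m).differentiableAt] at hu
        exact congrFun hu m
    have g3 := g2.self_of_nhds
    rw [e.left_inv he.2] at g1 g3
    refine ⟨0, Fin.elim0, fun q => f (v (e.symm (G q.2))), fun a => a.elim0, ?_, ?_⟩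
    · exact AnalyticAt.comp_of_eq (g := fun z => f (v (e.symm z))) (f := fun q : Cm 0 × Cm (N + 1) => G q.2)
        ((hv.hol y f).1 hf e he) (g1.comp_of_eq analyticAt_snd rfl) g3
    · have h1 : Tendsto H.symm (𝓝 (v y)) (𝓝 y) := by
        have := H.symm.continuous.tendsto (v y)
        rwa [hH] at this
      filter_upwards [h1.eventually ((e.continuousAt he.2).tendsto.eventually g2),
        h1.eventually (e.open_source.mem_nhds he.2)] with w h2 h3
      rw [e.left_inv h3] at h2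
      rw [h2, e.left_inv h3]
      exact congrArg f (H.apply_symm_apply w).symm

end Vale.Agent.P277Z.Pos
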