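import Vale.Agent.P277Z.Pos.Defs
import Vale.Agent.P277Z.Pos.Tch
import Vale.Agent.P277Z.Hir.BArr

/-!
# P277Z, block P: uniform bounds for the arrows (rows CMP and ALL)
-/

set_option linter.dupNamespace false
set_option linter.unusedSectionVars false

open Filter Topology Set Function

noncomputable section

namespace Vale.Agent.P277Z.Pos

open Vale.Agent.P277Z.Hir.Gl

variable {ι X : Type} [Fintype ι] [DecidableEq ι] {C C' : Ch ι X} {u u' : ι → ℂ}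
  {Φ Ψ : (ι → ℂ) → ι → ℂ}

theorem arr_left (h : Arr C u C' u' Φ Ψ) (ξ : ι → ℂ) : fderiv ℂ Ψ u' (fderiv ℂ Φ u ξ) = ξ := by
  have h1 : HasFDerivAt Ψ (fderiv ℂ Ψ u') (Φ u) := h.val ▸ h.an'.differentiableAt.hasFDerivAt
  have h2 := h1.comp u h.an.differentiableAt.hasFDerivAt
  have h3 : HasFDerivAt (Ψ ∘ Φ) (ContinuousLinearMap.id ℂ (ι → ℂ)) u :=
    (hasFDerivAt_id u).congr_of_eventuallyEq h.left
  exact congrArg (fun L : (ι → ℂ) →L[ℂ] ι → ℂ => L ξ) (h2.unique h3)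

/-- the differential of an arrow is bounded below, locally uniformly -/
theorem arr_bound (h : Arr C u C' u' Φ Ψ) :
    ∃ M : ℝ, 1 ≤ M ∧ ∀ᶠ z in 𝓝 u, ∀ ξ, nsq ξ ≤ M * nsq (fderiv ℂ Φ z ξ) := by
  set K : ℝ := ‖fderiv ℂ Ψ u'‖ + 1 with hK
  have h1 : ∀ᶠ v in 𝓝 u', ‖fderiv ℂ Ψ v‖ < K :=
    h.an'.fderiv.continuousAt.norm.eventually (gt_mem_nhds (lt_add_one _))
  refine ⟨max 1 (Fintype.card ι * K ^ 2), le_max_left _ _, ?_⟩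
  filter_upwards [h.ev, h.tendsto.eventually h1] with z hz hb ξ
  have h2 : ‖ξ‖ ≤ K * ‖fderiv ℂ Φ z ξ‖ := by
    conv_lhs => rw [← arr_left hz ξ]
    exact (ContinuousLinearMap.le_opNorm _ _).trans
      (mul_le_mul_of_nonneg_right hb.le (norm_nonneg _))
  calc nsq ξ ≤ Fintype.card ι * ‖ξ‖ ^ 2 := nsq_le ξ
    _ ≤ Fintype.card ι * (K * ‖fderiv ℂ Φ z ξ‖) ^ 2 := by gcongr
    _ = Fintype.card ι * K ^ 2 * ‖fderiv ℂ Φ z ξ‖ ^ 2 := by ring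
    _ ≤ _ := mul_le_mul (le_max_right _ _) (norm_sq_le_nsq _) (sq_nonneg _)
      (zero_le_one.trans (le_max_left _ _))

theorem arr_s (h : Arr C u C' u' Φ Ψ) {j : ℕ} (hj : j ≠ 0) :
    ∃ M : ℝ, ∀ᶠ z in 𝓝 u, ‖C.s j z‖ ≤ M * ‖C'.s j (Φ z)‖ := by
  obtain ⟨c, -, hc⟩ := ass_cmp (h.div j hj) 1
  exact ⟨c, hc.mono fun z hz => by simpa only [Real.rpow_one] using hz.2⟩

/-- transport of strict plurisubharmonicity along an arrow -/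
theorem arr_tch (h : Arr C u C' u' Φ Ψ) (hu : u ∈ C.B) {M δ : ℝ} (hM : 0 < M) (hδ : 0 ≤ δ)
    (hb : ∀ ξ, nsq ξ ≤ M * nsq (fderiv ℂ Φ u ξ)) {F : X → ℝ}
    (ht : Tch (fun z => F (C'.π z)) C'.B u' fun ξ => δ * nsq ξ) :
    Tch (fun z => F (C.π z)) C.B u fun ξ => δ / M * nsq ξ := by
  have h1 : ∀ᶠ z in 𝓝[C.B] u, Φ z ∈ C'.B := h.tendstoW.eventually self_mem_nhdsWithin
  have h2 := Tch.comp (S' := C.B) h.an (h.val.symm ▸ ht) h1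
  refine (h2.of_le (by rw [h.val, h.pi_eq hu]) ?_).mono fun ξ => ?_
  · filter_upwards [nhdsWithin_le_nhds h.pi, self_mem_nhdsWithin] with z h3 h4
    rw [h3 h4]
  · rw [div_mul_eq_mul_div, div_le_iff₀ hM, mul_assoc, mul_comm _ M]
    exact mul_le_mul_of_nonneg_left (hb ξ) hδ

variable [TopologicalSpace X] {β : Base X}

namespace CmpH

/-- the property of a pair of points -/
def P (β : Base X) (C C' : Ch ι X) (j : ℕ) (M : ℝ) (p : (ι → ℂ) × (ι → ℂ)) : Prop :=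
  p.1 ∈ C.B → p.2 ∈ C'.B → C.π p.1 ∉ β.Z → C'.π p.2 = C.π p.1 → ∃ Φ Ψ, Arr C p.1 C' p.2 Φ Ψ ∧
    (∀ ξ, nsq ξ ≤ M * nsq (fderiv ℂ Φ p.1 ξ)) ∧ ‖C.s j p.1‖ ≤ M * ‖C'.s j p.2‖

theorem P.mono {j : ℕ} {M M' : ℝ} {p : (ι → ℂ) × (ι → ℂ)} (h : P β C C' j M p) (hM : M ≤ M') :
    P β C C' j M' p := fun h1 h2 h3 h4 => by
  obtain ⟨Φ, Ψ, a, b, c⟩ := h h1 h2 h3 h4
  exact ⟨Φ, Ψ, a, fun ξ => (b ξ).trans (mul_le_mul_of_nonneg_right hM (nsq_nonneg _)),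
    c.trans (mul_le_mul_of_nonneg_right hM (norm_nonneg _))⟩

theorem loc (h : Prp β C u C' u') {j : ℕ} (hj : j ≠ 0) :
    ∃ M : ℝ, ∀ᶠ p in 𝓝 (u, u'), P β C C' j M p := by
  obtain ⟨n, Φ, Ψ, ha, he⟩ := h
  choose M₁ _ h₁ using fun k => arr_bound (ha k)
  choose M₂ h₂ using fun k => arr_s (ha k) hj
  obtain ⟨M, hM⟩ := (Set.finite_range fun k => max (M₁ k) (M₂ k)).bddAbove
  have h3 : ∀ᶠ z in 𝓝 u, ∀ k, Arr C z C' (Φ k z) (Φ k) (Ψ k) ∧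
      (∀ ξ, nsq ξ ≤ M₁ k * nsq (fderiv ℂ (Φ k) z ξ)) ∧ ‖C.s j z‖ ≤ M₂ k * ‖C'.s j (Φ k z)‖ :=
    eventually_all.2 fun k => (ha k).ev.and ((h₁ k).and (h₂ k))
  refine ⟨M, ?_⟩
  filter_upwards [he, (continuous_fst.tendsto (u, u')).eventually h3] with p h4 h5 a b c d
  obtain ⟨k, hk⟩ := h4 a b c d
  obtain ⟨h6, h7, h8⟩ := h5 k
  have h9 := hM (mem_range_self k)
  rw [hk] at h6 h8
  exact ⟨Φ k, Ψ k, h6,
    fun ξ => (h7 ξ).trans (mul_le_mul_of_nonneg_right ((le_max_left _ _).trans h9) (nsq_nonneg _)),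
    h8.trans (mul_le_mul_of_nonneg_right ((le_max_right _ _).trans h9) (norm_nonneg _))⟩

theorem cpt {L L' : Set (ι → ℂ)} (hL : IsCompact L) (hL' : IsCompact L')
    (h : ∀ u ∈ L, ∀ u' ∈ L', Prp β C u C' u') {j : ℕ} (hj : j ≠ 0) :
    ∃ M : ℝ, ∀ p ∈ L ×ˢ L', P β C C' j M p := by
  refine (hL.prod hL').induction_on (p := fun S => ∃ M : ℝ, ∀ p ∈ S, P β C C' j M p)
    ⟨0, fun _ h => h.elim⟩ (fun S T hST ⟨M, hM⟩ => ⟨M, fun p hp => hM p (hST hp)⟩)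
    (fun S T ⟨M, hM⟩ ⟨M', hM'⟩ => ⟨max M M', fun p hp => hp.elim
      (fun hp => (hM p hp).mono (le_max_left _ _)) fun hp => (hM' p hp).mono (le_max_right _ _)⟩)
    fun p hp => ?_
  obtain ⟨M, hM⟩ := loc (h p.1 hp.1 p.2 hp.2) hj
  exact ⟨_, nhdsWithin_le_nhds hM, M, fun _ h => h⟩

end CmpH

/-- **CMP** -/
theorem cmp : CMP := by
  intro ι X _ _ _ β A L L' j hA hj hL hL'
  choose M hM using fun ab : A.κ × A.κ => CmpH.cpt (hL ab.1).1 (hL' ab.2).1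
    (fun u hu u' hu' => hA.prp ab.1 ab.2 u ((hL _).2 hu) u' ((hL' _).2 hu')) hj
  obtain ⟨M', hM'⟩ := (Set.finite_range M).bddAbove
  refine ⟨max 1 M', le_max_left _ _, fun a b v hv v' hv' h1 h2 => ?_⟩
  exact (hM (a, b) (v, v') ⟨hv, hv'⟩).mono ((hM' (mem_range_self _)).trans (le_max_right _ _))
    ((hL a).2 hv) ((hL' b).2 hv') h1 h2

/-- **ALL** -/
theorem all (h : CMP) : ALL := by
  intro ι X _ _ _ β A L L' Ψ δ hA hδ hL hL' hT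
  obtain ⟨M, hM, hU⟩ := h ι X β A L' L 1 hA one_ne_zero hL' hL
  have hM0 : 0 < M := one_pos.trans_le hM
  refine ⟨δ / M, div_pos hδ hM0, fun x hx => ?_⟩
  obtain ⟨m, g, hg, he⟩ := hT x hx
  refine ⟨m, g, hg, he.mono fun x' hx' hZ a v hv hπ => ?_⟩
  obtain ⟨b, v', hv', hπ', ht⟩ := hx' hZ
  obtain ⟨Φ, Ψ', ha, hb, -⟩ := hU a b v hv v' hv' (hπ ▸ hZ) (hπ'.trans hπ.symm)
  exact arr_tch ha ((hL' a).2 hv) hM0 hδ.le hb (F := pot Ψ g) ht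

end Vale.Agent.P277Z.Pos
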