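import Vale.Agent.P277Z.Pos.Defs

/-!
# P277Z, block P: the same statements with given coefficients
-/

set_option linter.dupNamespace false
set_option linter.unusedSectionVars false

open Filter Topology Set Function

noncomputable section

namespace Vale.Agent.P277Z.Pos

open Vale.Agent.P277Z.Hir.Gl
open Vale.Agent.P284Z (Psh)

variable {ι X : Type} [Fintype ι] [DecidableEq ι] [TopologicalSpace X]

/-- `- Σ c j E j` is positive relative to the base -/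
def PosC (β : Base X) (A : At ι X) (c : ℕ → ℚ) : Prop :=
  ∃ (Ψ : X → ℝ) (δ : ℝ) (L : A.κ → Set (ι → ℂ)), 0 < δ ∧
    (∀ a, IsCompact (L a) ∧ L a ⊆ (A.C a).B) ∧ Lim β A c Ψ ∧ TchE β A L Ψ δ

theorem pos_iff {β : Base X} {A : At ι X} : Pos β A ↔ ∃ c, (∀ j, 0 < c j) ∧ PosC β A c :=
  ⟨fun ⟨c, Ψ, δ, L, a, b⟩ => ⟨c, a, Ψ, δ, L, b⟩, fun ⟨c, a, Ψ, δ, L, b⟩ => ⟨c, Ψ, δ, L, a, b⟩⟩

/-- **PREFC** -/
def PREFC : Prop :=
  ∀ (ι X : Type) [Fintype ι] [DecidableEq ι] [TopologicalSpace X] (β : Base X) (A A' : At ι X)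
    (c : ℕ → ℚ), A.Ok β → Ref A A' → PosC β A c → PosC β A' c

/-- **PBLC** -/
def PBLC : Prop :=
  ∀ (ι X : Type) [Fintype ι] [DecidableEq ι] [TopologicalSpace X] [T2Space X] (β : Base X)
    (A : At ι X) (W : Wt β A) (c : ℕ → ℚ), A.Ok β → W.bl.Ok β → (∀ j, 0 ≤ c j) → PosC β A c →
    ∃ x : ℚ, 0 < x ∧ PosC β W.bl (update c W.N x)

/-- **PRESC** -/
def PRESC : Prop :=
  ∀ (ι ι' X : Type) [Fintype ι] [DecidableEq ι] [Fintype ι'] [DecidableEq ι'] [TopologicalSpace X]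
    (β : Base X) (A : At ι X) (e : A.κ → ι' → ι) (c : ℕ → ℚ), A.Ok β →
    (∀ a, (A.C a).Flat (e a)) → PosC β A c → PosC β (A.res e) c

/-- **PINITC**: the coefficients of the labels which occur are zero -/
def PINITC : Prop :=
  ∀ (ι X : Type) [Fintype ι] [DecidableEq ι] [TopologicalSpace X] (β : Base X) (A : At ι X)
    (L : A.κ → Set (ι → ℂ)) (c : ℕ → ℚ), (∀ a l, (A.C a).lab l ≠ 0 → c ((A.C a).lab l) = 0) →
    (∀ a, IsCompact (L a) ∧ L a ⊆ (A.C a).B) →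
    (∀ x ∈ β.O, ∃ (a : A.κ) (g : ι → X → ℂ), (∀ l, β.Hol (g l) x) ∧ ∀ᶠ x' in 𝓝 x, ∃ v ∈ L a,
      (A.C a).π v = x' ∧ ∀ᶠ z in 𝓝[(A.C a).B] v, ∀ l, g l ((A.C a).π z) = z l) → PosC β A c

/-- **POUTC**: the output, chart by chart -/
def POUTC : Prop :=
  ∀ (n : ℕ) (X : Type) [TopologicalSpace X] (β : Base X) (A : At (Fin n) X) (c : ℕ → ℚ),
    A.Ok β → A.Full →
    (∀ a, ∀ u ∈ (A.C a).U, (A.C a).π u ∈ β.O → ∃ F : (Fin n → ℂ) → ℂ, AnalyticAt ℂ F u ∧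
      (¬ ∀ᶠ z in 𝓝 u, F z = 0) ∧ ∀ᶠ z in 𝓝 u, (A.C a).π z ∈ β.Z → F z = 0) → PosC β A c →
    ∃ Ψ : X → ℝ, ∀ a, ∀ u ∈ (A.C a).U, (A.C a).π u ∈ β.O →
      ∃ (m : ℕ) (g : Fin m → X → ℂ) (ε : ℝ) (U : Set (Fin n → ℂ)) (h : (Fin n → ℂ) → ℝ),
        (∀ k, β.Hol (g k) ((A.C a).π u)) ∧ 0 < ε ∧ IsOpen U ∧ u ∈ U ∧ U ⊆ (A.C a).U ∧
        ContinuousOn h U ∧ Psh (fun z => h z - ε * ∑ i, ‖z i‖ ^ 2) U ∧
        ∀ z ∈ U, (A.C a).π z ∉ β.Z → h z = Ψ ((A.C a).π z) + ∑ k, ‖g k ((A.C a).π z)‖ ^ 2 -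
          2 * lgs (A.C a) c z

theorem PosC.withF {β : Base X} {A : At ι X} {c : ℕ → ℚ} (h : PosC β A c) (m : A.κ → ℕ)
    (F : ∀ a, Fin (m a) → (ι → ℂ) → ℂ) : PosC β (A.withF m F) c := h

theorem PosC.mono {β β' : Base X} {A : At ι X} {c : ℕ → ℚ} (h : PosC β A c) (h1 : β'.Hol = β.Hol)
    (h2 : β'.Z = β.Z) (h3 : β'.O ⊆ β.O) : PosC β' A c := by
  obtain ⟨Ψ, δ, L, a2, a3, a4, a5⟩ := h
  refine ⟨Ψ, δ, L, a2, a3, fun a u hu hO => ?_, fun x hx => ?_⟩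
  · simpa only [gd, h2] using a4 a u hu (h3 hO)
  · simpa only [h1, h2] using a5 x (h3 hx)

/-- only the coefficients of the labels which occur are used -/
theorem PosC.congr {β : Base X} {A : At ι X} {c c' : ℕ → ℚ} (h : PosC β A c)
    (e : ∀ a l, (A.C a).lab l ≠ 0 → c' ((A.C a).lab l) = c ((A.C a).lab l)) : PosC β A c' := by
  obtain ⟨Ψ, δ, L, a2, a3, a4, a5⟩ := h
  refine ⟨Ψ, δ, L, a2, a3, fun a u hu hO => ?_, a5⟩
  have : lgs (A.C a) c' = lgs (A.C a) c := funext fun z => Finset.sum_congr rfl fun l _ => by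
    split_ifs with k
    · rfl
    · rw [e a l k]
  rw [this]
  exact a4 a u hu hO

theorem pbl_of (h : PBLC) : PBL := fun ι X _ _ _ _ β A W hA hB hP => by
  obtain ⟨c, hc, hP⟩ := pos_iff.1 hP
  obtain ⟨x, hx, h'⟩ := h ι X β A W c hA hB (fun j => (hc j).le) hP
  refine pos_iff.2 ⟨_, fun j => ?_, h'⟩
  by_cases k : j = W.N
  · rwa [k, update_self]
  · rw [update_of_ne k]
    exact hc j

end Vale.Agent.P277Z.Pos
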