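import Vale.Agent.P277Z.Pos.BlA
import Vale.Agent.P277Z.Pos.DefsC
import Vale.Agent.P277Z.Pos.Cmp

/-!
# P277Z, block P: positivity after a weighted blow-up
-/

set_option linter.unusedSectionVars false

open Filter Topology Set Function Metric

noncomputable section

namespace Vale.Agent.P277Z.Pos

namespace Bl

open Vale.Agent.P277Z.Hir.Gl
open Vale.Agent.P277Z.Hir.L (sl)

variable {ι X : Type} [Fintype ι] [DecidableEq ι] [TopologicalSpace X]
  {β : Base X} {A : At ι X} (W : Wt β A)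

/-- the value of a candidate -/
def val (η K : ℝ) (p : W.bl.κ) (y : (ι → ℂ) × (ι → ℂ)) : ℝ :=
  2 * Real.log ‖so p.1.2 y.1‖ + η * nsq y.1 + -K * nsq (σ W p y.1 - y.2)

/-- the values of the candidates over `x` -/
def cand (r η K : ℝ) (x : X) : Set ℝ :=
  {t | ∃ p, ∃ y ∈ S W r p, (W.bl.C p).π y.1 = x ∧ val W η K p y = t}

/-- the inner candidates -/
def S' (r : ℝ) (p : W.bl.κ) : Set ((ι → ℂ) × (ι → ℂ)) :=
  S W r p ∩ {y | nsq (σ W p y.1 - y.2) ≤ r ^ 2 / 2 ∧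
    ∀ l, W.w p.1.1 l ≠ 0 → p.1.2 ≠ some l → ‖y.1 l‖ ≤ 3 / 2}

/-- the constants -/
structure Cst (r η K R M : ℝ) (n : ℕ) : Prop where
  hr : 0 < r
  hη : 0 < η
  hM : 1 ≤ M
  hU : ∀ a, cthickening r (A.K a) ⊆ (A.C a).U
  hR : ∀ p, ∀ y ∈ S W r p, nsq y.1 ≤ R
  hn : ∀ a l, W.w a l ≤ n
  cmp : ∀ p q, UA β (W.bl.C p) (Prod.fst '' S W r p) (W.bl.C q) (Prod.fst '' S W r q) W.N M
  eη : n * (η * R) ≤ Real.log (3 / 2)
  eK : K * (r ^ 2 / 2) = 2 * Real.log M + η * R + 1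
  K0 : 0 < K

variable {W} {r η K R M : ℝ} {n : ℕ}

theorem bdd (h : Cst W r η K R M n) (x : X) : BddAbove (cand W r η K x) := by
  refine ⟨2 * (R + 1) + η * R, ?_⟩
  rintro _ ⟨p, y, hy, -, rfl⟩
  have a := (Real.log_le_self (norm_nonneg _)).trans (so_le p.1.2 y.1)
  have b := h.hR p y hy
  have c := mul_nonneg h.K0.le (nsq_nonneg (σ W p y.1 - y.2))
  have d := mul_le_mul_of_nonneg_left b h.hη.le
  rw [val]
  linarith

theorem near (h : Cst W r η K R M n) {p : W.bl.κ} {y : (ι → ℂ) × (ι → ℂ)} (hy : y ∈ S' W r p) :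
    ∀ᶠ z in 𝓝 y.1, z ∈ (W.bl.C p).B → (z, y.2) ∈ S W r p := by
  have c1 : Continuous fun z => nsq (σ W p z - y.2) :=
    continuous_nsq.comp ((cont_σ _ _).sub continuous_const)
  have a : ∀ᶠ z in 𝓝 y.1, nsq (σ W p z - y.2) < r ^ 2 :=
    c1.continuousAt.eventually_lt continuousAt_const
      (hy.2.1.trans_lt (half_lt_self (pow_pos h.hr 2)))
  have b : ∀ᶠ z in 𝓝 y.1, ∀ l, W.w p.1.1 l ≠ 0 → p.1.2 ≠ some l → ‖z l‖ ≤ 2 :=
    eventually_all.2 fun l => eventually_all.2 fun h1 => eventually_all.2 fun h2 =>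
      (ContinuousAt.eventually_lt (f := fun z : ι → ℂ => ‖z l‖)
        (an_crd l _).continuousAt.norm continuousAt_const
        ((hy.2.2 l h1 h2).trans_lt (by norm_num : (3 / 2 : ℝ) < 2))).mono fun _ k => k.le
  filter_upwards [a, b] with z h1 h2 h3 using ⟨h3, hy.1.2.1, h1.le, h2⟩

theorem exists_max [T2Space X] (hA : A.Ok β) (hB : W.bl.Ok β) (h : Cst W r η K R M n) {x : X}
    (hO : x ∈ β.O) (hZ : x ∉ β.Z) : ∃ p, ∃ y ∈ S' W r p, (W.bl.C p).π y.1 = x ∧
      sSup (cand W r η K x) = val W η K p y := by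
  obtain ⟨p₀, z₀, k1, k2⟩ := hB.cov x hO hZ
  have m₀ : (z₀, σ W p₀ z₀) ∈ S W r p₀ := ⟨k1.1.1, k1.1.2, by
    simpa [nsq_zero] using sq_nonneg r, fun l a b => (k1.2 l a b).trans one_le_two⟩
  have hc : IsCompact (cand W r η K x) := by
    have e : cand W r η K x =
        ⋃ p, val W η K p '' (S W r p ∩ (fun y => (W.bl.C p).π y.1) ⁻¹' {x}) := by
      ext t
      simp only [cand, mem_ofPred_eq, mem_iUnion, mem_image, mem_inter_iff, mem_preimage,
        mem_singleton_iff, and_assoc]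
    rw [e]
    refine isCompact_iUnion fun p => IsCompact.image_of_continuousOn ?_ fun y hy => ?_
    · have c := isCompact_S hA h.hr h.hU p
      exact c.of_isClosed_subset (((hB.ch p).cont.comp continuousOn_fst
        fun y hy => hy.1).preimage_isClosed_of_isClosed c.isClosed isClosed_singleton)
        inter_subset_left
    · have s0 := so_ne hB (p := p) (z := y.1) ⟨hy.1.1, fun k => hZ (hy.2 ▸ k)⟩
      refine ContinuousAt.continuousWithinAt (((continuousAt_const.mul (ContinuousAt.log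
        (((an_so _ _).continuousAt.comp continuousAt_fst).norm) (norm_ne_zero_iff.2 s0))).add
        (continuousAt_const.mul (continuous_nsq.comp continuous_fst).continuousAt)).add
        (continuousAt_const.mul (continuous_nsq.comp
          (((cont_σ _ _).comp continuous_fst).sub continuous_snd)).continuousAt))
  obtain ⟨t, ht⟩ := hc.exists_isGreatest ⟨_, p₀, _, m₀, k2, rfl⟩
  obtain ⟨p, y, hy, e1, rfl⟩ := ht.1
  have g : y.1 ∈ gd β (W.bl.C p) := ⟨hy.1, e1 ▸ hZ⟩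
  have s0 := norm_pos_iff.2 (so_ne hB g)
  have b1 := mul_le_mul_of_nonneg_left (h.hR p y hy) h.hη.le
  refine ⟨p, y, ⟨hy, not_lt.1 fun k => ?_, fun l h1 h2 => not_lt.1 fun k => ?_⟩, e1, ht.csSup_eq⟩
  · obtain ⟨-, -, -, -, a⟩ := h.cmp p p₀ _ ⟨y, hy, rfl⟩ _ ⟨_, m₀, rfl⟩ g.2 (k2.trans e1.symm)
    rw [s_eq, s_eq] at a
    have s1 := norm_pos_iff.2 (so_ne hB (p := p₀) (z := z₀) ⟨m₀.1, k2 ▸ hZ⟩)
    have a1 := Real.log_le_log s0 a
    rw [Real.log_mul (by linarith [h.hM]) s1.ne'] at a1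
    have a2 := ht.2 ⟨p₀, _, m₀, k2, rfl⟩
    have a3 := mul_lt_mul_of_pos_left k h.K0
    have a4 := mul_nonneg h.hη.le (nsq_nonneg z₀)
    simp only [val, sub_self, nsq_zero] at a2
    linarith [h.eK]
  · obtain ⟨⟨a, o⟩, hu⟩ := p
    cases o with
    | none => exact h1 (congrFun hu l)
    | some i =>
      have li : l ≠ i := fun k => h2 (by rw [k])
      have e2 : sl (W.w a) i y.1 l = y.1 i ^ W.w a l * y.1 l := if_neg li
      replace s0 : 0 < ‖y.1 i‖ := s0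
      have l0 : 0 < ‖y.1 l‖ := by linarith
      obtain ⟨j, z, j1, j2, j3, j4, j5⟩ := exists_slice (W.w a) (sl (W.w a) i y.1) h1 (by
        rw [e2]
        exact mul_ne_zero (pow_ne_zero _ (norm_pos_iff.1 s0)) (norm_pos_iff.1 l0))
      have vB : sl (W.w a) j z ∈ (A.C a).B := j2 ▸ mem_B hA hy.1
      have m : (z, y.2) ∈ S W r ⟨(a, some j), j1⟩ :=
        ⟨⟨(hA.ch a).sub vB, subset_closure ⟨vB, j3⟩⟩, hy.2.1, by
          have := hy.2.2.1
          change nsq (sl (W.w a) j z - y.2) ≤ _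
          rwa [j2], fun l' a1 a2 => (j4 l' a1 fun k => a2 (by rw [k])).trans one_le_two⟩
      have a2 := ht.2 ⟨_, _, m, (congrArg (A.C a).π j2).trans e1, rfl⟩
      change 2 * Real.log ‖z j‖ + η * nsq z + -K * nsq (sl (W.w a) j z - y.2) ≤
        2 * Real.log ‖y.1 i‖ + η * nsq y.1 + -K * nsq (sl (W.w a) i y.1 - y.2) at a2
      rw [j2] at a2
      rw [e2, norm_mul, norm_pow] at j5
      have a3 := Real.log_le_log (by positivity) j5
      rw [Real.log_mul (by positivity) l0.ne', Real.log_pow, Real.log_pow] at a3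
      have a4 := Real.log_lt_log (by norm_num) k
      have a5 := mul_nonneg h.hη.le (nsq_nonneg z)
      have a6 : (W.w a l : ℝ) ≤ n := Nat.cast_le.2 (h.hn a l)
      have a7 : 0 ≤ η * R := (mul_nonneg h.hη.le (nsq_nonneg _)).trans b1
      have a8 : (0 : ℝ) ≤ W.w a l := Nat.cast_nonneg _
      have a9 : 2 * (Real.log ‖z j‖ - Real.log ‖y.1 i‖) ≤ η * R := by linarith
      have := mul_le_mul_of_nonneg_left a9 a8
      have := mul_le_mul_of_nonneg_right a6 a7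
      have := mul_nonneg (Nat.cast_nonneg (α := ℝ) n) a7
      linarith [h.eη]

theorem isCompact_S' (hA : A.Ok β) (h : Cst W r η K R M n) (p : W.bl.κ) : IsCompact (S' W r p) := by
  refine (isCompact_S hA h.hr h.hU p).inter_right ((isClosed_le (continuous_nsq.comp
    (((cont_σ _ _).comp continuous_fst).sub continuous_snd)) continuous_const).inter ?_)
  have : IsClosed (⋂ l, ⋂ (_ : W.w p.1.1 l ≠ 0), ⋂ (_ : p.1.2 ≠ some l),
      {y : (ι → ℂ) × (ι → ℂ) | ‖y.1 l‖ ≤ 3 / 2}) :=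
    isClosed_iInter fun l => isClosed_iInter fun _ => isClosed_iInter fun _ =>
      isClosed_le (by fun_prop) continuous_const
  simp only [← ofPred_forall] at this
  exact this

theorem lim1 [T2Space X] (hA : A.Ok β) (hB : W.bl.Ok β) (h : Cst W r η K R M n) {p : W.bl.κ}
    {u : ι → ℂ} (hu : u ∈ (W.bl.C p).B) (hO : (W.bl.C p).π u ∈ β.O) :
    ∃ y, Tendsto (fun z => sSup (cand W r η K ((W.bl.C p).π z)) - 2 * Real.log ‖so p.1.2 z‖)
      (𝓝[gd β (W.bl.C p)] u) (𝓝 y) := by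
  have eO : ∀ᶠ z in 𝓝[gd β (W.bl.C p)] u, (W.bl.C p).π z ∈ β.O :=
    ((((hB.ch p).cont u hu).mono fun _ k => k.1).eventually (β.isOpen.mem_nhds hO))
  have eG : ∀ᶠ z in 𝓝[gd β (W.bl.C p)] u, z ∈ gd β (W.bl.C p) := self_mem_nhdsWithin
  refine exists_lim fun 𝒰 hU => ?_
  have hU' : (𝒰 : Filter (ι → ℂ)) ≤ 𝓝 u := hU.trans nhdsWithin_le_nhds
  obtain ⟨q, hq⟩ := ult_fin 𝒰 (((eO.and eG).filter_mono hU).mono fun z k =>
    exists_max hA hB h k.1 k.2.2)
  obtain ⟨y, hy⟩ := hq.choice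
  obtain ⟨y₀, m₀, t₀⟩ := (isCompact_S' hA h q).ultrafilter_le_nhds (𝒰.map y)
    (le_principal_iff.2 (hy.mono fun _ k => k.1))
  replace t₀ : Tendsto y 𝒰 (𝓝 y₀) := t₀
  obtain ⟨N, Φ, Ψ, hΦ, hev⟩ := hB.prp p q u hu y₀.1 m₀.1.1
  have t₁ : Tendsto (fun z => (z, (y z).1)) 𝒰 (𝓝 (u, y₀.1)) :=
    Tendsto.prodMk_nhds hU' (continuous_fst.continuousAt.tendsto.comp t₀)
  obtain ⟨k, hk⟩ := ult_fin 𝒰 (((t₁.eventually hev).and (hy.and (eG.filter_mono hU))).mono
    fun z a => a.1 a.2.2.1 a.2.1.1.1.1 a.2.2.2 a.2.1.2.1)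
  obtain ⟨e, e1, e2, e3⟩ := (hΦ k).div W.N W.pos
  let G : (ι → ℂ) × (ι → ℂ) → ℝ := fun a =>
    2 * Real.log ‖e a.1‖ + η * nsq (Φ k a.1) + -K * nsq (σ W q (Φ k a.1) - a.2)
  have cΦ : ContinuousAt (fun a : (ι → ℂ) × (ι → ℂ) => Φ k a.1) (u, y₀.2) :=
    ContinuousAt.comp (g := Φ k) (hΦ k).an.continuousAt continuousAt_fst
  have cG : ContinuousAt G (u, y₀.2) :=
    ((continuousAt_const.mul (ContinuousAt.log (f := fun a : (ι → ℂ) × (ι → ℂ) => ‖e a.1‖)
      (ContinuousAt.comp (g := e) e1.continuousAt continuousAt_fst).norm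
      (norm_ne_zero_iff.2 e2))).add
      (continuousAt_const.mul (continuous_nsq.continuousAt.comp cΦ))).add
      (continuousAt_const.mul (continuous_nsq.continuousAt.comp
        (((cont_σ _ _).continuousAt.comp cΦ).sub continuousAt_snd)))
  have eV : ∀ᶠ z in 𝓝[gd β (W.bl.C p)] u, ∀ c,
      val W η K q (Φ k z, c) - 2 * Real.log ‖so p.1.2 z‖ = G (z, c) := by
    filter_upwards [eG, (e3.and (e1.continuousAt.eventually_ne e2)).filter_mono nhdsWithin_le_nhds]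
      with z h1 h2 c
    have := h2.1
    simp only [s_eq] at this
    simp only [val, G, this, norm_mul]
    rw [Real.log_mul (norm_ne_zero_iff.2 h2.2) (norm_ne_zero_iff.2 (so_ne hB h1))]
    ring
  refine ⟨G (u, y₀.2), (cG.tendsto.comp (Tendsto.prodMk_nhds hU'
    (continuous_snd.continuousAt.tendsto.comp t₀))).congr' ?_, fun t ht => ?_⟩
  · filter_upwards [eV.filter_mono hU, hy, hk] with z h1 h2 h3
    rw [h2.2.2, comp_apply, ← h1, h3]
    rfl
  · have t₂ : Tendsto (fun z => G (z, y₀.2)) (𝓝 u) (𝓝 (G (u, y₀.2))) :=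
      cG.tendsto.comp (Tendsto.prodMk_nhds tendsto_id tendsto_const_nhds)
    have t₃ : Tendsto (Φ k) (𝓝 u) (𝓝 y₀.1) := (hΦ k).val ▸ (hΦ k).an.continuousAt.tendsto
    filter_upwards [eV, eG, (((t₂.eventually (lt_mem_nhds ht)).and
      (t₃.eventually (near h m₀))).and ((hΦ k).mem.and (hΦ k).pi)).filter_mono nhdsWithin_le_nhds]
      with z h1 h2 h3
    have := le_csSup (bdd h ((W.bl.C p).π z)) ⟨q, _, h3.1.2 (h3.2.1.2 h2.1), h3.2.2 h2.1, rfl⟩
    linarith [h1 y₀.2, h3.1.1]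

variable (W) in
theorem exists_cst (hC : CMP) (hA : A.Ok β) (hB : W.bl.Ok β) :
    ∃ r η K R M n, Cst W r η K R M n := by
  have e : ∀ᶠ r in 𝓝[>] (0 : ℝ), ∀ a, cthickening r (A.K a) ⊆ (A.C a).U :=
    eventually_all.2 fun a => by
      obtain ⟨δ, h1, h2⟩ := (hA.cpt a).exists_cthickening_subset_open (hA.ch a).isOpen
        ((hA.sub a).trans (hA.ch a).sub)
      filter_upwards [Ioo_mem_nhdsGT h1] with r hr using (cthickening_mono hr.2.le _).trans h2
  obtain ⟨r, hU, hr⟩ := (e.and self_mem_nhdsWithin).exists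
  replace hr : 0 < r := hr
  have c := fun p : W.bl.κ => (isCompact_S hA hr hU p).image continuous_fst
  have c' : ∀ p, IsCompact (Prod.fst '' S W r p) ∧ Prod.fst '' S W r p ⊆ (W.bl.C p).B :=
    fun p => ⟨c p, by rintro _ ⟨y, hy, rfl⟩; exact hy.1⟩
  obtain ⟨R, hR⟩ := ((isCompact_iUnion c).image continuous_nsq).bddAbove
  obtain ⟨n, hn⟩ := (finite_range fun a : A.κ × ι => W.w a.1 a.2).bddAbove
  obtain ⟨M, hM, hM'⟩ := hC _ _ β W.bl _ _ W.N hB W.pos c' c'
  have l0 : 0 < Real.log (3 / 2) := Real.log_pos (by norm_num)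
  have l1 := Real.log_nonneg hM
  have hη : 0 < Real.log (3 / 2) / (n * max R 0 + 1) := by positivity
  refine ⟨r, _, (2 * Real.log M + Real.log (3 / 2) / (n * max R 0 + 1) * max R 0 + 1) / (r ^ 2 / 2),
    max R 0, M, n, hr, hη, hM, hU, fun p y hy => le_max_of_le_left
      (hR ⟨_, mem_iUnion.2 ⟨p, y, hy, rfl⟩, rfl⟩), fun a l => hn ⟨(a, l), rfl⟩, hM', ?_,
    div_mul_cancel₀ _ (by positivity), by positivity⟩
  rw [mul_left_comm, div_mul_eq_mul_div, div_le_iff₀ (by positivity)]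
  nlinarith

end Bl

open Bl Vale.Agent.P277Z.Hir.Gl in
theorem pblC_of (hC : CMP) (hL : ALL) : PBLC := by
  rintro ι X _ _ _ _ β A W c hA hB hc ⟨Ψ, δ, L, hδ, hK, hlim, hT⟩
  obtain ⟨r, η, K, R, M, n, h⟩ := exists_cst W hC hA hB
  obtain ⟨δ', hδ', hT'⟩ := hL _ _ β A L (fun a => (A.C a).B ∩ cthickening r (A.K a)) Ψ δ hA hδ hK
    (fun a => ⟨by
      have e : (A.C a).B ∩ cthickening r (A.K a) = closure (A.C a).B ∩ cthickening r (A.K a) :=
        (inter_subset_inter_left _ subset_closure).antisymm fun z hz =>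
          ⟨(hA.ch a).closed z (h.hU a hz.2) hz.1, hz.2⟩
      rw [e]
      exact (hA.cpt a).cthickening.inter_left isClosed_closure, inter_subset_left⟩) hT
  obtain ⟨μ, hμ, hμ'⟩ := exists_mu W c hc
  have K0 := h.K0
  have hη := h.hη
  obtain ⟨ε, e1, e2⟩ := exists_rat_btwn (show 0 < δ' / (4 * K) by positivity)
  have e0 : 0 < ε := by exact_mod_cast e1
  rw [lt_div_iff₀ (by positivity)] at e2
  refine ⟨ε + μ, by positivity, fun x => Ψ x + ε * sSup (cand W r η K x), ε * (η * 4),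
    fun p => Prod.fst '' S W r p, by positivity, fun p => ⟨(isCompact_S hA h.hr h.hU p).image
      continuous_fst, by rintro _ ⟨y, hy, rfl⟩; exact hy.1⟩, fun p u hu hO => ?_, fun x hx => ?_⟩
  · obtain ⟨y, hy⟩ := hlim _ _ (mem_B hA hu) hO
    obtain ⟨y', hy'⟩ := lim1 hA hB h hu hO
    have t : Tendsto (σ W p) (𝓝[gd β (W.bl.C p)] u) (𝓝[gd β (A.C p.1.1)] (σ W p u)) :=
      (cont_σ _ _).continuousWithinAt.tendsto_nhdsWithin fun z hz => ⟨mem_B hA hz.1, hz.2⟩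
    refine ⟨y + ε * y', ((hy.comp t).add (hy'.const_mul (ε : ℝ))).congr' ?_⟩
    filter_upwards [self_mem_nhdsWithin] with z hz
    rw [lgs_eq hB ε hμ' hz]
    change Ψ ((W.bl.C p).π z) - _ + _ = _
    ring
  · obtain ⟨m, g, hg, hev⟩ := hT' x hx
    refine ⟨m, g, hg, ?_⟩
    filter_upwards [hev, β.isOpen.mem_nhds hx] with x' h1 h2 h3
    obtain ⟨p, y, hy, k1, k2⟩ := exists_max hA hB h h2 h3
    refine ⟨p, y.1, ⟨y, hy.1, rfl⟩, k1, ?_⟩
    have t1 := (h1 h3 _ _ ⟨mem_B hA hy.1.1, mem_thick h.hr hy.1.2.1 hy.1.2.2.1⟩ k1).comp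
      (S' := (W.bl.C p).B) (an_σ _ _ _) (eventually_mem_nhdsWithin.mono fun z hz => mem_B hA hz)
    have t2 := ((Tch.log_norm (S := (W.bl.C p).B) (an_so p.1.2 y.1)
      (so_ne hB ⟨hy.1.1, k1 ▸ h3⟩) 2).add (Tch.nsq_comp analyticAt_id η)).add
      (Tch.nsq_comp ((an_σ (W.w p.1.1) p.1.2 y.1).sub (analyticAt_const (v := y.2))) (-K))
    have t3 : Tch (fun z => sSup (cand W r η K ((W.bl.C p).π z))) (W.bl.C p).B y.1 _ :=
      t2.of_le (by rw [k1, k2]; rfl) (by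
        filter_upwards [self_mem_nhdsWithin, (near h hy).filter_mono nhdsWithin_le_nhds]
          with z a b using le_csSup (bdd h _) ⟨p, _, b a, rfl, rfl⟩)
    refine ((t1.add (t3.const_mul e1.le)).mono fun ξ => ?_).of_le ?_
      (Eventually.of_forall fun z => le_of_eq ?_)
    · have d : fderiv ℂ (σo (W.w p.1.1) p.1.2 - fun _ => y.2) y.1 =
          fderiv ℂ (σo (W.w p.1.1) p.1.2) y.1 := fderiv_sub_const _
      rw [d, fderiv_id, ContinuousLinearMap.id_apply]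
      nlinarith [nsq_nonneg (fderiv ℂ (σo (W.w p.1.1) p.1.2) y.1 ξ)]
    · change pot Ψ g ((W.bl.C p).π y.1) + _ = _
      simp only [pot]
      ring
    · change pot Ψ g ((W.bl.C p).π z) + _ = _
      simp only [pot]
      ring

theorem pblC : PBLC := pblC_of cmp (all cmp)

theorem pbl : PBL := pbl_of pblC

end Vale.Agent.P277Z.Pos
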