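import Vale.Agent.P277Z.Pos.Defs
import Vale.Agent.P277Z.Pos.Tch

/-!
# P277Z, block P: the output, chart by chart
-/

open Filter Topology Set Function Metric

noncomputable section

namespace Vale.Agent.P277Z.Pos

open Vale.Agent.P277Z.Hir.Gl

namespace Out

variable {ι X : Type} [Fintype ι]

theorem tch_sum {α : Type} (s : Finset α) {f : α → (ι → ℂ) → ℝ} {S : Set (ι → ℂ)} {v : ι → ℂ}
    (h : ∀ l ∈ s, Tch (f l) S v fun _ => 0) : Tch (fun z => ∑ l ∈ s, f l z) S v fun _ => 0 := by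
  classical
  induction s using Finset.induction_on with
  | empty =>
    simpa using Tch.log_norm (S := S) (v := v) (F := fun _ => 1) analyticAt_const one_ne_zero 0
  | insert a s ha ih =>
    simp only [Finset.sum_insert ha]
    exact ((h a (by simp)).add (ih fun l hl => h l (by simp [hl]))).mono fun _ => by simp

theorem tch_lgs (C : Ch ι X) (c : ℕ → ℚ) {S : Set (ι → ℂ)} {v : ι → ℂ} (hv : v ∉ C.E) :
    Tch (fun z => -(2 * lgs C c z)) S v fun _ => 0 := by
  have e : (fun z => -(2 * lgs C c z)) = fun z => ∑ l,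
      (if C.lab l = 0 then 0 else -2 * (c (C.lab l) : ℝ)) * Real.log ‖z l‖ := by
    funext z
    rw [lgs, Finset.mul_sum, ← Finset.sum_neg_distrib]
    refine Finset.sum_congr rfl fun l _ => ?_
    split_ifs <;> ring
  rw [e]
  refine tch_sum _ fun l _ => ?_
  by_cases hl : C.lab l = 0
  · simpa [hl] using
      Tch.log_norm (S := S) (v := v) (F := fun _ => 1) analyticAt_const one_ne_zero 0
  · exact Tch.log_norm (F := fun z => z l)
      ((ContinuousLinearMap.proj (R := ℂ) (φ := fun _ : ι => ℂ) l).analyticAt v)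
      (fun h => hv ⟨l, hl, h⟩) _

theorem ext_eq {T : Type} [TopologicalSpace T] {S : Set T} {f : T → ℝ} {z : T} (hz : z ∈ S)
    (h : ∃ y, Tendsto f (𝓝[S] z) (𝓝 y)) : extendFrom S f z = f z :=
  tendsto_nhds_unique ((tendsto_extendFrom h).mono_left (pure_le_nhdsWithin hz))
    (tendsto_pure_nhds f z)

theorem dense_ne {E : Type} [NormedAddCommGroup E] [NormedSpace ℂ E] {F : E → ℂ} {u : E} {s : ℝ}
    (hs : 0 < s) (hF : AnalyticOnNhd ℂ F (ball u s)) (h : ¬ ∀ᶠ z in 𝓝 u, F z = 0) :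
    ball u s ⊆ closure {z ∈ ball u s | F z ≠ 0} := by
  intro z hz
  by_contra k
  have k1 : ∀ᶠ w in 𝓝 z, F w = 0 := by
    filter_upwards [isClosed_closure.isOpen_compl.mem_nhds k, isOpen_ball.mem_nhds hz] with w h1 h2
    by_contra h3
    exact h1 (subset_closure ⟨h2, h3⟩)
  have k2 := hF.eqOn_zero_of_preconnected_of_eventuallyEq_zero (convex_ball u s).isPreconnected
    hz k1
  exact h (by filter_upwards [ball_mem_nhds u hs] with w hw using k2 hw)

end Out

theorem pout (h1 : ALL) (h2 : REM) : POUT := by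
  rintro n X _ β A hA hfull hZ ⟨c, Ψ, δ, L, hc, hδ, hL, hlim, hT⟩
  refine ⟨c, Ψ, hc, fun a u hu hO => ?_⟩
  have ok := hA.ch a
  have hB := hfull a
  obtain ⟨r, hr, hrU⟩ := nhds_basis_closedBall.mem_iff.1 (ok.isOpen.mem_nhds hu)
  obtain ⟨δ', hδ', hTA⟩ := h1 _ _ β A L (fun b => {z | b = a ∧ z ∈ closedBall u r}) Ψ δ hA hδ hL
    (fun b => by
      by_cases hb : b = a
      · subst hb
        simpa [hB] using ⟨isCompact_closedBall u r, hrU⟩
      · simp [hb]) hT
  obtain ⟨m, g, hg, hev⟩ := hTA _ hO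
  choose G hG1 hG2 using fun k => ok.hol u (hB ▸ hu) (g k) (hg k)
  obtain ⟨F, hF1, hF2, hF3⟩ := hZ a u hu hO
  have hπ : ContinuousAt (A.C a).π u := ok.cont.continuousAt (hB ▸ ok.isOpen.mem_nhds hu)
  obtain ⟨s, hs, hb⟩ := Metric.eventually_nhds_iff_ball.1
    ((((hπ.eventually hev).and (hπ.eventually (β.isOpen.mem_nhds hO))).and
      ((eventually_all.2 fun k => (hG1 k).eventually_analyticAt).and (eventually_all.2 hG2))).and
      ((hF1.eventually_analyticAt.and hF3).and (closedBall_mem_nhds u hr)))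
  have hU : ∀ z ∈ ball u s, z ∈ (A.C a).B := fun z hz => hB ▸ hrU (hb z hz).2.2
  set f : (Fin n → ℂ) → ℝ := fun z => Ψ ((A.C a).π z) - 2 * lgs (A.C a) c z with hf
  set h : (Fin n → ℂ) → ℝ := fun z => extendFrom (gd β (A.C a)) f z + nsq fun k => G k z with hh
  have hval : ∀ z ∈ ball u s, (A.C a).π z ∉ β.Z →
      h z = pot Ψ g ((A.C a).π z) + -(2 * lgs (A.C a) c z) := fun z hz hz' => by
    have e1 : (fun k => G k z) = fun k => g k ((A.C a).π z) :=
      funext fun k => ((hb z hz).1.2.2 k (hU z hz)).symm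
    simp only [hh]
    rw [Out.ext_eq (S := gd β (A.C a)) ⟨hU z hz, hz'⟩ (hlim a z (hU z hz) (hb z hz).1.1.2), e1, pot]
    ring
  have hcont : ContinuousOn h (ball u s) :=
    (continuousOn_extendFrom (fun z hz => ok.dense z (hU z hz))
      fun z hz => hlim a z (hU z hz) (hb z hz).1.1.2).add
      (continuous_nsq.comp_continuousOn (continuousOn_pi.2 fun k z hz =>
        ((hb z hz).1.2.1 k).continuousAt.continuousWithinAt))
  have hFa : AnalyticOnNhd ℂ F (ball u s) := fun z hz => (hb z hz).2.1.1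
  refine ⟨m, g, δ' / 4, ball u s, h, hg, by positivity, isOpen_ball, mem_ball_self hs,
    fun z hz => hB ▸ hU z hz, hcont,
    h2 n (ball u s) h F δ' isOpen_ball hcont hFa (Out.dense_ne hs hFa hF2) fun z hz hz0 => ?_,
    fun z hz hz' => by rw [hval z hz hz', pot, nsq]; ring⟩
  have hz' : (A.C a).π z ∉ β.Z := fun k => hz0 ((hb z hz).2.1.2 k)
  have t1 := ((hb z hz).1.1.1 hz' a z ⟨rfl, (hb z hz).2.2⟩ rfl).filter (S' := univ) (by
    rw [nhdsWithin_univ, nhdsWithin_eq_nhds.2 (hB ▸ ok.isOpen.mem_nhds (hB ▸ hU z hz))])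
  have t2 := Out.tch_lgs (A.C a) c (S := univ) fun k => hz' (ok.unt z (hU z hz) k)
  refine ((t1.add t2).mono fun ξ => (add_zero _).ge).of_le (hval z hz hz').symm ?_
  rw [nhdsWithin_univ]
  filter_upwards [isOpen_ball.mem_nhds hz, (hFa z hz).continuousAt.eventually_ne hz0] with w k1 k2
  exact (hval w k1 fun k => k2 ((hb w k1).2.1.2 k)).ge

end Vale.Agent.P277Z.Pos
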