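import Vale.Agent.P277Z.Pos.MSpec
import Vale.Agent.P284Y.P.PshB
import Vale.Agent.P284Z.F0.Ops

/-!
# P277Z, block P: removable singularities of continuous plurisubharmonic functions
-/

open scoped Topology
open Filter Set Metric Real

noncomputable section

namespace Vale.Agent.P277Z.Pos

open Vale.Agent.P272.K Vale.Agent.P284Z Vale.Agent.P284Y

namespace Rem

variable {W : Type} [NormedAddCommGroup W] [NormedSpace ℂ W] {g : W → ℝ} {F : W → ℂ} {U : Set W}

theorem centre (hU : IsOpen U) (hg : ContinuousOn g U) (hF : DifferentiableOn ℂ F U)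
    (h : Psh g {z ∈ U | F z ≠ 0}) {z w : W} (hw : ∀ ζ : ℂ, ‖ζ‖ ≤ 1 → z + ζ • w ∈ U)
    (hz : F z ≠ 0) : g z ≤ circleAverage (fun ζ : ℂ => g (z + ζ • w)) 0 1 := by
  have hO : IsOpen {z ∈ U | F z ≠ 0} :=
    hF.continuousOn.isOpen_inter_preimage hU isOpen_compl_singleton
  have hK : IsCompact ((fun ζ : ℂ => z + ζ • w) '' closedBall 0 1) :=
    (isCompact_closedBall 0 1).image (by fun_prop)
  have hKU : (fun ζ : ℂ => z + ζ • w) '' closedBall 0 1 ⊆ U := by
    rintro _ ⟨ζ, hζ, rfl⟩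
    exact hw ζ (mem_closedBall_zero_iff.1 hζ)
  obtain ⟨T, hT⟩ := hK.exists_bound_of_continuousOn (hg.mono hKU)
  obtain ⟨B, hB⟩ := hK.exists_bound_of_continuousOn (hF.continuousOn.mono hKU)
  set M := log (max B 1) with hM
  have hM0 : 0 ≤ M := log_nonneg (le_max_right _ _)
  have hi : CircleIntegrable (fun ζ : ℂ => g (z + ζ • w)) 0 1 :=
    line_int₁ hg.upperSemicontinuousOn (.of_cont hg) hw
  have key : ∀ ε : ℝ, 0 < ε →
      g z + ε * log ‖F z‖ ≤ circleAverage (fun ζ : ℂ => g (z + ζ • w)) 0 1 + ε * M := by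
    intro ε hε
    have hc : ContinuousOn (fun y => ‖F y‖ ^ ε * exp (g y)) U :=
      (hF.continuousOn.norm.rpow_const fun _ _ => Or.inr hε.le).mul
        (continuous_exp.comp_continuousOn hg)
    have hP : LPsh (fun y => ‖F y‖ ^ ε * exp (g y)) U := by
      refine lpsh_of_touch hU hc.upperSemicontinuousOn (fun y _ => by positivity)
        fun y hy h0 => ⟨{z ∈ U | F z ≠ 0}, hO.mem_nhds ⟨hy, fun e => ?_⟩, _,
          (((lpsh_norm hU hF).rpow hε.le).mono fun _ k => k.1).mul_exp h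
            (.of_cont (hg.mono fun _ k => k.1)), fun _ _ => le_rfl, rfl⟩
      rw [e, norm_zero, zero_rpow hε.ne', zero_mul] at h0
      exact lt_irrefl _ h0
    have hl : ∀ y, F y ≠ 0 →
        lg T (‖F y‖ ^ ε * exp (g y)) = max (g y + ε * log ‖F y‖) (-T) := fun y hy => by
      have h1 : 0 < ‖F y‖ := norm_pos_iff.2 hy
      rw [lg_eq_max T (by positivity), log_mul (by positivity) (exp_pos _).ne', log_exp,
        log_rpow h1, add_comm]
    have h1 := (hP.2 T).2 z w hw
    have h2 : circleAverage (fun ζ : ℂ => lg T (‖F (z + ζ • w)‖ ^ ε * exp (g (z + ζ • w)))) 0 1 ≤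
        circleAverage (fun ζ : ℂ => g (z + ζ • w) + ε * M) 0 1 := by
      refine circleAverage_mono (line_int₁ (hP.2 T).1 (lb_lg _ _ _) hw)
        (hi.add (circleIntegrable_const _ _ _)) fun ζ hζ => ?_
      have hζ' : z + ζ • w ∈ (fun ζ : ℂ => z + ζ • w) '' closedBall 0 1 :=
        ⟨ζ, sphere_subset_closedBall (by simpa using hζ), rfl⟩
      have h3 := (abs_le.1 (hT _ hζ')).1
      have h4 : 0 ≤ ε * M := mul_nonneg hε.le hM0
      by_cases h0 : F (z + ζ • w) = 0
      · simp only [h0, norm_zero, zero_rpow hε.ne', zero_mul, lg_zero]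
        linarith
      · rw [hl _ h0]
        refine max_le (add_le_add_right (mul_le_mul_of_nonneg_left ?_ hε.le) _) (by linarith)
        exact log_le_log (norm_pos_iff.2 h0) ((hB _ hζ').trans (le_max_left _ _))
    rw [circleAverage_fun_add hi (circleIntegrable_const _ _ _), circleAverage_const] at h2
    have h3 := le_max_left (g z + ε * log ‖F z‖) (-T)
    rw [← hl z hz] at h3
    exact h3.trans (h1.trans h2)
  have t1 : Tendsto (fun ε : ℝ => g z + ε * log ‖F z‖) (𝓝[>] 0) (𝓝 (g z + 0 * log ‖F z‖)) :=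
    Tendsto.mono_left (Continuous.tendsto (by fun_prop) 0) nhdsWithin_le_nhds
  have t2 : Tendsto (fun ε : ℝ => circleAverage (fun ζ : ℂ => g (z + ζ • w)) 0 1 + ε * M) (𝓝[>] 0)
      (𝓝 (circleAverage (fun ζ : ℂ => g (z + ζ • w)) 0 1 + 0 * M)) :=
    Tendsto.mono_left (Continuous.tendsto (by fun_prop) 0) nhdsWithin_le_nhds
  simpa using le_of_tendsto_of_tendsto t1 t2 (eventually_mem_nhdsWithin.mono key)

/-- A continuous function which is plurisubharmonic off a nowhere dense hypersurface is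
plurisubharmonic. -/
theorem core [FiniteDimensional ℂ W] (hU : IsOpen U) (hg : ContinuousOn g U)
    (hF : DifferentiableOn ℂ F U) (hd : U ⊆ closure {z ∈ U | F z ≠ 0})
    (h : Psh g {z ∈ U | F z ≠ 0}) : Psh g U := by
  have : ProperSpace W := FiniteDimensional.proper ℂ W
  refine ⟨hg.upperSemicontinuousOn, fun z w hw => le_of_forall_pos_le_add fun η hη => ?_⟩
  have hz : z ∈ U := disc_mem hw
  have hK : IsCompact ((fun ζ : ℂ => z + ζ • w) '' closedBall 0 1) :=
    (isCompact_closedBall 0 1).image (by fun_prop)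
  have hKU : (fun ζ : ℂ => z + ζ • w) '' closedBall 0 1 ⊆ U := by
    rintro _ ⟨ζ, hζ, rfl⟩
    exact hw ζ (mem_closedBall_zero_iff.1 hζ)
  obtain ⟨δ, hδ, hδU⟩ := hK.exists_cthickening_subset_open hU hKU
  obtain ⟨M, hM⟩ := (hK.cthickening (r := δ)).exists_bound_of_continuousOn (hg.mono hδU)
  have h1 : ∀ᶠ y in 𝓝 z, ∀ ζ : ℂ, ‖ζ‖ ≤ 1 →
      y + ζ • w ∈ cthickening δ ((fun ζ : ℂ => z + ζ • w) '' closedBall 0 1) := by
    filter_upwards [closedBall_mem_nhds z hδ] with y hy ζ hζ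
    refine mem_cthickening_of_dist_le _ (z + ζ • w) _ _
      ⟨ζ, mem_closedBall_zero_iff.2 hζ, rfl⟩ ?_
    simpa using hy
  have h2 : ∀ᶠ y in 𝓝 z, circleAverage (fun ζ : ℂ => g (y + ζ • w)) 0 1 ≤
      circleAverage (fun ζ : ℂ => g (z + ζ • w)) 0 1 + η / 2 := by
    refine fatou_circle (M := M) (line_int₁ hg.upperSemicontinuousOn (.of_cont hg) hw)
      (h1.mono fun y hy => ⟨line_int₁ hg.upperSemicontinuousOn (.of_cont hg)
        fun ζ hζ => hδU (hy ζ hζ), fun ζ hζ => (abs_le.1 (hM _ (hy ζ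
          (le_of_eq (by simpa using hζ))))).2⟩) (fun ζ hζ t ht => ?_) (half_pos hη)
    have h3 : ContinuousAt g (z + ζ • w) :=
      hg.continuousAt (hU.mem_nhds (hw ζ (le_of_eq (by simpa using hζ))))
    have h4 : ContinuousAt (fun y => g (y + ζ • w)) z :=
      h3.comp_of_eq (f := fun y => y + ζ • w) (by fun_prop) rfl
    exact h4.eventually (gt_mem_nhds ht)
  have h3 : ∀ᶠ y in 𝓝 z, g z - η / 2 < g y :=
    (hg.continuousAt (hU.mem_nhds hz)).eventually (lt_mem_nhds (by linarith))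
  obtain ⟨y, hy, k1, k2, k3⟩ :=
    ((mem_closure_iff_frequently.1 (hd hz)).and_eventually (h1.and (h2.and h3))).exists
  have := centre hU hg hF h (fun ζ hζ => hδU (k1 ζ hζ)) hy.2
  linarith

theorem contDiff_nsq {ι : Type} [Fintype ι] : ContDiff ℝ 2 (nsq : (ι → ℂ) → ℝ) :=
  ContDiff.sum fun l _ => (contDiff_norm_sq ℝ).comp (contDiff_apply ℝ ℂ l)

theorem levi_nsq {ι : Type} [Fintype ι] (z w : ι → ℂ) : levi nsq z w = 4 * nsq w := by
  have h := Lib.levi_sum (z := z) (w := w) Finset.univ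
    (f := fun (l : ι) (y : ι → ℂ) => ‖y l‖ ^ 2)
    fun l _ => ((contDiff_norm_sq ℝ).comp (contDiff_apply ℝ ℂ l)).contDiffAt
  refine h.trans ?_
  rw [nsq, Finset.mul_sum]
  refine Finset.sum_congr rfl fun l _ => ?_
  rw [Ps.levi_nsq (h := fun y : ι → ℂ => y l)
    ((ContinuousLinearMap.proj (R := ℂ) (φ := fun _ : ι => ℂ) l).analyticAt z)]
  have : fderiv ℂ (fun y : ι → ℂ => y l) z = ContinuousLinearMap.proj l :=
    (ContinuousLinearMap.proj (R := ℂ) (φ := fun _ : ι => ℂ) l).fderiv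
  rw [this, ContinuousLinearMap.proj_apply]

/-- From touching functions to the sub mean value property. -/
theorem psh_of_tch {ι : Type} [Fintype ι] {u : (ι → ℂ) → ℝ} {O : Set (ι → ℂ)} {δ : ℝ}
    (hO : IsOpen O) (hu : ContinuousOn u O) (h : ∀ z ∈ O, Tch u univ z fun ξ => δ * nsq ξ) :
    Psh (fun z => u z - δ / 4 * nsq z) O := by
  have hn : ∀ z, ContDiffAt ℝ 2 (fun z : ι → ℂ => δ / 4 * nsq z) z := fun z =>
    contDiffAt_const.mul contDiff_nsq.contDiffAt
  have hg : ContinuousOn (fun z => u z - δ / 4 * nsq z) O :=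
    hu.sub fun z _ => (hn z).continuousAt.continuousWithinAt
  refine psh_of_locSub hg.upperSemicontinuousOn (.of_cont hg) fun z hz => ?_
  obtain ⟨q, hq, h1, h2, h3⟩ := h z hz
  rw [nhdsWithin_univ] at h2
  have h4 : LocSub (fun z => q z - δ / 4 * nsq z) z := (locSub_iff (hq.sub (hn z))).2 fun w => by
    rw [Lib.levi_sub hq (hn z), Lib.levi_const_mul contDiff_nsq.contDiffAt, levi_nsq]
    have := h3 w
    linarith
  have hN : {y | y ∈ O ∧ ContDiffAt ℝ 2 q y ∧ q y ≤ u y} ∈ 𝓝 z :=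
    Eventually.and (hO.mem_nhds hz) ((hq.eventually (by simp)).and h2)
  have h5 : ContinuousOn (fun z => q z - δ / 4 * nsq z)
      {y | y ∈ O ∧ ContDiffAt ℝ 2 q y ∧ q y ≤ u y} := fun y hy =>
    (hy.2.1.sub (hn y)).continuousAt.continuousWithinAt
  have h6 := hg.mono (t := {y | y ∈ O ∧ ContDiffAt ℝ 2 q y ∧ q y ≤ u y}) fun y hy => hy.1
  exact h4.of_le hN h6.upperSemicontinuousOn (.of_cont h6) h5.upperSemicontinuousOn (.of_cont h5)
    (fun y hy => sub_le_sub_right hy.2.2 _) (sub_le_sub_right h1.ge _)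

end Rem

theorem rem : REM := fun _ _ _ _ _ hU hu hF hd h =>
  Rem.core hU (hu.sub (continuousOn_const.mul Rem.contDiff_nsq.continuous.continuousOn))
    hF.differentiableOn hd
    (Rem.psh_of_tch (hF.continuousOn.isOpen_inter_preimage hU isOpen_compl_singleton)
      (hu.mono fun _ k => k.1) fun z hz => h z hz.1 hz.2)

end Vale.Agent.P277Z.Pos
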