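import Vale.Agent.P277Z.Pos.DefsC
import Vale.Agent.P277Z.Pos.Cmp
import Vale.Agent.P277Z.Hir.DDefs

/-!
# P277Z, block P: positivity passes to the quotient by the rotations
-/

set_option linter.dupNamespace false
set_option linter.unusedSectionVars false

open Filter Topology Set Function

noncomputable section

namespace Vale.Agent.P277Z.Pos

open Vale.Agent.P277Z.Hir.Gl

variable {ι X : Type} [Fintype ι] [DecidableEq ι]

theorem qm_an (C : Ch ι X) (N ρ : ℕ) (z : ι → ℂ) : AnalyticAt ℂ (C.qm N ρ) z := by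
  refine analyticAt_pi_iff.2 fun l => ?_
  have h : AnalyticAt ℂ (fun w : ι → ℂ => w l) z :=
    (ContinuousLinearMap.proj l : (ι → ℂ) →L[ℂ] ℂ).analyticAt z
  unfold Ch.qm
  split_ifs
  exacts [h.pow ρ, h]

theorem lgs_qm (C : Ch ι X) {N ρ : ℕ} (hρ : ρ ≠ 0) (c : ℕ → ℚ) (z : ι → ℂ) :
    lgs (C.root N ρ) (update c N (c N / ρ)) (C.qm N ρ z) = lgs C c z := by
  refine Finset.sum_congr rfl fun l _ => ?_
  show (if C.lab l = 0 then 0 else _) = _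
  split_ifs with k
  · rfl
  · show ((update c N (c N / ρ) (C.lab l) : ℚ) : ℝ) * Real.log ‖C.qm N ρ z l‖ = _
    unfold Ch.qm
    split_ifs with k'
    · have : (ρ : ℝ) ≠ 0 := Nat.cast_ne_zero.2 hρ
      rw [k', update_self, norm_pow, Real.log_pow]
      push_cast
      field_simp
    · rw [update_of_ne k']

theorem qm_bound (C : Ch ι X) (N ρ : ℕ) {L : Set (ι → ℂ)} (hL : IsCompact L) :
    ∃ M : ℝ, ∀ v ∈ L, ∀ ξ, nsq (fderiv ℂ (C.qm N ρ) v ξ) ≤ M * nsq ξ := by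
  obtain ⟨K, hK⟩ := hL.exists_bound_of_continuousOn (f := fderiv ℂ (C.qm N ρ))
    fun v _ => (qm_an C N ρ v).fderiv.continuousAt.continuousWithinAt
  refine ⟨Fintype.card ι * K ^ 2, fun v hv ξ => ?_⟩
  have h2 : ‖fderiv ℂ (C.qm N ρ) v ξ‖ ≤ K * ‖ξ‖ :=
    (ContinuousLinearMap.le_opNorm _ _).trans
      (mul_le_mul_of_nonneg_right (hK v hv) (norm_nonneg _))
  calc nsq _ ≤ Fintype.card ι * ‖fderiv ℂ (C.qm N ρ) v ξ‖ ^ 2 := nsq_le _
    _ ≤ Fintype.card ι * (K * ‖ξ‖) ^ 2 := by gcongr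
    _ = Fintype.card ι * K ^ 2 * ‖ξ‖ ^ 2 := by ring
    _ ≤ _ := mul_le_mul_of_nonneg_left (norm_sq_le_nsq _) (by positivity)

variable [TopologicalSpace X] {β : Base X} {A A' : At ι X}

/-- **PROOT**, with the coefficients -/
theorem prootC (hA : StRootA) (ok : A.Orb β) {N ρ : ℕ} (hN : N ≠ 0) (hρ : ρ ≠ 0)
    (sy : ∀ a, (A.C a).Sym N ρ) {c : ℕ → ℚ} (h : PosC β A c) :
    PosC β (A.root N ρ) (update c N (c N / ρ)) := by
  obtain ⟨Ψ, δ, L, hδ, hL, hl, ht⟩ := h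
  have R := fun a => hA ι X β (A.C a) N ρ (ok.1.ch a) (ok.2.1 a) (ok.2.2 a) hN hρ (sy a)
  choose M hM using fun a => qm_bound (A.C a) N ρ (hL a).1
  obtain ⟨M0, hM0⟩ := (finite_range M).bddAbove
  have hM1 : 0 < max 1 M0 := lt_max_of_lt_left one_pos
  refine ⟨Ψ, δ / max 1 M0, fun a => (A.C a).qm N ρ '' L a, div_pos hδ hM1, fun a => ⟨?_, ?_⟩,
    fun a u hu hO => ?_, fun x hx => ?_⟩
  · exact (hL a).1.image (continuous_iff_continuousAt.2 fun z => (qm_an _ N ρ z).continuousAt)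
  · rintro _ ⟨v, hv, rfl⟩
    exact ((R a).2.2.2.1 v ((ok.1.ch a).sub ((hL a).2 hv))).1
  · obtain ⟨-, r2, r3, r4, -⟩ := R a
    have hu' : (A.C a).rt N ρ u ∈ (A.C a).U := hu
    obtain ⟨y, hy⟩ := hl a _ ((ok.2.1 a).symm ▸ hu') hO
    refine ⟨y, ?_⟩
    have e : 𝓝[gd β ((A.C a).root N ρ)] u = map ((A.C a).qm N ρ)
        (𝓝[(A.C a).qm N ρ ⁻¹' gd β ((A.C a).root N ρ)] ((A.C a).rt N ρ u)) := by
      rw [nhdsWithin, nhdsWithin, ← comap_principal, Filter.push_pull, r3, r2]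
    have e1 : ∀ᶠ z in 𝓝[(A.C a).qm N ρ ⁻¹' gd β ((A.C a).root N ρ)] ((A.C a).rt N ρ u),
        z ∈ (A.C a).U := nhdsWithin_le_nhds ((ok.1.ch a).isOpen.mem_nhds hu')
    show Tendsto _ (𝓝[gd β ((A.C a).root N ρ)] u) _
    rw [e, tendsto_map'_iff]
    refine (hy.mono_left (le_inf nhdsWithin_le_nhds (le_principal_iff.2 ?_))).congr' ?_
    · filter_upwards [e1, self_mem_nhdsWithin] with z h1 h2
      exact ⟨(ok.2.1 a).symm ▸ h1, (r4 z h1).2 ▸ h2.2⟩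
    · filter_upwards [e1] with z h1
      show _ = Ψ (((A.C a).root N ρ).π _) - 2 * lgs ((A.C a).root N ρ) _ _
      rw [(r4 z h1).2, lgs_qm _ hρ]
  · obtain ⟨m, g, hg, ht⟩ := ht x hx
    refine ⟨m, g, hg, ht.mono fun x' h1 h2 => ?_⟩
    obtain ⟨a, v, hv, rfl, h3⟩ := h1 h2
    obtain ⟨-, -, -, r4, r5, -⟩ := R a
    have hB := (hL a).2 hv
    have hU := (ok.1.ch a).sub hB
    have hs : (A.C a).s N v ≠ 0 := Finset.prod_ne_zero_iff.2 fun l hl h0 =>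
      h2 ((ok.1.ch a).unt v hB ⟨l, (Finset.mem_filter.1 hl).2.symm ▸ hN, h0⟩)
    obtain ⟨G, ar⟩ := r5 v hU hs
    refine ⟨a, _, ⟨v, hv, rfl⟩, (r4 v hU).2, arr_tch ar.symm (r4 v hU).1 hM1 hδ.le
      (fun ξ => ?_) (F := pot Ψ g) h3⟩
    conv_lhs => rw [← arr_left ar.symm ξ]
    exact (hM a v hv _).trans (mul_le_mul_of_nonneg_right
      ((hM0 ⟨a, rfl⟩).trans (le_max_right _ _)) (nsq_nonneg _))

/-- **PROOT** -/
theorem proot (hA : StRootA) (ok : A.Orb β) {N ρ : ℕ} (hN : N ≠ 0) (hρ : ρ ≠ 0)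
    (sy : ∀ a, (A.C a).Sym N ρ) (h : Pos β A) : Pos β (A.root N ρ) := by
  obtain ⟨c, hc, h⟩ := pos_iff.1 h
  refine pos_iff.2 ⟨_, fun j => ?_, prootC hA ok hN hρ sy h⟩
  by_cases k : j = N
  · rw [k, update_self]
    exact div_pos (hc N) (Nat.cast_pos.2 (Nat.pos_of_ne_zero hρ))
  · rw [update_of_ne k]
    exact hc j

theorem Pos.stepsD [T2Space X] (hR : PREF) (hB : PBL) (hBl : StBl) (hA : StRootA) {N₀ : ℕ}
    (s : StepsD β N₀ A A') (h : Pos β A) : Pos β A' := by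
  induction s with
  | refl => exact h
  | tail _ s ih =>
    obtain ⟨ok, s⟩ := s
    cases s with
    | ref r => exact hR _ _ _ _ _ ok.1 r ih
    | bl W _ _ => exact hB _ _ _ _ W ok.1 (hBl _ _ _ _ W ok.1) ih
    | root N ρ _ hN hρ sy => exact proot hA ok hN (by omega) sy ih

end Vale.Agent.P277Z.Pos
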