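import Vale.Agent.P277Z.Pos.MSpec
import Vale.Agent.P277Z.Hir.BSk

/-!
# P277Z, block P: positivity along the steps of the resolution, definitions and statements
-/

set_option linter.dupNamespace false
set_option linter.unusedSectionVars false

open Filter Topology Set Function

noncomputable section

namespace Vale.Agent.P277Z.Pos

open Vale.Agent.P277Z.Hir.Gl
open Vale.Agent.P284Z (Psh)

variable {ι X : Type} [Fintype ι] [DecidableEq ι] [TopologicalSpace X]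

/-- the points of the chart which do not lie over `Z` -/
def gd (β : Base X) (C : Ch ι X) : Set (ι → ℂ) := {z | z ∈ C.B ∧ C.π z ∉ β.Z}

/-- `Σ c j log |s j|` -/
def lgs (C : Ch ι X) (c : ℕ → ℚ) (z : ι → ℂ) : ℝ :=
  ∑ l, if C.lab l = 0 then 0 else (c (C.lab l) : ℝ) * Real.log ‖z l‖

/-- `Ψ - 2 Σ c j log |s j|` extends continuously -/
def Lim (β : Base X) (A : At ι X) (c : ℕ → ℚ) (Ψ : X → ℝ) : Prop :=
  ∀ a, ∀ u ∈ (A.C a).B, (A.C a).π u ∈ β.O → ∃ y : ℝ,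
    Tendsto (fun z => Ψ ((A.C a).π z) - 2 * lgs (A.C a) c z) (𝓝[gd β (A.C a)] u) (𝓝 y)

/-- the function `Ψ + Σ |g k|²` on the base -/
def pot (Ψ : X → ℝ) {m : ℕ} (g : Fin m → X → ℂ) (x : X) : ℝ := Ψ x + nsq fun k => g k x

/-- strict plurisubharmonicity at one point of `L` over every point -/
def TchE (β : Base X) (A : At ι X) (L : A.κ → Set (ι → ℂ)) (Ψ : X → ℝ) (δ : ℝ) : Prop :=
  ∀ x ∈ β.O, ∃ (m : ℕ) (g : Fin m → X → ℂ), (∀ k, β.Hol (g k) x) ∧ ∀ᶠ x' in 𝓝 x, x' ∉ β.Z →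
    ∃ a, ∃ v ∈ L a, (A.C a).π v = x' ∧
      Tch (fun z => pot Ψ g ((A.C a).π z)) (A.C a).B v fun ξ => δ * nsq ξ

/-- strict plurisubharmonicity at all the points of `L` -/
def TchA (β : Base X) (A : At ι X) (L : A.κ → Set (ι → ℂ)) (Ψ : X → ℝ) (δ : ℝ) : Prop :=
  ∀ x ∈ β.O, ∃ (m : ℕ) (g : Fin m → X → ℂ), (∀ k, β.Hol (g k) x) ∧ ∀ᶠ x' in 𝓝 x, x' ∉ β.Z →
    ∀ a, ∀ v ∈ L a, (A.C a).π v = x' →
      Tch (fun z => pot Ψ g ((A.C a).π z)) (A.C a).B v fun ξ => δ * nsq ξ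

/-- `- Σ c j E j` is positive relative to the base -/
def Pos (β : Base X) (A : At ι X) : Prop :=
  ∃ (c : ℕ → ℚ) (Ψ : X → ℝ) (δ : ℝ) (L : A.κ → Set (ι → ℂ)), (∀ j, 0 < c j) ∧ 0 < δ ∧
    (∀ a, IsCompact (L a) ∧ L a ⊆ (A.C a).B) ∧ Lim β A c Ψ ∧ TchE β A L Ψ δ

/-- uniform bounds for the arrows between the points of `L` and `L'` -/
def UA (β : Base X) (C : Ch ι X) (L : Set (ι → ℂ)) (C' : Ch ι X) (L' : Set (ι → ℂ)) (j : ℕ)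
    (M : ℝ) : Prop :=
  ∀ v ∈ L, ∀ v' ∈ L', C.π v ∉ β.Z → C'.π v' = C.π v → ∃ Φ Ψ, Arr C v C' v' Φ Ψ ∧
    (∀ ξ, nsq ξ ≤ M * nsq (fderiv ℂ Φ v ξ)) ∧ ‖C.s j v‖ ≤ M * ‖C'.s j v'‖

/-- **CMP** -/
def CMP : Prop :=
  ∀ (ι X : Type) [Fintype ι] [DecidableEq ι] [TopologicalSpace X] (β : Base X) (A : At ι X)
    (L L' : A.κ → Set (ι → ℂ)) (j : ℕ), A.Ok β → j ≠ 0 →
    (∀ a, IsCompact (L a) ∧ L a ⊆ (A.C a).B) → (∀ a, IsCompact (L' a) ∧ L' a ⊆ (A.C a).B) →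
    ∃ M : ℝ, 1 ≤ M ∧ ∀ a b, UA β (A.C a) (L a) (A.C b) (L' b) j M

/-- **ALL**: from one point to all points -/
def ALL : Prop :=
  ∀ (ι X : Type) [Fintype ι] [DecidableEq ι] [TopologicalSpace X] (β : Base X) (A : At ι X)
    (L L' : A.κ → Set (ι → ℂ)) (Ψ : X → ℝ) (δ : ℝ), A.Ok β → 0 < δ →
    (∀ a, IsCompact (L a) ∧ L a ⊆ (A.C a).B) → (∀ a, IsCompact (L' a) ∧ L' a ⊆ (A.C a).B) →
    TchE β A L Ψ δ → ∃ δ' : ℝ, 0 < δ' ∧ TchA β A L' Ψ δ'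

/-- **PREF** -/
def PREF : Prop :=
  ∀ (ι X : Type) [Fintype ι] [DecidableEq ι] [TopologicalSpace X] (β : Base X) (A A' : At ι X),
    A.Ok β → Ref A A' → Pos β A → Pos β A'

/-- **PBL** -/
def PBL : Prop :=
  ∀ (ι X : Type) [Fintype ι] [DecidableEq ι] [TopologicalSpace X] [T2Space X] (β : Base X)
    (A : At ι X) (W : Wt β A), A.Ok β → W.bl.Ok β → Pos β A → Pos β W.bl

/-- **PRES** -/
def PRES : Prop :=
  ∀ (ι ι' X : Type) [Fintype ι] [DecidableEq ι] [Fintype ι'] [DecidableEq ι'] [TopologicalSpace X]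
    (β : Base X) (A : At ι X) (e : A.κ → ι' → ι), A.Ok β → (∀ a, (A.C a).Flat (e a)) →
    Pos β A → Pos β (A.res e)

/-- **PINIT**: no labels, and the coordinates are holomorphic functions on the base -/
def PINIT : Prop :=
  ∀ (ι X : Type) [Fintype ι] [DecidableEq ι] [TopologicalSpace X] (β : Base X) (A : At ι X)
    (L : A.κ → Set (ι → ℂ)), (∀ a l, (A.C a).lab l = 0) →
    (∀ a, IsCompact (L a) ∧ L a ⊆ (A.C a).B) →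
    (∀ x ∈ β.O, ∃ (a : A.κ) (g : ι → X → ℂ), (∀ l, β.Hol (g l) x) ∧ ∀ᶠ x' in 𝓝 x, ∃ v ∈ L a,
      (A.C a).π v = x' ∧ ∀ᶠ z in 𝓝[(A.C a).B] v, ∀ l, g l ((A.C a).π z) = z l) → Pos β A

/-- **POUT**: the output, chart by chart -/
def POUT : Prop :=
  ∀ (n : ℕ) (X : Type) [TopologicalSpace X] (β : Base X) (A : At (Fin n) X), A.Ok β → A.Full →
    (∀ a, ∀ u ∈ (A.C a).U, (A.C a).π u ∈ β.O → ∃ F : (Fin n → ℂ) → ℂ, AnalyticAt ℂ F u ∧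
      (¬ ∀ᶠ z in 𝓝 u, F z = 0) ∧ ∀ᶠ z in 𝓝 u, (A.C a).π z ∈ β.Z → F z = 0) → Pos β A →
    ∃ (c : ℕ → ℚ) (Ψ : X → ℝ), (∀ j, 0 < c j) ∧ ∀ a, ∀ u ∈ (A.C a).U, (A.C a).π u ∈ β.O →
      ∃ (m : ℕ) (g : Fin m → X → ℂ) (ε : ℝ) (U : Set (Fin n → ℂ)) (h : (Fin n → ℂ) → ℝ),
        (∀ k, β.Hol (g k) ((A.C a).π u)) ∧ 0 < ε ∧ IsOpen U ∧ u ∈ U ∧ U ⊆ (A.C a).U ∧
        ContinuousOn h U ∧ Psh (fun z => h z - ε * ∑ i, ‖z i‖ ^ 2) U ∧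
        ∀ z ∈ U, (A.C a).π z ∉ β.Z → h z = Ψ ((A.C a).π z) + ∑ k, ‖g k ((A.C a).π z)‖ ^ 2 -
          2 * lgs (A.C a) c z

theorem Pos.withF {β : Base X} {A : At ι X} (h : Pos β A) (m : A.κ → ℕ)
    (F : ∀ a, Fin (m a) → (ι → ℂ) → ℂ) : Pos β (A.withF m F) := h

theorem Pos.mono {β β' : Base X} {A : At ι X} (h : Pos β A) (h1 : β'.Hol = β.Hol)
    (h2 : β'.Z = β.Z) (h3 : β'.O ⊆ β.O) : Pos β' A := by
  obtain ⟨c, Ψ, δ, L, a1, a2, a3, a4, a5⟩ := h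
  refine ⟨c, Ψ, δ, L, a1, a2, a3, fun a u hu hO => ?_, fun x hx => ?_⟩
  · simpa only [gd, h2] using a4 a u hu (h3 hO)
  · simpa only [h1, h2] using a5 x (h3 hx)

theorem Pos.steps [T2Space X] (hR : PREF) (hB : PBL) (hBl : StBl) {β : Base X} {A A' : At ι X}
    (s : Steps β A A') (h : Pos β A) : Pos β A' := by
  induction s with
  | refl => exact h
  | tail _ s ih =>
    obtain ⟨ok, s⟩ := s
    cases s with
    | ref r => exact hR _ _ _ _ _ ok r ih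
    | bl W => exact hB _ _ _ _ W ok (hBl _ _ _ _ W ok) ih

end Vale.Agent.P277Z.Pos
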