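import Vale.Agent.P277Z.Pos.All
import Vale.Agent.P277Z.Pos.Rb
import Vale.Agent.P277Z.Pos.Tch
import Vale.Agent.P277.H60.Z.XH

/-!
# P277Z, block P: relative ampleness from singular potentials
-/

open scoped Manifold ContDiff ComplexOrder Topology
open Filter Set

noncomputable section

namespace Vale.Agent.P277Z.Pos

open Vale.Agent.P272.K Vale.Agent.P301.H599
open Vale.Agent.P285.H281.FD (Bd IsLB)
open Vale.Agent.P277 (CSp RelAmple hol_eventually)
open Vale.Agent.P277.PH (HolF ev_symm at_chartAt holF_of)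
open Vale.Agent.P277.H60.Z (XH)
open Vale.Agent.P284Z (Psh levi psh_of_levi)

variable {d : ℕ} {Y : Type} [TopologicalSpace Y] [ChartedSpace (Cm d) Y] {u u' : Y → ℝ} {y : Y}

namespace SPshAt

theorem congr (h : SPshAt d u y) (e : ∀ᶠ x in 𝓝 y, u' x = u x) : SPshAt d u' y := by
  obtain ⟨c, hc, δ, hδ, N, hN, h1, h2⟩ := h
  exact ⟨c, hc, δ, hδ, _, inter_mem hN (ev_symm hc.2 e), (h1.mono inter_subset_left).congr
    fun z hz => hz.2, (h2.mono inter_subset_left).congr fun z hz => congrArg (· - _) hz.2⟩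

theorem ev (h : SPshAt d u y) : ∀ᶠ x in 𝓝 y, SPshAt d u x := by
  obtain ⟨c, hc, δ, hδ, N, hN, h1, h2⟩ := h
  filter_upwards [(c.continuousAt hc.2).eventually (eventually_mem_nhds_iff.2 hN),
    c.open_source.mem_nhds hc.2] with x a b using ⟨c, ⟨hc.1, b⟩, δ, hδ, N, a, h1, h2⟩

theorem cont (h : SPshAt d u y) : ContinuousAt u y := by
  obtain ⟨e, he, δ, _, N, hN, h1, _⟩ := h
  refine ((h1.continuousAt hN).comp (e.continuousAt he.2)).congr ?_
  filter_upwards [e.open_source.mem_nhds he.2] with x hx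
  simp [e.left_inv hx]

theorem add (h : SPshAt d u y) (h' : ∀ e : Chart d Y, At e y → ∀ᶠ z in 𝓝 (e y),
    ContDiffAt ℝ 2 (fun z => u' (e.symm z)) z ∧ ∀ w, 0 ≤ levi (fun z => u' (e.symm z)) z w) :
    SPshAt d (fun x => u x + u' x) y := by
  obtain ⟨c, hc, δ, hδ, N, hN, h1, h2⟩ := h
  obtain ⟨M, hM, k⟩ := eventually_iff_exists_mem.1 (h' c hc)
  have a : ContinuousOn (fun z => u' (c.symm z)) (N ∩ M) :=
    fun z hz => (k z hz.2).1.continuousAt.continuousWithinAt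
  refine ⟨c, hc, δ, hδ, _, inter_mem hN hM, (h1.mono inter_subset_left).add a,
    ((h2.mono inter_subset_left).add (psh_of_levi fun z hz => k z hz.2) (.of_cont
      ((h1.mono inter_subset_left).sub (continuous_nsq.const_mul δ).continuousOn))
      (.of_cont a)).congr fun z _ => by ring⟩

theorem add_sq {κ : Type} [Fintype κ] {F : Y → κ → ℂ} (h : SPshAt d u y)
    (hF : ∀ k, HolF d (fun x => F x k) y) : SPshAt d (fun x => u x + nsq (F x)) y :=
  h.add fun e he => (analyticAt_pi_iff.2 fun k => hF k e he :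
    AnalyticAt ℂ (fun z => F (e.symm z)) _).eventually_analyticAt.mono fun z hz =>
      ⟨contDiff_nsq.contDiffAt.comp z (c2_of_an hz), fun w => by
        rw [levi_nsq_comp hz]
        exact mul_nonneg zero_le_four (nsq_nonneg _)⟩

theorem add_log {F : Y → ℂ} (h : SPshAt d u y) (hF : HolF d F y) (h0 : F y ≠ 0) :
    SPshAt d (fun x => u x + Real.log (‖F x‖ ^ 2)) y := by
  have a : SPshAt d (fun x => u x + Real.log ‖F x‖ + Real.log ‖F x‖) y := by
    have b := fun (e : Chart d Y) (he : At e y) => ((hF e he).eventually_analyticAt.and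
      ((hF e he).continuousAt.eventually_ne (by rwa [e.left_inv he.2]))).mono fun z hz =>
        (⟨(log_norm_c2 hz.1 hz.2).1, fun w => ((log_norm_c2 hz.1 hz.2).2 w).ge⟩ : _ ∧ _)
    exact (h.add b).add b
  exact a.congr (.of_forall fun x => by rw [Real.log_pow]; push_cast; ring)

theorem of_psh {U : Set (Cm d)} {h : Cm d → ℝ} {ε t : ℝ} {e : Chart d Y} (he : At e y) (hε : 0 < ε)
    (ht : 0 < t) (hU : U ∈ 𝓝 (e y)) (h1 : ContinuousOn h U)
    (h2 : Psh (fun z => h z - ε * ∑ i, ‖z i‖ ^ 2) U) : SPshAt d (fun x => t * h (e x)) y :=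
  ⟨e, he, t * ε, mul_pos ht hε, _, inter_mem hU (e.open_target.mem_nhds (e.map_source he.2)),
    ((h1.mono inter_subset_left).const_mul t).congr fun z hz => by
      simp only [e.right_inv hz.2], ((h2.mono inter_subset_left).const_mul ht.le).congr
        fun z hz => by simp only [e.right_inv hz.2, nsq]; ring⟩

end SPshAt

theorem flat_log {F : Y → ℂ} (hF : HolF d F y) (h0 : F y ≠ 0)
    (h : ∀ᶠ x in 𝓝 y, u x = Real.log (‖F x‖ ^ 2)) : FlatAt d u y := fun e he => by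
  have h1 : (fun z => u (e.symm z)) =ᶠ[𝓝 (e y)] fun z => Real.log (‖F (e.symm z)‖ ^ 2) :=
    ev_symm he.2 h
  have h2 : F (e.symm (e y)) ≠ 0 := by rwa [e.left_inv he.2]
  refine ⟨ContDiffAt.congr_of_eventuallyEq ?_ h1, ?_⟩
  · exact (((hF e he).restrictScalars (𝕜 := ℝ)).contDiffAt.norm_sq ℝ).log
      (pow_ne_zero 2 (norm_ne_zero_iff.2 h2))
  · rw [cHess_congr h1]
    exact cHess_log_norm_sq (hF e he).contDiffAt h2

theorem holF_cont {F : Y → ℂ} (h : HolF d F y) : ContinuousAt F y := by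
  have he := at_chartAt (n := d) y
  refine ((h _ he).continuousAt.comp ((chartAt (Cm d) y).continuousAt he.2)).congr ?_
  filter_upwards [(chartAt (Cm d) y).open_source.mem_nhds he.2] with x hx
    using congrArg F ((chartAt (Cm d) y).left_inv hx)

/-- the continuous extension from a dense set -/
theorem lim_eq {E : Set Y} (hE : Dense Eᶜ) {w f : Y → ℝ} (hf : ContinuousAt f y)
    (h : ∀ᶠ x in 𝓝 y, x ∉ E → f x = w x) : limUnder (𝓝[Eᶜ] y) w = f y :=
  have : (𝓝[Eᶜ] y).NeBot := mem_closure_iff_nhdsWithin_neBot.1 (hE y)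
  Tendsto.limUnder_eq (f := 𝓝[Eᶜ] y)
    ((hf.tendsto.mono_left nhdsWithin_le_nhds).congr' (eventually_nhdsWithin_iff.2 h))

variable [T2Space Y] [CompactSpace Y] [IsManifold 𝓘(ℂ, Cm d) ω Y]

/-- `w` is a singular metric on `P` which is positive up to functions from the base -/
theorem amp_of {X : CSp} {p : Y → X.pt} (hp : Continuous p)
    (hh : ∀ y g, X.Hol g (p y) → HolF d (fun y => g (p y)) y) {P : Bd Y} (hP : IsLB d P)
    {E : Set Y} (hE : Dense Eᶜ) (w : P.ι → Y → ℝ)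
    (chg : ∀ i j, ∀ y ∉ E, y ∈ P.U i → y ∈ P.U j → w i y = w j y + Real.log (‖P.g i j y‖ ^ 2))
    (pos : ∀ y, ∃ (i : P.ι) (φ : Y → ℝ) (m : ℕ) (g : Fin m → X.pt → ℂ), y ∈ P.U i ∧
      SPshAt d φ y ∧ (∀ k, X.Hol (g k) (p y)) ∧
      ∀ᶠ y' in 𝓝 y, y' ∉ E → φ y' = w i y' + ∑ k, ‖g k (p y')‖ ^ 2) :
    RelAmple (XH d Y) X p P := by
  classical
  have hg : ∀ i j y, y ∈ P.U i → y ∈ P.U j → HolF d (P.g i j) y :=
    fun i j y hi hj e he => (hP.holo i j e y he hi hj).analyticAt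
  let L : LineBundle d Y P.ι := ⟨P.U, hP.isOpen, hP.cover, P.g,
    fun i j e y he hi hj => hg i j y hi hj e he, hP.ne_zero, hP.cocycle⟩
  refine kodA d Y (XH d Y) X id p P L ⟨continuous_id, Function.bijective_id, IsOpenMap.id,
    fun _ _ => Iff.rfl⟩ hp (fun y g => hh y g) (fun _ => rfl) (fun _ _ _ => rfl) fun x => ?_
  choose i φ m g h1 h2 h3 h4 using pos
  have hK : IsCompact (p ⁻¹' {x}) := (isClosed_singleton.preimage hp).isCompact
  let Q : Y → Set Y := fun a => {y | y ∈ P.U (i a) ∧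
    SPshAt d (φ a) y ∧ (y ∉ E → φ a y = w (i a) y + ∑ k, ‖g a k (p y)‖ ^ 2)}
  obtain ⟨T, t1, t2⟩ := hK.elim_nhds_subcover (fun a => interior (Q a)) fun a _ =>
      interior_mem_nhds.2 (((hP.isOpen _).eventually_mem (h1 a)).and ((h2 a).ev.and (h4 a)))
  let V : Set Y := (⋃ a ∈ T, interior (Q a)) ∩
    p ⁻¹' interior {z | ∀ a ∈ T, ∀ k, X.Hol (g a k) z}
  have hV : IsOpen V := (isOpen_biUnion fun _ _ => isOpen_interior).inter
    (isOpen_interior.preimage hp)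
  have hKV : p ⁻¹' {x} ⊆ V := fun y hy => ⟨t2 hy, mem_interior_iff_mem_nhds.2
    ((T.eventually_all).2 fun a ha => eventually_all.2 fun k =>
      hol_eventually ((show p a = p y from (t1 a ha).trans hy.symm) ▸ h3 a k))⟩
  let ψ : P.ι → Y → ℝ := fun j y => limUnder (𝓝[Eᶜ] y) (w j)
  have key : ∀ a ∈ T, ∀ j, ∀ y ∈ V, y ∈ P.U j → y ∈ interior (Q a) →
      ψ j y = φ a y + Real.log (‖P.g j (i a) y‖ ^ 2) - ∑ k, ‖g a k (p y)‖ ^ 2 := by
    intro a ha j y hy hj b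
    have b' := interior_subset b
    refine lim_eq hE (f := fun y => φ a y + Real.log (‖P.g j (i a) y‖ ^ 2) -
      ∑ k, ‖g a k (p y)‖ ^ 2) ((b'.2.1.cont.add (((holF_cont (hg _ _ y hj b'.1)).norm.pow 2).log
        (pow_ne_zero 2 (norm_ne_zero_iff.2 (hP.ne_zero _ _ y hj b'.1))))).sub
          (tendsto_finsetSum _ fun k _ =>
            (holF_cont (hh y _ (interior_subset hy.2 a ha k))).norm.pow 2)) ?_
    filter_upwards [mem_interior_iff_mem_nhds.1 b, (hP.isOpen j).mem_nhds hj] with z c1 c2 c3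
    rw [c1.2.2 c3, chg j (i a) z c3 c2 c1.1]
    ring
  have hc : ∀ j l, ∀ y ∈ V, y ∈ P.U j → y ∈ P.U l →
      ψ j y = ψ l y + Real.log (‖P.g j l y‖ ^ 2) := fun j l y hy hj hl => by
    obtain ⟨a, ha, b⟩ := mem_iUnion₂.1 hy.1
    have b' := (interior_subset b).1
    rw [key a ha j y hy hj b, key a ha l y hy hl b, ← hP.cocycle j l _ y hj hl b', norm_mul,
      mul_pow, Real.log_mul (pow_ne_zero 2 (norm_ne_zero_iff.2 (hP.ne_zero _ _ y hj hl)))
        (pow_ne_zero 2 (norm_ne_zero_iff.2 (hP.ne_zero _ _ y hl b')))]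
    ring
  obtain ⟨γ, O, o1, o2, o3⟩ := rb d Y P.ι (fun j => P.U j ∩ V)
    (fun j y => ψ j y + ∑ a ∈ T, ∑ k, ‖g a k (p y)‖ ^ 2) _ hK (fun j => (hP.isOpen j).inter hV)
    (fun y hy => mem_iUnion.2 ((hP.cover y).imp fun _ c => ⟨c, hKV hy⟩)) (fun j y hy => by
      obtain ⟨a, ha, b⟩ := mem_iUnion₂.1 hy.2.1
      have b' := interior_subset b
      refine ((b'.2.1.add_log (hg _ _ y hy.1 b'.1) (hP.ne_zero _ _ y hy.1 b'.1)).add_sq
        (κ := Σ c : T.erase a, Fin (m c)) (F := fun y c => g c.1 c.2 (p y)) fun c => hh y _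
          (interior_subset hy.2.2 _ (Finset.mem_of_mem_erase c.1.2) _)).congr ?_
      filter_upwards [isOpen_interior.mem_nhds b, ((hP.isOpen j).inter hV).mem_nhds hy]
        with z c1 c2
      rw [key a ha j z c2.2 c2.1 c1, ← Finset.add_sum_erase T _ ha, nsq, Fintype.sum_sigma,
        Finset.sum_coe_sort (T.erase a) fun c => ∑ k, ‖g c k (p z)‖ ^ 2]
      ring) fun j l y hj hl => flat_log (hg j l y hj.1 hl.1) (hP.ne_zero j l y hj.1 hl.1) (by
      filter_upwards [((hP.isOpen j).inter hV).mem_nhds hj, (hP.isOpen l).mem_nhds hl.1]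
        with z c1 c2
      rw [hc j l z c1.2 c1.1 c2]
      ring)
  have hO : ∀ y, p y ∈ (p '' (O ∩ V)ᶜ)ᶜ → y ∈ O ∩ V := fun y hy => by_contra fun k => hy ⟨y, k, rfl⟩
  exact ⟨(p '' (O ∩ V)ᶜ)ᶜ, fun j y => ψ j y + ∑ a ∈ T, ∑ k, ‖g a k (p y)‖ ^ 2 + γ y,
    ((o1.inter hV).isClosed_compl.isCompact.image hp).isClosed.isOpen_compl,
    fun ⟨y, a, b⟩ => a ⟨o2 b, hKV b⟩, fun j y hy hj => o3 j y (hO y hy).1 ⟨hj, (hO y hy).2⟩,
    fun j l y hy hj hl => by rw [hc j l y (hO y hy).2 hj hl]; ring⟩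

/-- the same for the dual of the bundle of a divisor with the canonical section `τ` -/
theorem amp_pot {X : CSp} {p : Y → X.pt} (hp : Continuous p)
    (hh : ∀ y g, X.Hol g (p y) → HolF d (fun y => g (p y)) y) {P : Bd Y} (hP : IsLB d P)
    (τ : P.ι → Y → ℂ) (chg : ∀ i j y, y ∈ P.U i → y ∈ P.U j → τ j y = P.g i j y * τ i y)
    {E : Set Y} (hE : Dense Eᶜ) (ne : ∀ i, ∀ y ∉ E, y ∈ P.U i → τ i y ≠ 0) (v : Y → ℝ) {N : ℝ}
    (hN : 0 < N) (pos : ∀ y, ∃ (i : P.ι) (m : ℕ) (g : Fin m → X.pt → ℂ) (ε : ℝ) (U : Set (Cm d))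
      (h : Cm d → ℝ) (u : Y → ℂ), y ∈ P.U i ∧ (∀ k, X.Hol (g k) (p y)) ∧ 0 < ε ∧ IsOpen U ∧
      chartAt (Cm d) y y ∈ U ∧ ContinuousOn h U ∧ Psh (fun z => h z - ε * ∑ i, ‖z i‖ ^ 2) U ∧
      HolF d u y ∧ u y ≠ 0 ∧ ∀ᶠ y' in 𝓝 y, y' ∉ E → N * h (chartAt (Cm d) y y') =
        N * (v y' + ∑ k, ‖g k (p y')‖ ^ 2) - Real.log (‖τ i y' / u y'‖ ^ 2)) :
    RelAmple (XH d Y) X p P := by
  refine amp_of hp hh hP hE (fun i y => N * v y - Real.log (‖τ i y‖ ^ 2)) (fun i j y a b c => ?_)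
    fun y => ?_
  · rw [chg i j y b c, norm_mul, mul_pow, Real.log_mul (pow_ne_zero 2 (norm_ne_zero_iff.2
      (hP.ne_zero i j y b c))) (pow_ne_zero 2 (norm_ne_zero_iff.2 (ne i y a b)))]
    ring
  · obtain ⟨i, m, g, ε, U, h, u, a1, a2, a3, a4, a5, a6, a7, a8, a9, a10⟩ := pos y
    refine ⟨i, _, m, fun k x => (√N : ℝ) * g k x, a1, (SPshAt.of_psh (at_chartAt y) a3 hN
      (a4.mem_nhds a5) a6 a7).add_log (F := fun x => (u x)⁻¹) (fun e he => (a8 e he).inv
        (by rwa [e.left_inv he.2])) (inv_ne_zero a9),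
      fun k => P277.hol_mul (P277.hol_const _ _) (a2 k), ?_⟩
    filter_upwards [a10, (holF_cont a8).eventually_ne a9, (hP.isOpen i).mem_nhds a1]
      with z b1 b2 b3 b4
    have b5 := norm_ne_zero_iff.2 (ne i z b4 b3)
    have b6 := norm_ne_zero_iff.2 b2
    simp only [b1 b4, norm_mul, mul_pow, Complex.norm_real, Real.norm_eq_abs, sq_abs,
      Real.sq_sqrt hN.le, ← Finset.mul_sum, norm_div, norm_inv, Real.log_pow, Real.log_inv,
      Real.log_div b5 b6]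
    ring

end Vale.Agent.P277Z.Pos
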