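import Vale.Agent.P277Z.Pos.Defs
import Vale.Agent.P277Z.Pos.Tch

/-!
# P277Z, block P: the slices of a weighted blow-up
-/

set_option linter.unusedSectionVars false

open Filter Topology Set Function Metric

noncomputable section

namespace Vale.Agent.P277Z.Pos.Bl

open Vale.Agent.P277Z.Hir.Gl
open Vale.Agent.P277Z.Hir.L (sl)

variable {ι X : Type} [Fintype ι] [DecidableEq ι] [TopologicalSpace X]

theorem an_crd (l : ι) (z : ι → ℂ) : AnalyticAt ℂ (fun y : ι → ℂ => y l) z :=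
  (ContinuousLinearMap.proj (R := ℂ) (φ := fun _ : ι => ℂ) l).analyticAt z

theorem an_σ (w : ι → ℕ) (o : Option ι) (z : ι → ℂ) : AnalyticAt ℂ (σo w o) z := by
  cases o with
  | none => exact analyticAt_id
  | some i =>
    refine AnalyticAt.pi fun m => ?_
    by_cases h : m = i
    · simp only [σo, sl, if_pos h]
      exact (an_crd i z).pow _
    · simp only [σo, sl, if_neg h]
      exact ((an_crd i z).pow _).mul (an_crd m z)

theorem cont_σ (w : ι → ℕ) (o : Option ι) : Continuous (σo w o) :=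
  continuous_iff_continuousAt.2 fun z => (an_σ w o z).continuousAt

theorem an_so (o : Option ι) (z : ι → ℂ) : AnalyticAt ℂ (so o) z := by
  cases o with
  | none => exact analyticAt_const
  | some i => exact an_crd i z

theorem so_le (o : Option ι) (z : ι → ℂ) : ‖so o z‖ ≤ nsq z + 1 := by
  cases o with
  | none => simpa [so] using nsq_nonneg z
  | some i =>
    have := sq_le_nsq z i
    change ‖z i‖ ≤ _
    nlinarith [sq_nonneg (‖z i‖ - 1)]

theorem exists_slice (w : ι → ℕ) (v : ι → ℂ) {l₀ : ι} (h1 : w l₀ ≠ 0) (h2 : v l₀ ≠ 0) :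
    ∃ i z, w i ≠ 0 ∧ sl w i z = v ∧ z i ≠ 0 ∧ (∀ l, w l ≠ 0 → l ≠ i → ‖z l‖ ≤ 1) ∧
      ‖v l₀‖ ≤ ‖z i‖ ^ w l₀ := by
  have e : ∀ l, ∃ t : ℂ, w l ≠ 0 → t ^ w l = v l := fun l => by
    by_cases h : w l = 0
    · exact ⟨0, fun k => (k h).elim⟩
    · exact (IsAlgClosed.exists_pow_nat_eq (v l) (Nat.pos_of_ne_zero h)).imp fun _ k _ => k
  choose t ht using e
  obtain ⟨i, hi, hm⟩ := (Finset.univ.filter fun l => w l ≠ 0).exists_max_image (fun l => ‖t l‖)
    ⟨l₀, by simpa using h1⟩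
  have hi' : w i ≠ 0 := by simpa using hi
  have b : ∀ l, w l ≠ 0 → ‖v l‖ ≤ ‖t i‖ ^ w l := fun l hl => by
    rw [← ht l hl, norm_pow]
    exact pow_le_pow_left₀ (norm_nonneg _) (hm l (by simpa using hl)) _
  have t0 : t i ≠ 0 := fun h => by
    have := b l₀ h1
    rw [h, norm_zero, zero_pow h1] at this
    exact h2 (norm_le_zero_iff.1 this)
  refine ⟨i, fun l => if l = i then t i else v l / t i ^ w l, hi', funext fun m => ?_,
    by simpa using t0, fun l hl hl' => ?_, by simpa using b l₀ h1⟩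
  · by_cases h : m = i
    · subst h
      simp [sl, ht m hi']
    · simp only [sl, if_neg h, if_true]
      field_simp
  · simp only [if_neg hl', norm_div, norm_pow]
    exact div_le_one_of_le₀ (b l hl) (by positivity)

theorem ult_fin {α κ : Type} [Finite κ] (𝒰 : Ultrafilter α) {P : κ → α → Prop}
    (h : ∀ᶠ z in (𝒰 : Filter α), ∃ k, P k z) : ∃ k, ∀ᶠ z in (𝒰 : Filter α), P k z := by
  by_contra hc
  obtain ⟨z, ⟨k, h1⟩, h2⟩ := (h.and (eventually_all.2 fun k =>
    Ultrafilter.eventually_not.2 fun h' => hc ⟨k, h'⟩)).exists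
  exact h2 k h1

theorem exists_lim {α : Type} {𝓕 : Filter α} {f : α → ℝ}
    (h : ∀ 𝒰 : Ultrafilter α, (𝒰 : Filter α) ≤ 𝓕 →
      ∃ y, Tendsto f 𝒰 (𝓝 y) ∧ ∀ t < y, ∀ᶠ z in 𝓕, t < f z) : ∃ y, Tendsto f 𝓕 (𝓝 y) := by
  rcases 𝓕.eq_or_neBot with rfl | hn
  · exact ⟨0, tendsto_bot⟩
  have key : ∀ {𝒰 : Ultrafilter α} {y y' : ℝ}, (𝒰 : Filter α) ≤ 𝓕 → Tendsto f 𝒰 (𝓝 y) →
      (∀ t < y', ∀ᶠ z in 𝓕, t < f z) → y' ≤ y := fun h1 h2 h3 =>
    le_of_forall_lt_imp_le_of_dense fun t ht =>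
      ge_of_tendsto h2 (((h3 t ht).filter_mono h1).mono fun _ k => k.le)
  obtain ⟨y, a1, a2⟩ := h (Ultrafilter.of 𝓕) (Ultrafilter.of_le 𝓕)
  refine ⟨y, (tendsto_iff_ultrafilter _ _ _).2 fun 𝒰 hU => ?_⟩
  obtain ⟨y', b1, b2⟩ := h 𝒰 hU
  rwa [le_antisymm (key hU b1 a2) (key (Ultrafilter.of_le 𝓕) a1 b2)]

variable {β : Base X} {A : At ι X} (W : Wt β A)

/-- the blow-up map of the chart `p` -/
abbrev σ (p : W.bl.κ) : (ι → ℂ) → ι → ℂ := σo (W.w p.1.1) p.1.2

variable {W}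

theorem mem_B (hA : A.Ok β) {p : W.bl.κ} {z : ι → ℂ} (hz : z ∈ (W.bl.C p).B) :
    σ W p z ∈ (A.C p.1.1).B :=
  (hA.ch _).closed _ hz.1 (map_mem_closure (cont_σ _ _) hz.2 fun _ h => h.1)

theorem s_eq (p : W.bl.κ) (z : ι → ℂ) : (W.bl.C p).s W.N z = so p.1.2 z := by
  obtain ⟨⟨a, o⟩, h⟩ := p
  cases o with
  | none =>
    refine Finset.prod_eq_one fun l hl => ?_
    exact (W.new a l (Finset.mem_filter.1 hl).2).elim
  | some i =>
    refine Finset.prod_eq_single_of_mem i (Finset.mem_filter.2 ⟨Finset.mem_univ _, ?_⟩)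
      fun l hl h' => ?_
    · exact update_self _ _ _
    · exact (W.new a l ((update_of_ne h' _ _).symm.trans (Finset.mem_filter.1 hl).2)).elim

theorem ne_zero {C : Ch ι X} (h : C.Ok β) {z : ι → ℂ} (hz : z ∈ gd β C) {l : ι}
    (hl : C.lab l ≠ 0) : z l ≠ 0 := fun k => hz.2 (h.unt z hz.1 ⟨l, hl, k⟩)

theorem so_ne (hB : W.bl.Ok β) {p : W.bl.κ} {z : ι → ℂ} (hz : z ∈ gd β (W.bl.C p)) :
    so p.1.2 z ≠ 0 := by
  obtain ⟨⟨a, o⟩, h⟩ := p
  cases o with
  | none => exact one_ne_zero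
  | some i => exact ne_zero (hB.ch _) hz (l := i) ((update_self _ _ _).trans_ne W.pos)

variable (W) in
theorem exists_mu (c : ℕ → ℚ) (hc : ∀ j, 0 ≤ c j) : ∃ μ : ℚ, 0 ≤ μ ∧ ∀ a, W.w a ≠ 0 →
    ∑ l, (if (A.C a).lab l = 0 then 0 else c ((A.C a).lab l) * W.w a l) = μ := by
  have key : ∀ (a) (J : Finset ℕ), W.w a ≠ 0 → (∀ l, (A.C a).lab l ∈ J) →
      ∑ l, (if (A.C a).lab l = 0 then 0 else c ((A.C a).lab l) * W.w a l) =
        ∑ j ∈ J, if j = 0 then 0 else c j * W.m j := fun a J ha hJ => by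
    rw [← Finset.sum_fiberwise_of_maps_to (g := (A.C a).lab) (t := J) fun l _ => hJ l]
    refine Finset.sum_congr rfl fun j _ => ?_
    by_cases h : j = 0
    · rw [if_pos h]
      exact Finset.sum_eq_zero fun l hl => if_pos ((Finset.mem_filter.1 hl).2.trans h)
    · rw [if_neg h, ← W.hm a ha j h, Nat.cast_sum, Finset.mul_sum]
      refine Finset.sum_congr rfl fun l hl => ?_
      rw [(Finset.mem_filter.1 hl).2, if_neg h]
  by_cases h : ∃ a, W.w a ≠ 0
  · obtain ⟨a, ha⟩ := h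
    refine ⟨_, Finset.sum_nonneg fun l _ => ?_, fun b hb => (key b
      (Finset.univ.image (A.C a).lab ∪ Finset.univ.image (A.C b).lab) hb (by simp)).trans
        (key a _ ha (by simp)).symm⟩
    split_ifs
    · rfl
    · exact mul_nonneg (hc _) (Nat.cast_nonneg _)
  · exact ⟨0, le_rfl, fun a ha => (h ⟨a, ha⟩).elim⟩

theorem lgs_eq (hB : W.bl.Ok β) {c : ℕ → ℚ} {μ : ℚ} (ε : ℚ) (hμ : ∀ a, W.w a ≠ 0 →
    ∑ l, (if (A.C a).lab l = 0 then 0 else c ((A.C a).lab l) * W.w a l) = μ) {p : W.bl.κ}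
    {z : ι → ℂ} (hz : z ∈ gd β (W.bl.C p)) : lgs (W.bl.C p) (update c W.N (ε + μ)) z =
      lgs (A.C p.1.1) c (σ W p z) + ε * Real.log ‖so p.1.2 z‖ := by
  have s0 := so_ne hB hz
  have n0 := fun l => ne_zero (hB.ch p) hz (l := l)
  obtain ⟨⟨a, o⟩, h⟩ := p
  cases o with
  | none =>
    simp only [so, norm_one, Real.log_one, mul_zero, add_zero]
    exact Finset.sum_congr rfl fun l _ => by
      rw [show (W.bl.C ⟨(a, none), h⟩).lab l = (A.C a).lab l from rfl,
        update_of_ne (W.new a l)]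
      rfl
  | some i =>
    have hw : W.w a ≠ 0 := fun k => h (congrFun k i)
    replace s0 : z i ≠ 0 := s0
    have e := congrArg (fun t : ℚ => (t : ℝ) * Real.log ‖z i‖) (hμ a hw)
    simp only [Rat.cast_sum, Finset.sum_mul] at e
    have k : ∀ l, (if (update (A.C a).lab i W.N) l = 0 then (0 : ℝ) else
        (update c W.N (ε + μ) (update (A.C a).lab i W.N l) : ℝ) * Real.log ‖z l‖) =
        (if (A.C a).lab l = 0 then 0 else (c ((A.C a).lab l) : ℝ) * Real.log ‖sl (W.w a) i z l‖) -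
        ((if (A.C a).lab l = 0 then 0 else c ((A.C a).lab l) * W.w a l : ℚ) : ℝ) * Real.log ‖z i‖ +
        if l = i then ((ε + μ : ℚ) : ℝ) * Real.log ‖z i‖ else 0 := fun l => by
      by_cases hl : l = i
      · subst hl
        simp only [update_self, if_neg W.pos, sl, if_true, norm_pow, Real.log_pow]
        split_ifs <;> push_cast <;> ring
      · rw [update_of_ne hl, update_of_ne (W.new a l), if_neg hl]
        by_cases h0 : (A.C a).lab l = 0
        · simp [h0]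
        · have : z l ≠ 0 := n0 l ((update_of_ne hl _ _).trans_ne h0)
          simp only [if_neg h0, sl, if_neg hl, norm_mul, norm_pow]
          rw [Real.log_mul (pow_ne_zero _ (norm_ne_zero_iff.2 s0)) (norm_ne_zero_iff.2 this),
            Real.log_pow]
          push_cast
          ring
    refine (Finset.sum_congr rfl fun l _ => k l).trans ?_
    rw [Finset.sum_add_distrib, Finset.sum_sub_distrib, e, Finset.sum_ite_eq' Finset.univ i,
      if_pos (Finset.mem_univ _)]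
    push_cast
    change lgs (A.C a) c (sl (W.w a) i z) - _ + _ =
      lgs (A.C a) c (sl (W.w a) i z) + (ε : ℝ) * Real.log ‖z i‖
    ring

variable (W) in
/-- the candidates in the chart `p` -/
def S (r : ℝ) (p : W.bl.κ) : Set ((ι → ℂ) × (ι → ℂ)) :=
  {y | y.1 ∈ (W.bl.C p).B ∧ y.2 ∈ A.K p.1.1 ∧ nsq (σ W p y.1 - y.2) ≤ r ^ 2 ∧
    ∀ l, W.w p.1.1 l ≠ 0 → p.1.2 ≠ some l → ‖y.1 l‖ ≤ 2}

theorem mem_thick {K : Set (ι → ℂ)} {r : ℝ} (hr : 0 < r) {v c : ι → ℂ} (hc : c ∈ K)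
    (h : nsq (v - c) ≤ r ^ 2) : v ∈ cthickening r K :=
  mem_cthickening_of_dist_le v c r K hc (by
    rw [dist_eq_norm]
    exact (pow_le_pow_iff_left₀ (norm_nonneg _) hr.le two_ne_zero).1 ((norm_sq_le_nsq _).trans h))

theorem isCompact_S (hA : A.Ok β) {r : ℝ} (hr : 0 < r)
    (hU : ∀ a, cthickening r (A.K a) ⊆ (A.C a).U) (p : W.bl.κ) : IsCompact (S W r p) := by
  have c1 : Continuous fun y : (ι → ℂ) × (ι → ℂ) => nsq (σ W p y.1 - y.2) :=
    continuous_nsq.comp (((cont_σ _ _).comp continuous_fst).sub continuous_snd)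
  obtain ⟨R, hR⟩ := (hA.cpt p.1.1).cthickening (r := r) |>.isBounded.exists_norm_le
  refine Metric.isCompact_of_isClosed_isBounded ?_ ?_
  · have e : S W r p = {y | y.1 ∈ closure {z | σ W p z ∈ (A.C p.1.1).B ∧ so p.1.2 z ≠ 0}} ∩
        ({y | y.2 ∈ A.K p.1.1} ∩ ({y | nsq (σ W p y.1 - y.2) ≤ r ^ 2} ∩
          ⋂ l, ⋂ (_ : W.w p.1.1 l ≠ 0), ⋂ (_ : p.1.2 ≠ some l), {y | ‖y.1 l‖ ≤ 2})) := by
      ext y
      simp only [S, mem_inter_iff, mem_ofPred_eq, mem_iInter]
      exact ⟨fun h => ⟨h.1.2, h.2⟩, fun h => ⟨⟨hU _ (mem_thick hr h.2.1 h.2.2.1), h.1⟩, h.2⟩⟩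
    rw [e]
    exact (isClosed_closure.preimage continuous_fst).inter
      (((hA.cpt _).isClosed.preimage continuous_snd).inter ((isClosed_le c1 continuous_const).inter
        (isClosed_iInter fun l => isClosed_iInter fun _ => isClosed_iInter fun _ =>
          isClosed_le (by fun_prop) continuous_const)))
  · refine isBounded_iff_forall_norm_le.2 ⟨max 2 R, fun y hy => ?_⟩
    have h1 := hR _ (mem_thick hr hy.2.1 hy.2.2.1)
    have h2 := hR _ (self_subset_cthickening _ hy.2.1)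
    refine max_le ((pi_norm_le_iff_of_nonneg (by positivity)).2 fun l => ?_)
      (le_max_of_le_right h2)
    have h3 := (norm_le_pi_norm _ l).trans h1
    have h4 := hy.2.2.2 l
    obtain ⟨⟨a, o⟩, h⟩ := p
    cases o with
    | none => exact le_max_of_le_right h3
    | some i =>
      by_cases hl : l = i
      · subst hl
        simp only [σ, σo, sl, if_true, norm_pow] at h3
        by_contra hc
        rw [not_le, max_lt_iff] at hc
        exact hc.2.not_ge ((le_self_pow₀ (by linarith [hc.1]) h).trans h3)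
      · by_cases hw : W.w a l = 0
        · simp only [σ, σo, sl, if_neg hl, hw, pow_zero, one_mul] at h3
          exact le_max_of_le_right h3
        · exact le_max_of_le_left (h4 hw fun k => hl (Option.some.inj k).symm)

end Vale.Agent.P277Z.Pos.Bl
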