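import Vale.Agent.P277Z.Pos.Out
import Vale.Agent.P277Z.Pos.DefsC
import Vale.Agent.P277Z.Hir.MSk

/-!
# P277Z, block P: the output and the start, with given coefficients
-/

open Filter Topology Set Function Metric

noncomputable section

namespace Vale.Agent.P277Z.Pos

open Vale.Agent.P277Z.Hir.Gl
open Vale.Agent.P284Z (Psh)

theorem poutC (h1 : ALL) (h2 : REM) : POUTC := by
  rintro n X _ β A c hA hfull hZ ⟨Ψ, δ, L, hδ, hL, hlim, hT⟩
  refine ⟨Ψ, fun a u hu hO => ?_⟩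
  have ok := hA.ch a
  have hB := hfull a
  obtain ⟨r, hr, hrU⟩ := nhds_basis_closedBall.mem_iff.1 (ok.isOpen.mem_nhds hu)
  obtain ⟨δ', hδ', hTA⟩ := h1 _ _ β A L (fun b => {z | b = a ∧ z ∈ closedBall u r}) Ψ δ hA hδ hL
    (fun b => by
      by_cases hb : b = a
      · subst hb
        simpa [hB] using ⟨isCompact_closedBall u r, hrU⟩
      · simp [hb]) hT
  obtain ⟨m, g, hg, hev⟩ := hTA _ hO
  choose G hG1 hG2 using fun k => ok.hol u (hB ▸ hu) (g k) (hg k)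
  obtain ⟨F, hF1, hF2, hF3⟩ := hZ a u hu hO
  have hπ : ContinuousAt (A.C a).π u := ok.cont.continuousAt (hB ▸ ok.isOpen.mem_nhds hu)
  obtain ⟨s, hs, hb⟩ := Metric.eventually_nhds_iff_ball.1
    ((((hπ.eventually hev).and (hπ.eventually (β.isOpen.mem_nhds hO))).and
      ((eventually_all.2 fun k => (hG1 k).eventually_analyticAt).and (eventually_all.2 hG2))).and
      ((hF1.eventually_analyticAt.and hF3).and (closedBall_mem_nhds u hr)))
  have hU : ∀ z ∈ ball u s, z ∈ (A.C a).B := fun z hz => hB ▸ hrU (hb z hz).2.2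
  set f : (Fin n → ℂ) → ℝ := fun z => Ψ ((A.C a).π z) - 2 * lgs (A.C a) c z with hf
  set h : (Fin n → ℂ) → ℝ := fun z => extendFrom (gd β (A.C a)) f z + nsq fun k => G k z with hh
  have hval : ∀ z ∈ ball u s, (A.C a).π z ∉ β.Z →
      h z = pot Ψ g ((A.C a).π z) + -(2 * lgs (A.C a) c z) := fun z hz hz' => by
    have e1 : (fun k => G k z) = fun k => g k ((A.C a).π z) :=
      funext fun k => ((hb z hz).1.2.2 k (hU z hz)).symm
    simp only [hh]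
    rw [Out.ext_eq (S := gd β (A.C a)) ⟨hU z hz, hz'⟩ (hlim a z (hU z hz) (hb z hz).1.1.2), e1, pot]
    ring
  have hcont : ContinuousOn h (ball u s) :=
    (continuousOn_extendFrom (fun z hz => ok.dense z (hU z hz))
      fun z hz => hlim a z (hU z hz) (hb z hz).1.1.2).add
      (continuous_nsq.comp_continuousOn (continuousOn_pi.2 fun k z hz =>
        ((hb z hz).1.2.1 k).continuousAt.continuousWithinAt))
  have hFa : AnalyticOnNhd ℂ F (ball u s) := fun z hz => (hb z hz).2.1.1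
  refine ⟨m, g, δ' / 4, ball u s, h, hg, by positivity, isOpen_ball, mem_ball_self hs,
    fun z hz => hB ▸ hU z hz, hcont,
    h2 n (ball u s) h F δ' isOpen_ball hcont hFa (Out.dense_ne hs hFa hF2) fun z hz hz0 => ?_,
    fun z hz hz' => by rw [hval z hz hz', pot, nsq]; ring⟩
  have hz' : (A.C a).π z ∉ β.Z := fun k => hz0 ((hb z hz).2.1.2 k)
  have t1 := ((hb z hz).1.1.1 hz' a z ⟨rfl, (hb z hz).2.2⟩ rfl).filter (S' := univ) (by
    rw [nhdsWithin_univ, nhdsWithin_eq_nhds.2 (hB ▸ ok.isOpen.mem_nhds (hB ▸ hU z hz))])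
  have t2 := Out.tch_lgs (A.C a) c (S := univ) fun k => hz' (ok.unt z (hU z hz) k)
  refine ((t1.add t2).mono fun ξ => (add_zero _).ge).of_le (hval z hz hz').symm ?_
  rw [nhdsWithin_univ]
  filter_upwards [isOpen_ball.mem_nhds hz, (hFa z hz).continuousAt.eventually_ne hz0] with w k1 k2
  exact (hval w k1 fun k => k2 ((hb w k1).2.1.2 k)).ge

/-- `At.PosOut` with given coefficients -/
def PosOutC {ι X : Type} [Fintype ι] [DecidableEq ι] [TopologicalSpace X] (β : Base X) (A : At ι X)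
    (c : ℕ → ℚ) : Prop :=
  ∃ Ψ : X → ℝ, ∀ a, ∀ u ∈ (A.C a).B, (A.C a).π u ∈ β.O →
    ∃ (m : ℕ) (g : Fin m → X → ℂ) (ε : ℝ) (U : Set (ι → ℂ)) (h : (ι → ℂ) → ℝ),
      (∀ i, β.Hol (g i) ((A.C a).π u)) ∧ 0 < ε ∧ IsOpen U ∧ u ∈ U ∧ ContinuousOn h U ∧
      Psh (fun z => h z - ε * ∑ l, ‖z l‖ ^ 2) U ∧
      ∀ᶠ z in 𝓝 u, (A.C a).π z ∉ β.Z → h z = Ψ ((A.C a).π z) + ∑ i, ‖g i ((A.C a).π z)‖ ^ 2 -
        2 * ∑ l ∈ Finset.univ.filter (fun l => (A.C a).lab l ≠ 0),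
          (c ((A.C a).lab l) : ℝ) * Real.log ‖z l‖

theorem exists_eqn (S : Hir.Base) {O : Set S.X} {hO : IsOpen O} {ι : Type} [Fintype ι]
    [DecidableEq ι] {C : Ch ι S.X} (ok : C.Ok (S.gl O hO)) (hB : C.B = C.U) {u : ι → ℂ}
    (hu : u ∈ C.U) : ∃ F : (ι → ℂ) → ℂ, AnalyticAt ℂ F u ∧ (¬ ∀ᶠ z in 𝓝 u, F z = 0) ∧
      ∀ᶠ z in 𝓝 u, C.π z ∈ S.Bad → F z = 0 := by
  obtain ⟨γ, hγ⟩ := S.cover (C.π u)
  have hn : C.B ∈ 𝓝 u := hB ▸ ok.isOpen.mem_nhds hu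
  have h1 : ∀ᶠ z in 𝓝 u, C.π z ∈ S.XO γ :=
    (ok.cont.continuousAt hn).eventually ((S.isOpen γ).mem_nhds hγ)
  choose F hF1 hF2 using fun k => ok.hol u (hB ▸ hu) (S.f γ k) (S.hol γ k _ hγ)
  have h2 : ∀ᶠ z in 𝓝 u, C.π z ∈ S.Bad ↔ ∀ k, F k z = 0 := by
    filter_upwards [h1, eventually_all.2 hF2, hn] with z k1 k2 k3
    rw [S.zero γ _ k1]
    exact forall_congr' fun k => by rw [k2 k k3]
  obtain ⟨k, hk⟩ : ∃ k, ¬ ∀ᶠ z in 𝓝 u, F k z = 0 := by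
    by_contra! h3
    obtain ⟨z, k1, k2⟩ := mem_closure_iff_nhds.1 (ok.dense u (hB ▸ hu)) _
      (h2.and (eventually_all.2 h3))
    exact k2.2 (k1.1.2 k1.2)
  exact ⟨F k, hF1 k, hk, h2.mono fun z k1 k2 => k1.1 k2 k⟩

theorem posOutC (h1 : ALL) (h2 : REM) (S : Hir.Base) {n : ℕ} {O : Set S.X} {hO : IsOpen O}
    {A : At (Fin n) S.X} (hA : A.Ok (S.gl O hO)) (hF : A.Full) {c : ℕ → ℚ}
    (h : PosC (S.gl O hO) A c) : PosOutC (S.gl O hO) A c := by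
  obtain ⟨Ψ, hΨ⟩ := poutC h1 h2 n _ _ A c hA hF
    (fun a u hu _ => exists_eqn S (hA.ch a) (hF a) hu) h
  refine ⟨Ψ, fun a u hu hx => ?_⟩
  obtain ⟨m, g, ε, U, h, k1, k2, k3, k4, -, k6, k7, k8⟩ := hΨ a u (hF a ▸ hu) hx
  refine ⟨m, g, ε, U, h, k1, k2, k3, k4, k6, k7, ?_⟩
  filter_upwards [k3.mem_nhds k4] with z hz hz'
  rw [k8 z hz hz', lgs, Finset.sum_filter]
  simp only [ne_eq, ite_not]

theorem posOut (h1 : ALL) (h2 : REM) (S : Hir.Base) {n : ℕ} {O : Set S.X} {hO : IsOpen O}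
    {A : At (Fin n) S.X} (hA : A.Ok (S.gl O hO)) (hF : A.Full) (h : Pos (S.gl O hO) A) :
    A.PosOut (S.gl O hO) :=
  let ⟨c, hc, h⟩ := pos_iff.1 h
  let ⟨Ψ, hΨ⟩ := posOutC h1 h2 S hA hF h
  ⟨c, Ψ, hc, hΨ⟩

variable {ι X : Type} [Fintype ι] [DecidableEq ι] [TopologicalSpace X] [T2Space X] {β : Base X}
  {A : At ι X}

omit [DecidableEq ι] in
/-- the cores cover `O` -/
theorem cov_all (hA : A.Ok β) (hd : Dense β.Zᶜ) {x : X} (hx : x ∈ β.O) :
    ∃ a, ∃ u ∈ A.K a, (A.C a).π u = x := by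
  have h1 : IsClosed (⋃ a, (A.C a).π '' A.K a) := isClosed_iUnion_of_finite fun a =>
    ((hA.cpt a).image_of_continuousOn ((hA.ch a).cont.mono (hA.sub a))).isClosed
  have h2 : β.O ∩ β.Zᶜ ⊆ ⋃ a, (A.C a).π '' A.K a := fun y hy =>
    mem_iUnion.2 (hA.cov y hy.1 hy.2)
  exact mem_iUnion.1 (closure_minimal h2 h1 (hd.open_subset_closure_inter β.isOpen hx))

theorem posInitC (h : PINITC) (hA : A.Ok β) (hd : Dense β.Zᶜ) (hI : ∀ a, (A.C a).Init β)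
    (c : ℕ → ℚ) : PosC β A c := by
  choose K hK h1 h2 using fun a =>
    exists_compact_between (hA.cpt a) (hA.ch a).isOpen ((hA.sub a).trans (hA.ch a).sub)
  refine h ι X β A (fun a => K a ∩ (A.C a).B) c (fun a l k => absurd ((hI a).lab l) k)
    (fun a => ⟨?_, inter_subset_right⟩) fun x hx => ?_
  · have : K a ∩ (A.C a).B = K a ∩ closure (A.C a).B := Subset.antisymm
      (inter_subset_inter_right _ subset_closure)
      fun z hz => ⟨hz.1, (hA.ch a).closed z (h2 a hz.1) hz.2⟩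
    rw [this]
    exact (hK a).inter_right isClosed_closure
  · obtain ⟨a, u, hu, rfl⟩ := cov_all hA hd hx
    choose g hg1 hg2 using (hI a).crd u (hA.sub a hu)
    refine ⟨a, g, hg1, ?_⟩
    have h3 : ∀ᶠ v in 𝓝[(A.C a).B] u, v ∈ K a ∩ (A.C a).B ∧
        ∀ᶠ z in 𝓝[(A.C a).B] v, ∀ l, g l ((A.C a).π z) = z l := by
      filter_upwards [self_mem_nhdsWithin,
        mem_nhdsWithin_of_mem_nhds (mem_interior_iff_mem_nhds.1 (h1 a hu)),
        mem_nhdsWithin_of_mem_nhds (eventually_all.2 hg2).eventually_nhds] with v k1 k2 k3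
      refine ⟨⟨k2, k1⟩, ?_⟩
      filter_upwards [self_mem_nhdsWithin, mem_nhdsWithin_of_mem_nhds k3] with z k4 k5 l
      exact k5 l k4
    filter_upwards [(hI a).opn u (hA.sub a hu) (image_mem_map h3)] with x' ⟨v, k1, k2⟩
    exact ⟨v, k1.1, k2, k1.2⟩

theorem posInit (h : PINITC) (hA : A.Ok β) (hd : Dense β.Zᶜ) (hI : ∀ a, (A.C a).Init β) :
    Pos β A :=
  pos_iff.2 ⟨fun _ => 1, fun _ => one_pos, posInitC h hA hd hI _⟩

end Vale.Agent.P277Z.Pos
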