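import Vale.Agent.P277Z.Pos.MSpec
import Vale.Agent.P285Z.Gg1A
import Vale.Agent.P253Z.HJ.Mod

/-!
# P277Z, block P: poles, cut-off functions and jets in a coordinate ball
-/

open scoped Manifold ContDiff ComplexOrder ComplexConjugate Topology ENNReal Matrix
open MeasureTheory Filter Set Metric

set_option linter.unusedSectionVars false

noncomputable section

namespace Vale.Agent.P277Z.Pos.Pk

open Vale.Agent.P272.K Vale.Agent.P301.H599 Vale.Agent.P285Z
open Vale.Agent.P277Z.Van (SmOn PSDOn PDOn IsVol)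
open Vale.Agent.P253Z.HJ (two_le)

variable {d : ℕ}

theorem Qf_quad (M : Matrix (Fin d) (Fin d) ℂ) (v : Cm d) :
    Qf M v = (quad M fun i => conj (v i)).re := by
  rw [quad_eq]
  simp [Qf]

theorem Qf_form (M J : Matrix (Fin d) (Fin d) ℂ) (v : Cm d) :
    Qf (J.transpose * M * J.map conj) v = Qf M (J.map conj *ᵥ v) := by
  have h : (J.map conj).conjTranspose = J.transpose := by
    ext i j
    simp
  rw [Qf, Qf, Matrix.star_mulVec, h, ← Matrix.mulVec_mulVec, ← Matrix.mulVec_mulVec,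
    Matrix.dotProduct_mulVec]

theorem dom {K : Set (Cm d)} (hK : IsCompact K) {M N : Cm d → Matrix (Fin d) (Fin d) ℂ}
    (hM : ∀ z ∈ K, ∀ i j, ContinuousAt (fun z => M z i j) z)
    (hN : ∀ z ∈ K, ∀ i j, ContinuousAt (fun z => N z i j) z) (hp : ∀ z ∈ K, (M z).PosDef) :
    ∃ C : ℝ, 0 < C ∧ ∀ z ∈ K, ∀ v, Qf (N z) v ≤ C * Qf (M z) v := by
  obtain ⟨C, hC, h⟩ := exists_quad_lower hK M N (fun i j z hz => (hM z hz i j).continuousWithinAt)
    (fun i j z hz => (hN z hz i j).continuousWithinAt) hp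
  exact ⟨C, hC, fun z hz v => by rw [Qf_quad, Qf_quad]; exact h z hz _⟩

/-- the first jet of a holomorphic function with a small `L²` norm -/
theorem jet (n : ℕ) {Q η r : ℝ} (hQ : 0 ≤ Q) (hη : 0 < η) (hr : 0 < r) :
    ∀ᶠ ε in 𝓝[>] (0 : ℝ), ∀ (c : Cm n) (v : Cm n → ℂ), DifferentiableOn ℂ v (ball c (2 * ε * r)) →
      ∫⁻ z in ball c (2 * ε * r), ENNReal.ofReal (‖v z‖ ^ 2) ≤
        ENNReal.ofReal (Q * ((4 * n + 1) * ε ^ 2) ^ (n + 2)) → ‖v c‖ ≤ η ∧ ‖fderiv ℂ v c‖ ≤ η := by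
  set V := (volume (ball (0 : Cm n) 1)).toReal with hV
  have hVt : volume (ball (0 : Cm n) 1) ≠ ⊤ := measure_ball_lt_top.ne
  have hV0 : 0 < V := ENNReal.toReal_pos (measure_ball_pos _ _ one_pos).ne' hVt
  set P := Q * (4 * n + 1) ^ (n + 2) / (V * r ^ (2 * n)) + 1 with hP
  have hP1 : 1 ≤ P := le_add_of_nonneg_left (by positivity)
  have ev : ∀ a : ℝ, 0 < a → ∀ᶠ ε in 𝓝[>] (0 : ℝ), ε ≤ a := fun a ha =>
    mem_nhdsWithin_of_mem_nhds (Iic_mem_nhds ha)
  filter_upwards [self_mem_nhdsWithin, ev 1 one_pos, ev (η / P) (by positivity),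
    ev (η * r / (2 * P)) (by positivity)] with ε e0 e1 e2 e3 c v hv hI
  replace e0 : 0 < ε := e0
  rw [le_div_iff₀ (by positivity)] at e2 e3
  have e4 : 0 < ε * r := by positivity
  have key : ∀ z ∈ closedBall c (ε * r), ‖v z‖ ≤ P * ε ^ 2 := fun z hz => by
    have hs : ball z (ε * r) ⊆ ball c (2 * ε * r) := ball_subset_ball' (by
      rw [mem_closedBall] at hz; linarith)
    have h1 := (Vale.Agent.P299.H570.mean_value1 e4 (hv.mono hs)).trans
      ((lintegral_mono_set hs).trans hI)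
    rw [← ENNReal.ofReal_toReal hVt, ← hV, ← ENNReal.ofReal_mul (by positivity),
      ← ENNReal.ofReal_mul (by positivity), ENNReal.ofReal_le_ofReal_iff (by positivity)] at h1
    have h2 : ‖v z‖ ^ 2 ≤ Q * (4 * n + 1) ^ (n + 2) / (V * r ^ (2 * n)) * (ε ^ 2) ^ 2 := by
      rw [div_mul_eq_mul_div, le_div_iff₀ (by positivity)]
      refine le_of_mul_le_mul_right ?_ (show 0 < ε ^ (2 * n) by positivity)
      calc ‖v z‖ ^ 2 * (V * r ^ (2 * n)) * ε ^ (2 * n) = ‖v z‖ ^ 2 * ((ε * r) ^ (2 * n) * V) := by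
            ring
        _ ≤ _ := h1
        _ = _ := by rw [mul_pow]; ring
    refine le_of_sq_le_sq ?_ (by positivity)
    rw [mul_pow]
    refine h2.trans (mul_le_mul_of_nonneg_right ?_ (by positivity))
    nlinarith
  refine ⟨(key c (mem_closedBall_self e4.le)).trans (by nlinarith), ?_⟩
  have hm : MapsTo v (ball c (ε * r)) (closedBall (v c) (2 * P * ε ^ 2)) := fun z hz => by
    rw [mem_closedBall, dist_eq_norm]
    have := norm_sub_le (v z) (v c)
    linarith [key z (ball_subset_closedBall hz), key c (mem_closedBall_self e4.le)]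
  refine (Complex.norm_fderiv_le_div_of_mapsTo_ball
    (hv.mono (ball_subset_ball (by linarith))) hm e4).trans ?_
  rw [div_le_iff₀ e4]
  nlinarith

variable {Y : Type} [TopologicalSpace Y] [ChartedSpace (Cm d) Y] {e e' : Chart d Y} {c : Cm d}
  {R r : ℝ} {x : Y} {Ω : Set Y} {W : Fm d Y}

/-- a closed coordinate ball -/
def pc (e : Chart d Y) (c : Cm d) (R : ℝ) : Set Y := e.source ∩ e ⁻¹' closedBall c R

theorem pc_mono {R' : ℝ} (h : R ≤ R') : pc e c R ⊆ pc e c R' :=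
  fun _ hx => ⟨hx.1, closedBall_subset_closedBall h hx.2⟩

theorem symm_mem {z : Cm d} (h : closedBall c R ⊆ e.target) (hz : z ∈ closedBall c R) :
    e.symm z ∈ pc e c R := ⟨e.map_target (h hz), by rwa [mem_preimage, e.right_inv (h hz)]⟩

theorem pc_compact (h : closedBall c R ⊆ e.target) : IsCompact (pc e c R) := by
  rw [pc, ← e.symm_image_eq_source_inter_preimage h]
  exact (isCompact_closedBall _ _).image_of_continuousOn (e.continuousOn_symm.mono h)

/-- extension by zero -/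
def ex (e : Chart d Y) (ψ : Cm d → ℝ) : Y → ℝ := e.source.indicator fun x => ψ (e x)

variable {ψ : Cm d → ℝ}

theorem ex_eq (hx : x ∈ e.source) : ex e ψ x = ψ (e x) := indicator_of_mem hx _

theorem ex_zero (h0 : ∀ z ∉ closedBall c R, ψ z = 0) (hx : x ∉ pc e c R) : ex e ψ x = 0 := by
  by_cases h : x ∈ e.source
  · exact (ex_eq h).trans (h0 _ fun h1 => hx ⟨h, h1⟩)
  · exact indicator_of_notMem h _

theorem ex_ev (hx : At e x) : (fun z => ex e ψ (e.symm z)) =ᶠ[𝓝 (e x)] ψ := by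
  filter_upwards [hx.nhds_target] with z hz
  rw [ex_eq (e.map_target hz), e.right_inv hz]

theorem ev_symm (hx : At e x) {p : Y → Prop} (h : ∀ᶠ y in 𝓝 x, p y) :
    ∀ᶠ z in 𝓝 (e x), p (e.symm z) :=
  (e.continuousAt_symm hx.mem_target).eventually (by rwa [hx.left_inv])

theorem ev_out [T2Space Y] (h : closedBall c R ⊆ e.target) (hx : x ∉ pc e c R) :
    ∀ᶠ y in 𝓝 x, y ∉ pc e c R := (pc_compact h).isClosed.isOpen_compl.mem_nhds hx

theorem lint [MeasurableSpace Y] [BorelSpace Y] {h : Fm d Y} {μ : Measure Y} (hμ : IsVol h μ)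
    (he : e ∈ atlas (Cm d) Y) {S : Set (Cm d)} (hS : MeasurableSet S) (hSt : S ⊆ e.target)
    (hO : MeasurableSet (e.source ∩ e ⁻¹' S)) {f : Cm d → ℝ≥0∞} (hf : ContinuousOn f S) :
    ∫⁻ x in e.source ∩ e ⁻¹' S, f (e x) ∂μ =
      ∫⁻ z in S, f z * ENNReal.ofReal (h e z).det.re := by
  classical
  have hm : Measurable ((e.source ∩ e ⁻¹' S).indicator fun x => f (e x)) := by
    have h1 : ContinuousOn (fun x => f (e x)) (e.source ∩ e ⁻¹' S) :=
      hf.comp (e.continuousOn.mono inter_subset_left) fun _ h => h.2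
    rw [← piecewise_eq_indicator]
    exact h1.measurable_piecewise continuousOn_const hO
  rw [← lintegral_indicator hO, hμ e he _ hm fun x hx => indicator_of_notMem (fun h => hx h.1) _,
    ← inter_eq_self_of_subset_left hSt, ← Measure.restrict_restrict hS, ← lintegral_indicator hS,
    inter_eq_self_of_subset_left hSt]
  refine setLIntegral_congr_fun e.open_target.measurableSet fun z hz => ?_
  by_cases hz' : z ∈ S
  · rw [indicator_of_mem hz', indicator_of_mem, e.right_inv hz]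
    exact ⟨e.map_target hz, by rwa [mem_preimage, e.right_inv hz]⟩
  · rw [indicator_of_notMem hz', indicator_of_notMem, zero_mul]
    exact fun h => hz' (by simpa only [mem_preimage, e.right_inv hz] using h.2)

/-- a continuous positive form on `Ω` -/
structure Gd (Ω : Set Y) (W : Fm d Y) : Prop where
  pd : PDOn Ω W
  form : ∀ e e' x, At e x → At e' x → x ∈ Ω →
    W e (e x) = (jacM e e' x).transpose * W e' (e' x) * (jacM e e' x).map conj
  cont : ∀ e x, At e x → x ∈ Ω → ∀ i j, ContinuousAt (fun z => W e z i j) (e x)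

theorem Gd.dom (hW : Gd Ω W) (he : e ∈ atlas (Cm d) Y) (ht : closedBall c R ⊆ e.target)
    (hΩ : pc e c R ⊆ Ω) {N : Cm d → Matrix (Fin d) (Fin d) ℂ}
    (hN : ∀ z i j, ContinuousAt (fun z => N z i j) z) :
    ∃ C : ℝ, 0 < C ∧ ∀ z ∈ closedBall c R, ∀ v, Qf (N z) v ≤ C * Qf (W e z) v :=
  Pk.dom (isCompact_closedBall c R) (fun z hz i j => by
    simpa only [e.right_inv (ht hz)] using
      hW.cont e _ (At.of_target he (ht hz)) (hΩ (symm_mem ht hz)) i j) (fun z _ => hN z)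
    fun z hz => by
      simpa only [e.right_inv (ht hz)] using
        hW.pd e _ (At.of_target he (ht hz)) (hΩ (symm_mem ht hz))

variable [IsManifold 𝓘(ℂ, Cm d) ω Y]

theorem ddc_change {u : Y → ℝ} (h : At e x) (h' : At e' x)
    (hu : ContDiffAt ℝ 2 (fun z => u (e'.symm z)) (e' x)) :
    ddc u e (e x) = (jacM e e' x).transpose * ddc u e' (e' x) * (jacM e e' x).map conj := by
  have h1 : (fun y => u (e.symm y)) =ᶠ[𝓝 (e x)] fun y => u (e'.symm (e' (e.symm y))) := by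
    filter_upwards [h.nhds_at h'] with z hz
    rw [hz.2.2.left_inv]
  have h2 : e' (e.symm (e x)) = e' x := by rw [h.left_inv]
  have := cHess_comp (τ := fun z => e' (e.symm z)) (f := fun y => u (e'.symm y)) (z := e x)
    (by rwa [h2]) (transition h h')
  rw [h2] at this
  exact (cHess_congr h1).trans this

theorem DvX_change {u : Y → ℝ} (hu : Smooth (d := d) u) (h : At e x) (h' : At e' x) (v : Cm d) :
    Ch.DvX u e x v = Ch.DvX u e' x ((jacM e e' x).map conj *ᵥ v) := by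
  have h1 : (fun y => (u (e.symm y) : ℂ)) =ᶠ[𝓝 (e x)]
      fun y => (u (e'.symm (e' (e.symm y))) : ℂ) := by
    filter_upwards [h.nhds_at h'] with z hz
    rw [hz.2.2.left_inv]
  have h2 : e' (e.symm (e x)) = e' x := by rw [h.left_inv]
  have h3 := fun b => dzb_comp_holo (i := b) (τ := fun z => e' (e.symm z))
    (f := fun y => (u (e'.symm y) : ℂ)) (z := e x)
    (by rw [h2]; exact C2.differentiableAt_ofReal (Ch.sm_diff hu h'))
    (transition_differentiableAt h h')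
  simp only [Ch.DvX, Ch.Dv, dzb_congr h1, h3, h2, Finset.sum_mul, Matrix.mulVec, dotProduct,
    Finset.mul_sum, Matrix.map_apply, jacM_eq, mul_assoc]
  exact Finset.sum_comm

variable [T2Space Y]

/-- the weights with a regularised pole -/
theorem pole (hW : Gd Ω W) (he : e ∈ atlas (Cm d) Y) (hr : 0 < r)
    (ht : closedBall c (2 * r) ⊆ e.target) (hΩ : pc e c (2 * r) ⊆ Ω) :
    ∃ C : ℝ, 0 ≤ C ∧ ∀ ε : ℝ, 0 < ε → (4 * d + 1) * ε ^ 2 ≤ 1 / 2 → ∃ T : Y → ℝ,
      Smooth (d := d) T ∧ (∀ x, T x ≤ 0) ∧ (∀ x ∉ pc e c (2 * r), T x = 0) ∧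
      (PSDOn Ω fun e' z => (C : ℂ) • W e' z + ddc T e' z) ∧
      (∀ x ∈ e.source, r / 2 ≤ ‖e x - c‖ → (1 / 4 : ℝ) ^ (d + 2) ≤ Real.exp (T x)) ∧
      ∀ x ∈ e.source, ‖e x - c‖ ≤ 2 * ε * r →
        Real.exp (T x) ≤ ((4 * d + 1) * ε ^ 2) ^ (d + 2) := by
  obtain ⟨Λ, hΛ, hτ⟩ := P253Z.HJ.exists_tau d
  let A : Cm d → Cm d := fun z => ((r⁻¹ : ℝ) : ℂ) • (z - c)
  have hA : ContDiff ℂ ω A := (contDiff_id.sub contDiff_const).const_smul _
  have hA' : ContDiff ℝ ∞ A := (hA.restrict_scalars ℝ).of_le le_top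
  have hn : ∀ z, ‖A z‖ = ‖z - c‖ / r := fun z => by
    rw [norm_smul, Complex.norm_real, Real.norm_of_nonneg (by positivity), div_eq_inv_mul]
  have hq : ContDiff ℝ ∞ fun z => P253Z.HJ.nsq (A z) + 0 :=
    (P253Z.HJ.contDiff_nsq.comp hA').add contDiff_const
  obtain ⟨C, hC, hd⟩ := hW.dom he ht hΩ (N := cHess fun z => P253Z.HJ.nsq (A z) + 0)
    fun z i j => (contDiffAt_cHess (m := 0) hq.contDiffAt
      (by rw [zero_add, one_add_one_eq_two]; exact two_le) i j).continuousAt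
  refine ⟨Λ * C, by positivity, fun ε hε hε2 => ?_⟩
  obtain ⟨τ, t1, t2, t3, t4, t5, t6⟩ := hτ ε hε hε2
  have h0 : ∀ z ∉ closedBall c (2 * r), τ (A z) = 0 := fun z hz => t2 _ (by
    rw [hn, le_div_iff₀ hr]
    linarith [not_le.1 (mt mem_closedBall_iff_norm.2 hz)])
  have sm : Smooth (d := d) (ex e fun z => τ (A z)) :=
    G1.smooth_ext he (t1.comp hA') (isCompact_closedBall _ _) ht h0
  refine ⟨_, sm, fun x => ?_, fun x => ex_zero h0, fun e' x hx hxΩ => ?_, fun x hx h => ?_,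
    fun x hx h => ?_⟩
  · by_cases hx : x ∈ e.source
    · exact (ex_eq hx).trans_le (t3 _)
    · exact (indicator_of_notMem hx _).le
  · refine psd_of_Qf ((Ch.herm_smul _ (hW.pd e' x hx hxΩ).isHermitian).add (Ch.ddc_herm sm hx))
      fun v => ?_
    rw [Qf_add, Qf_smul]
    by_cases h1 : x ∈ pc e c (2 * r)
    · have hx' : At e x := ⟨he, h1.1⟩
      have h2 := Qf_nonneg (t4 (A (e x)) (by
        rw [hn, div_le_iff₀ hr]; exact mem_closedBall_iff_norm.1 h1.2))
        ((jmat A (e x)).map conj *ᵥ ((jacM e' e x).map conj *ᵥ v))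
      have h3 := hd _ h1.2 ((jacM e' e x).map conj *ᵥ v)
      rw [cHess_comp (f := fun y => P253Z.HJ.nsq y + 0)
        ((P253Z.HJ.contDiff_nsq.add contDiff_const).contDiffAt.of_le two_le) hA.contDiffAt,
        P253Z.HJ.cHess_nsq, Qf_form] at h3
      rw [Qf_add, Qf_smul] at h2
      rw [hW.form e' e x hx hx' hxΩ, ddc_change hx hx' (Ch.sm_two sm hx'), Qf_form, Qf_form, ddc,
        cHess_congr (ex_ev hx'), cHess_comp (t1.contDiffAt.of_le two_le) hA.contDiffAt, Qf_form]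
      nlinarith
    · have h2 : ddc (ex e fun z => τ (A z)) e' (e' x) = 0 :=
        (cHess_congr (ev_symm hx ((ev_out ht h1).mono fun _ => ex_zero h0))).trans
          (C2.cHess_const 0)
      rw [h2, Ch.Qf_zero, add_zero]
      exact mul_nonneg (by positivity) (Qf_nonneg (hW.pd e' x hx hxΩ).posSemidef v)
  · rw [ex_eq hx]
    exact t5 _ (by rw [hn, le_div_iff₀ hr]; linarith)
  · rw [ex_eq hx]
    exact t6 _ (by rwa [hn, div_le_iff₀ hr])

/-- the cut-off functions -/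
theorem cut (hW : Gd Ω W) (he : e ∈ atlas (Cm d) Y) (hr : 0 < r)
    (ht : closedBall c (2 * r) ⊆ e.target) (hΩ : pc e c (2 * r) ⊆ Ω) :
    ∃ (χ χ₁ : Y → ℝ) (D : ℝ), 0 ≤ D ∧ Smooth (d := d) χ ∧ Continuous χ₁ ∧ (∀ x, 0 ≤ χ₁ x) ∧
      (∀ x, χ₁ x ≤ 1) ∧ (∀ x ∉ pc e c (2 * r), χ₁ x = 0) ∧ (∀ x ∈ pc e c r, χ₁ x = 1) ∧
      (∀ x ∉ pc e c r, χ x = 0) ∧ (∀ x ∈ pc e c (r / 2), χ x = 1) ∧
      ∀ e' x, At e' x → x ∈ pc e c r → ∀ v, ‖Ch.DvX χ e' x v‖ ^ 2 ≤ D * Qf (W e' (e' x)) v ∧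
        (‖e x - c‖ < r / 2 → Ch.DvX χ e' x v = 0) := by
  let f₀ : ContDiffBump c := ⟨r / 2, r, by positivity, by linarith⟩
  let f₁ : ContDiffBump c := ⟨r, 2 * r, hr, by linarith⟩
  have s0 : ContDiff ℝ ∞ f₀ := f₀.contDiff
  have h0 : ∀ z ∉ closedBall c r, f₀ z = 0 := fun z hz => f₀.zero_of_le_dist (not_le.1 hz).le
  have h1 : ∀ z ∉ closedBall c (2 * r), f₁ z = 0 := fun z hz => f₁.zero_of_le_dist (not_le.1 hz).le
  have hs : closedBall c r ⊆ closedBall c (2 * r) := closedBall_subset_closedBall (by linarith)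
  have sm : Smooth (d := d) (ex e f₀) :=
    G1.smooth_ext he s0 (isCompact_closedBall _ _) (hs.trans ht) h0
  obtain ⟨D, hD, hd⟩ := hW.dom he ht hΩ (N := Ch.gm f₀) fun z i j =>
    (C2.contDiffAt_dz (m := 0) i (C2.contDiffAt_ofReal s0.contDiffAt) (by simp)).continuousAt.mul
      (C2.contDiffAt_dzb (m := 0) j (C2.contDiffAt_ofReal s0.contDiffAt) (by simp)).continuousAt
  refine ⟨_, ex e f₁, D, hD.le, sm, smooth_continuous
    (G1.smooth_ext he f₁.contDiff (isCompact_closedBall _ _) ht h1),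
    fun x => indicator_nonneg (fun _ _ => f₁.nonneg) x,
    fun x => indicator_le_self' (fun _ _ => f₁.nonneg) x |>.trans f₁.le_one, fun x => ex_zero h1,
    fun x hx => (ex_eq hx.1).trans (f₁.one_of_mem_closedBall hx.2), fun x => ex_zero h0,
    fun x hx => (ex_eq hx.1).trans (f₀.one_of_mem_closedBall hx.2), fun e' x hx hxr v => ?_⟩
  have hx' : At e x := ⟨he, hxr.1⟩
  rw [DvX_change sm hx hx', hW.form e' e x hx hx' (hΩ ⟨hxr.1, hs hxr.2⟩), Qf_form, Ch.DvX,
    Ch.Dv_congr (ex_ev hx'), ← Ch.Qf_gm (s0.differentiable (by simp) _)]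
  refine ⟨hd _ (hs hxr.2) _, fun h => ?_⟩
  rw [Ch.Dv_congr (u' := fun _ => 1) (by
    filter_upwards [isOpen_ball.mem_nhds (mem_ball_iff_norm.2 h)] with z hz
    exact f₀.one_of_mem_closedBall (ball_subset_closedBall hz))]
  simp [Ch.Dv]

end Vale.Agent.P277Z.Pos.Pk
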